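import Vale.Agent.P249.Mix

/-! P249 piece [THR] (helper16): cutoffs of the sparse Gibbs scales. -/

open Finset

namespace Vale.Agent.P249

namespace ThreshAux

/-- the cutoff -/
noncomputable def ct (s t : ℝ) (r : ℝ) : ℝ := max 0 (min 1 ((t - r) / (t - s)))

theorem ct_nonneg (s t r : ℝ) : 0 ≤ ct s t r := le_max_left _ _

theorem ct_le_one (s t r : ℝ) : ct s t r ≤ 1 := max_le zero_le_one (min_le_left _ _)

theorem ct_eq_one {s t r : ℝ} (hst : s < t) (h : r ≤ s) : ct s t r = 1 := by
  unfold ct
  have h1 : 1 ≤ (t - r) / (t - s) := by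
    rw [le_div_iff₀ (by linarith)]; linarith
  rw [min_eq_left h1, max_eq_right zero_le_one]

theorem ct_eq_zero {s t r : ℝ} (hst : s < t) (h : t ≤ r) : ct s t r = 0 := by
  unfold ct
  have h1 : (t - r) / (t - s) ≤ 0 := div_nonpos_of_nonpos_of_nonneg (by linarith) (by linarith)
  rw [min_eq_right (by linarith), max_eq_left h1]

theorem ct_lip {s t : ℝ} (hst : s < t) (r r' : ℝ) :
    |ct s t r - ct s t r'| ≤ |r - r'| / (t - s) := by
  unfold ct
  refine (clamp01_lip _ _).trans ?_
  rw [← sub_div, abs_div, abs_of_pos (by linarith : 0 < t - s)]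
  have : t - r - (t - r') = -(r - r') := by ring
  rw [this, abs_neg]

end ThreshAux

open ThreshAux in
open Classical in
/-- the cutoffs -/
noncomputable def cutOf {V ι : Type} [Fintype V] [Fintype ι] {p : ℝ} {f : V → ι → ℝ} {Q : ℝ}
    {K : ℕ} (S : Gib p f Q K) (s t : ℝ) (j : ℕ) (x : V) : ℝ :=
  if j = 0 then 1 else ct s t (S.Γ j x)

open ThreshAux in
theorem exists_cfg_of_gib {V ι : Type} [Fintype V] [Fintype ι] {p : ℝ} {f : V → ι → ℝ} {Q : ℝ}
    {K : ℕ} (S : Gib p f Q K) (hK : 1 < K) (hQ : 2 ≤ Q) (s t : ℝ) (hs : 0 < s) (hst : s < t)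
    (ht : 1 ≤ 2 * t) (h1 : ∀ x, S.Γ 1 x ≤ s) (ℓ : ℝ) (hℓ : ∀ x, ∑ j ∈ Ico 1 K, S.Γ j x ≤ ℓ)
    (B : ℕ) (hB : ℓ / s ≤ B) :
    ∃ c : Cfg p f, c.Q = Q ∧ c.ε = 3 / (2 * (t - s)) ∧ c.U = 2 * t ∧ c.R = 2 * ℓ + 1 ∧ c.B = B ∧
      (∀ x, c.sig x ≤ 2 * ∑ j ∈ Ico 1 K, S.Γ j x + 1) ∧
      (∀ x, (c.N x : ℝ) ≤ (((Ico 1 K).filter fun j => s < S.Γ j x).card : ℕ)) ∧
      (∀ x, ¬ c.Clean x → ∃ j ∈ Ico 1 K, s < S.Γ j x ∧ S.Γ j x < t) := by
  classical
  have hcut0 : ∀ x, cutOf S s t 0 x = 1 := fun x => by simp [cutOf]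
  have hcut : ∀ j x, j ≠ 0 → cutOf S s t j x = ct s t (S.Γ j x) := fun j x hj => by
    simp [cutOf, hj]
  have hbad : ∀ x, ((range K).filter fun j => cutOf S s t j x ≠ 1) ⊆
      (Ico 1 K).filter fun j => s < S.Γ j x := by
    intro x j hj
    rw [mem_filter, mem_range] at hj
    rw [mem_filter, mem_Ico]
    have hj0 : j ≠ 0 := by
      intro h0
      rw [h0] at hj
      exact hj.2 (hcut0 x)
    refine ⟨⟨by omega, hj.1⟩, ?_⟩
    by_contra hle
    push Not at hle
    exact hj.2 (by rw [hcut j x hj0, ct_eq_one hst hle])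
  have hcard : ∀ x, (((Ico 1 K).filter fun j => s < S.Γ j x).card : ℝ) ≤ ℓ / s := by
    intro x
    rw [le_div_iff₀ hs]
    calc (((Ico 1 K).filter fun j => s < S.Γ j x).card : ℝ) * s
        = ∑ j ∈ (Ico 1 K).filter (fun j => s < S.Γ j x), s := by rw [sum_const, nsmul_eq_mul]
      _ ≤ ∑ j ∈ (Ico 1 K).filter (fun j => s < S.Γ j x), S.Γ j x :=
          sum_le_sum fun j hj => (mem_filter.1 hj).2.le
      _ ≤ ∑ j ∈ Ico 1 K, S.Γ j x :=
          sum_le_sum_of_subset_of_nonneg (filter_subset _ _) fun j _ _ => S.Γ_nonneg j x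
      _ ≤ ℓ := hℓ x
  have husum : ∀ x, ∑ j ∈ range (K + 1), S.u j x ≤ 2 * ∑ j ∈ Ico 1 K, S.Γ j x + 1 := by
    intro x
    rw [sum_range_succ]
    have e1 : ∑ j ∈ range K, S.u j x = S.u 0 x + ∑ j ∈ Ico 1 K, S.u j x := by
      rw [range_eq_Ico, sum_eq_sum_Ico_succ_bot (by omega : 0 < K)]
    rw [e1, S.u_zero, zero_add, mul_sum]
    have e2 : ∑ j ∈ Ico 1 K, S.u j x ≤ ∑ j ∈ Ico 1 K, 2 * S.Γ j x := by
      refine sum_le_sum fun j hj => ?_
      rw [mem_Ico] at hj
      exact S.u_le j x hj.1 hj.2
    have e3 := S.u_last x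
    linarith
  have hts : 0 < t - s := by linarith
  let c : Cfg p f :=
    { K := K
      Q := Q
      lam := S.lam
      m := S.m
      e := S.e
      u := S.u
      g := fun j x => cutOf S s t j x
      ε := 3 / (2 * (t - s))
      U := 2 * t
      R := 2 * ℓ + 1
      B := B
      hK := hK
      hQ := hQ
      lam_pos := S.lam_pos
      lam_succ := S.lam_succ
      m_zero := S.m_zero
      e_zero := S.e_zero
      m_last := S.m_last
      e_nonneg := S.e_nonneg
      u_nonneg := S.u_nonneg
      nrm_m := S.nrm_m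
      nrm_e := S.nrm_e
      m_diff := S.m_diff
      e_diff := S.e_diff
      far := S.far
      near := S.near
      g_nonneg := by
        intro j x
        by_cases h0 : j = 0
        · rw [h0, hcut0]; norm_num
        · rw [hcut j x h0]; exact ct_nonneg _ _ _
      g_le_one := by
        intro j x
        by_cases h0 : j = 0
        · rw [h0, hcut0]
        · rw [hcut j x h0]; exact ct_le_one _ _ _
      g_zero := hcut0
      g_one := by
        intro x
        rw [hcut 1 x one_ne_zero, ct_eq_one hst (h1 x)]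
      hε := by positivity
      g_diff := by
        intro j x y hj
        have hd : 0 ≤ S.lam j * dd p f x y := mul_nonneg (S.lam_pos j).le (dd_nonneg _ _ _ _)
        by_cases h0 : j = 0
        · subst h0
          rw [hcut0, hcut0, sub_self, abs_zero]
          positivity
        · rw [hcut j x h0, hcut j y h0]
          refine (ct_lip hst _ _).trans ?_
          have h2 := S.Γ_diff j x y (by omega) hj
          rw [div_le_iff₀ hts]
          have h3 : 3 / (2 * (t - s)) * (S.lam j * dd p f x y) * (t - s) =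
              3 / 2 * (S.lam j * dd p f x y) := by
            field_simp
          rw [h3]
          exact h2
      u_le := by
        intro j x hj hg
        by_cases h0 : j = 0
        · rw [h0, S.u_zero]; linarith
        · rw [hcut j x h0] at hg
          have h2 : S.Γ j x < t := by
            by_contra hle
            push Not at hle
            rw [ct_eq_zero hst hle] at hg
            exact lt_irrefl _ hg
          have h3 := S.u_le j x (by omega) hj
          linarith
      u_last := by
        intro x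
        have := S.u_last x
        linarith
      u_sum := by
        intro x
        have h2 := husum x
        have h3 := hℓ x
        linarith
      bad_card := by
        intro x
        have h2 : (((range K).filter fun j => cutOf S s t j x ≠ 1).card : ℝ) ≤ B := by
          refine le_trans ?_ ((hcard x).trans hB)
          exact_mod_cast card_le_card (hbad x)
        exact_mod_cast h2 }
  refine ⟨c, rfl, rfl, rfl, rfl, rfl, husum, ?_, ?_⟩
  · intro x
    have h2 : c.N x ≤ ((Ico 1 K).filter fun j => s < S.Γ j x).card := card_le_card (hbad x)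
    exact_mod_cast h2
  · intro x hx
    unfold Cfg.Clean at hx
    push Not at hx
    obtain ⟨j, hj, h2, h3⟩ := hx
    change cutOf S s t j x ≠ 0 at h2
    change cutOf S s t j x ≠ 1 at h3
    have hj' : j < K := hj
    have h0 : j ≠ 0 := by
      intro h0
      rw [h0] at h3
      exact h3 (hcut0 x)
    rw [hcut j x h0] at h2 h3
    refine ⟨j, mem_Ico.2 ⟨by omega, hj'⟩, ?_, ?_⟩
    · by_contra hle
      push Not at hle
      exact h3 (ct_eq_one hst hle)
    · by_contra hle
      push Not at hle
      exact h2 (ct_eq_zero hst hle)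

end Vale.Agent.P249
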