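import Vale.Agent.P249.Gibbs
import Vale.Agent.P249.Thresh

/-! P249 piece [AVG] (helper16): choice of the parameters, average over the configurations. -/

open Finset

namespace Vale.Agent.P249

namespace AvgAux

/-- geometric sums -/
theorem geom_le (θ : ℝ) (hθ : 0 < θ) (m : ℕ) : ∑ a ∈ range m, θ / 2 ^ a ≤ 2 * θ := by
  have h : ∀ m : ℕ, ∑ a ∈ range m, θ / 2 ^ a = 2 * θ - 2 * θ / 2 ^ m := by
    intro m
    induction m with
    | zero => simp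
    | succ m ih =>
      rw [sum_range_succ, ih, pow_succ]
      field_simp
      ring
  rw [h m]
  have : 0 < 2 * θ / 2 ^ m := by positivity
  linarith

open Classical in
theorem dyadic (γ : ℝ) (hγ : 0 ≤ γ) (m : ℕ) : ∀ θ : ℝ, 0 < θ →
    ∑ a ∈ range m, (if θ / 2 ^ a < γ then θ / 2 ^ a else 0) ≤ 2 * γ := by
  induction m with
  | zero => intro θ _; simp; exact hγ
  | succ m ih =>
    intro θ hθ
    by_cases h : θ < γ
    · calc ∑ a ∈ range (m + 1), (if θ / 2 ^ a < γ then θ / 2 ^ a else 0)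
          ≤ ∑ a ∈ range (m + 1), θ / 2 ^ a := by
            refine sum_le_sum fun a _ => ?_
            split_ifs
            · exact le_rfl
            · positivity
        _ ≤ 2 * θ := geom_le θ hθ _
        _ ≤ 2 * γ := by linarith
    · rw [sum_range_succ']
      have h0 : (if θ / 2 ^ 0 < γ then θ / 2 ^ 0 else 0) = 0 := by
        rw [pow_zero, div_one, if_neg h]
      rw [h0, add_zero]
      have h1 := ih (θ / 2) (by linarith)
      have h2 : ∀ a : ℕ, θ / 2 ^ (a + 1) = θ / 2 / 2 ^ a := by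
        intro a
        rw [pow_succ]
        field_simp
      simp only [h2]
      exact h1

open Classical in
/-- the weighted number of large increments, summed over dyadic thresholds -/
theorem sum_card_le (J : Finset ℕ) (Γ : ℕ → ℝ) (hΓ : ∀ j, 0 ≤ Γ j) (ℓ θ : ℝ) (hℓ : 0 < ℓ)
    (hθ : 0 < θ) (m : ℕ) (hsum : ∑ j ∈ J, Γ j ≤ ℓ) :
    ∑ a ∈ range m, θ / 2 ^ a * ((J.filter fun j => θ / 2 ^ a * ℓ < Γ j).card : ℝ) ≤ 2 := by
  have h1 : ∀ a ∈ range m, θ / 2 ^ a * ((J.filter fun j => θ / 2 ^ a * ℓ < Γ j).card : ℝ) =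
      ∑ j ∈ J, (if θ / 2 ^ a < Γ j / ℓ then θ / 2 ^ a else 0) := by
    intro a _
    rw [← sum_filter, sum_const, nsmul_eq_mul, mul_comm]
    have : (J.filter fun j => θ / 2 ^ a * ℓ < Γ j) = J.filter fun j => θ / 2 ^ a < Γ j / ℓ := by
      refine filter_congr fun j _ => ?_
      rw [lt_div_iff₀ hℓ]
    rw [this]
  rw [sum_congr rfl h1, sum_comm]
  calc ∑ j ∈ J, ∑ a ∈ range m, (if θ / 2 ^ a < Γ j / ℓ then θ / 2 ^ a else 0)
      ≤ ∑ j ∈ J, 2 * (Γ j / ℓ) := by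
        refine sum_le_sum fun j _ => ?_
        exact dyadic _ (div_nonneg (hΓ j) hℓ.le) m θ hθ
    _ = 2 * (∑ j ∈ J, Γ j) / ℓ := by
        rw [← mul_sum, ← sum_div]
        ring
    _ ≤ 2 := by
        rw [div_le_iff₀ hℓ]
        linarith

/-- number of large increments -/
theorem card_mul_le (J : Finset ℕ) (Γ : ℕ → ℝ) (hΓ : ∀ j, 0 ≤ Γ j) (ℓ θ : ℝ) (hℓ : 0 < ℓ)
    (hsum : ∑ j ∈ J, Γ j ≤ ℓ) :
    θ * ((J.filter fun j => θ * ℓ < Γ j).card : ℝ) ≤ 1 := by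
  have h : ((J.filter fun j => θ * ℓ < Γ j).card : ℝ) * (θ * ℓ) ≤ ℓ := by
    calc ((J.filter fun j => θ * ℓ < Γ j).card : ℝ) * (θ * ℓ)
        = ∑ j ∈ J.filter (fun j => θ * ℓ < Γ j), θ * ℓ := by rw [sum_const, nsmul_eq_mul]
      _ ≤ ∑ j ∈ J.filter (fun j => θ * ℓ < Γ j), Γ j :=
          sum_le_sum fun j hj => (mem_filter.1 hj).2.le
      _ ≤ ∑ j ∈ J, Γ j :=
          sum_le_sum_of_subset_of_nonneg (filter_subset _ _) fun j _ _ => hΓ j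
      _ ≤ ℓ := hsum
  have h2 : (θ * ((J.filter fun j => θ * ℓ < Γ j).card : ℝ)) * ℓ ≤ 1 * ℓ := by linarith
  exact le_of_mul_le_mul_right h2 hℓ

/-- few thresholds are unclean -/
theorem unclean_card (J : Finset ℕ) (Γ : ℕ → ℝ) (ℓ θ : ℝ) (hℓ : 0 < ℓ) (hθ : 0 < θ) (m' : ℕ)
    (P : Fin m' → Prop) [DecidablePred P]
    (hP : ∀ b, P b → ∃ j ∈ J, θ * (1 + (b : ℕ) / (m' : ℝ)) * ℓ < Γ j ∧
      Γ j < θ * (1 + ((b : ℕ) + 1) / (m' : ℝ)) * ℓ) :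
    (univ.filter P).card ≤ (J.filter fun j => θ * ℓ < Γ j).card := by
  have hex : ∀ b : Fin m', ∃ j : ℕ, P b → j ∈ J ∧ θ * (1 + (b : ℕ) / (m' : ℝ)) * ℓ < Γ j ∧
      Γ j < θ * (1 + ((b : ℕ) + 1) / (m' : ℝ)) * ℓ := by
    intro b
    by_cases hb : P b
    · obtain ⟨j, h1, h2⟩ := hP b hb
      exact ⟨j, fun _ => ⟨h1, h2⟩⟩
    · exact ⟨0, fun h => absurd h hb⟩
  choose j hj using hex
  refine card_le_card_of_injOn j ?_ ?_
  · intro b hb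
    have hb' : P b := (mem_filter.1 hb).2
    have h := hj b hb'
    rw [mem_coe, mem_filter]
    refine ⟨h.1, ?_⟩
    refine lt_of_le_of_lt ?_ h.2.1
    have h3 : (0:ℝ) ≤ (b : ℕ) / (m' : ℝ) := by positivity
    have h4 : 0 < θ * ℓ := by positivity
    nlinarith
  · intro b hb b' hb' heq
    have h := hj b (mem_filter.1 hb).2
    have h' := hj b' (mem_filter.1 hb').2
    have key : ∀ b b' : Fin m', θ * (1 + (b : ℕ) / (m' : ℝ)) * ℓ < Γ (j b) →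
        Γ (j b) < θ * (1 + ((b' : ℕ) + 1) / (m' : ℝ)) * ℓ → (b : ℕ) ≤ b' := by
      intro b b' h1 h2
      have hm' : (0:ℝ) < m' := by
        have := b.pos
        exact_mod_cast this
      have h3 : θ * (1 + (b : ℕ) / (m' : ℝ)) * ℓ < θ * (1 + ((b' : ℕ) + 1) / (m' : ℝ)) * ℓ :=
        h1.trans h2
      have h4 := lt_of_mul_lt_mul_right h3 hℓ.le
      have h5 := lt_of_mul_lt_mul_left h4 hθ.le
      have h6 : (b : ℕ) / (m' : ℝ) < ((b' : ℕ) + 1) / (m' : ℝ) := by linarith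
      rw [div_lt_div_iff_of_pos_right hm'] at h6
      have h7 : (b : ℕ) < (b' : ℕ) + 1 := by exact_mod_cast h6
      omega
    have a1 := key b b' h.2.1 (by rw [heq]; exact h'.2.2)
    have a2 := key b' b h'.2.1 (by rw [← heq]; exact h.2.2)
    exact Fin.ext (le_antisymm a1 a2)

/-- `x ^ p ≤ x` on the unit interval -/
theorem rpow_le_self' {p x : ℝ} (hp : 1 ≤ p) (h0 : 0 ≤ x) (h1 : x ≤ 1) : x ^ p ≤ x := by
  rcases h0.lt_or_eq with h | h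
  · have := Real.rpow_le_rpow_of_exponent_ge h h1 hp
    rwa [Real.rpow_one] at this
  · rw [← h, Real.zero_rpow (by linarith)]

/-- three summands -/
theorem rpow_add3 {p a b c : ℝ} (hp : 1 ≤ p) (ha : 0 ≤ a) (hb : 0 ≤ b) (hc : 0 ≤ c) :
    (a + b + c) ^ p ≤ 3 ^ p * (a ^ p + b ^ p + c ^ p) := by
  have hp0 : 0 ≤ p := by linarith
  set M := max a (max b c) with hM
  have h1 : a + b + c ≤ 3 * M := by
    have h1 : a ≤ M := le_max_left _ _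
    have h2 : b ≤ M := (le_max_left _ _).trans (le_max_right _ _)
    have h3 : c ≤ M := (le_max_right _ _).trans (le_max_right _ _)
    linarith
  have hM0 : 0 ≤ M := ha.trans (le_max_left _ _)
  have h2 : M ^ p ≤ a ^ p + b ^ p + c ^ p := by
    have ha' := Real.rpow_nonneg ha p
    have hb' := Real.rpow_nonneg hb p
    have hc' := Real.rpow_nonneg hc p
    rcases max_choice a (max b c) with h | h
    · rw [hM, h]; linarith
    · rcases max_choice b c with h' | h'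
      · rw [hM, h, h']; linarith
      · rw [hM, h, h']; linarith
  calc (a + b + c) ^ p ≤ (3 * M) ^ p := Real.rpow_le_rpow (by linarith) h1 hp0
    _ = 3 ^ p * M ^ p := Real.mul_rpow (by norm_num) hM0
    _ ≤ _ := mul_le_mul_of_nonneg_left h2 (by positivity)

/-- the logarithmic term -/
theorem log_term {p θ θ0 ℓ Q R U : ℝ} (hp : 1 < p) (hθ : 0 < θ) (hθ0 : θ ≤ θ0) (hθ1 : θ0 ≤ 1)
    (hℓ : 1 ≤ ℓ) (hQ : 1 ≤ Q) (hU1 : 2 * θ * ℓ ≤ U) (hU2 : U ≤ 4 * θ * ℓ) (hR0 : 0 < R)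
    (hR : R ≤ 3 * ℓ) :
    Real.log (Q * R / U) * (U ^ (1 - 1 / p) * R ^ (1 / p)) ≤
      ℓ * (4 * θ0 ^ ((1 - 1 / p) / 2) * (Real.log (2 * Q) + 2 / (1 - 1 / p))) := by
  set κ := 1 - 1 / p with hκ
  have hp0 : 0 < p := by linarith
  have hκ0 : 0 < κ := by
    rw [hκ, sub_pos, div_lt_one hp0]
    exact hp
  have hip : 0 < 1 / p := by positivity
  have hU0 : 0 < U := lt_of_lt_of_le (by positivity) hU1
  have hlog : Real.log (Q * R / U) ≤ Real.log (2 * Q) + 2 / κ * θ ^ (-(κ / 2)) := by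
    have h1 : Q * R / U ≤ (2 * Q) * θ⁻¹ := by
      rw [div_le_iff₀ hU0]
      have h2 : 2 * Q * θ⁻¹ * (2 * θ * ℓ) = 4 * Q * ℓ := by field_simp; ring
      have h3 : 2 * Q * θ⁻¹ * (2 * θ * ℓ) ≤ 2 * Q * θ⁻¹ * U :=
        mul_le_mul_of_nonneg_left hU1 (by positivity)
      have h4 : Q * R ≤ Q * (3 * ℓ) := mul_le_mul_of_nonneg_left hR (by linarith)
      nlinarith
    have h2 := Real.log_le_log (by positivity) h1
    rw [Real.log_mul (by positivity) (by positivity)] at h2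
    have h3 : Real.log θ⁻¹ ≤ (θ⁻¹) ^ (κ / 2) / (κ / 2) :=
      Real.log_le_rpow_div (by positivity) (by positivity)
    have h4 : (θ⁻¹) ^ (κ / 2) = θ ^ (-(κ / 2)) := by
      rw [Real.rpow_neg hθ.le, Real.inv_rpow hθ.le]
    rw [h4] at h3
    have h5 : θ ^ (-(κ / 2)) / (κ / 2) = 2 / κ * θ ^ (-(κ / 2)) := by
      field_simp
    linarith
  have hprod : U ^ κ * R ^ (1 / p) ≤ 4 * ℓ * θ ^ κ := by
    have h1 : U ^ κ ≤ (4 * ℓ) ^ κ * θ ^ κ := by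
      rw [← Real.mul_rpow (by positivity) hθ.le]
      exact Real.rpow_le_rpow hU0.le (by linarith) hκ0.le
    have h2 : R ^ (1 / p) ≤ (4 * ℓ) ^ (1 / p) :=
      Real.rpow_le_rpow hR0.le (by linarith) hip.le
    calc U ^ κ * R ^ (1 / p) ≤ ((4 * ℓ) ^ κ * θ ^ κ) * (4 * ℓ) ^ (1 / p) := by
          apply mul_le_mul h1 h2 (by positivity) (by positivity)
      _ = ((4 * ℓ) ^ κ * (4 * ℓ) ^ (1 / p)) * θ ^ κ := by ring
      _ = 4 * ℓ * θ ^ κ := by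
          rw [← Real.rpow_add (by positivity)]
          have : κ + 1 / p = 1 := by rw [hκ]; ring
          rw [this, Real.rpow_one]
  have hL0 : 0 ≤ Real.log (2 * Q) := Real.log_nonneg (by linarith)
  have hL1 : 0 ≤ Real.log (2 * Q) + 2 / κ * θ ^ (-(κ / 2)) := by positivity
  have hpr0 : 0 ≤ U ^ κ * R ^ (1 / p) := by positivity
  have hsplit : θ ^ κ = θ ^ (κ / 2) * θ ^ (κ / 2) := by
    rw [← Real.rpow_add hθ]
    ring_nf
  have hcancel : θ ^ (κ / 2) * θ ^ (-(κ / 2)) = 1 := by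
    rw [← Real.rpow_add hθ, add_neg_cancel, Real.rpow_zero]
  have hle1 : θ ^ (κ / 2) ≤ 1 := Real.rpow_le_one hθ.le (by linarith) (by positivity)
  have hle0 : θ ^ (κ / 2) ≤ θ0 ^ (κ / 2) := Real.rpow_le_rpow hθ.le hθ0 (by positivity)
  have hθp : 0 < θ ^ (κ / 2) := by positivity
  calc Real.log (Q * R / U) * (U ^ κ * R ^ (1 / p))
      ≤ (Real.log (2 * Q) + 2 / κ * θ ^ (-(κ / 2))) * (U ^ κ * R ^ (1 / p)) :=
        mul_le_mul_of_nonneg_right hlog hpr0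
    _ ≤ (Real.log (2 * Q) + 2 / κ * θ ^ (-(κ / 2))) * (4 * ℓ * θ ^ κ) :=
        mul_le_mul_of_nonneg_left hprod hL1
    _ = 4 * ℓ * θ ^ (κ / 2) * (Real.log (2 * Q) * θ ^ (κ / 2) +
          2 / κ * (θ ^ (κ / 2) * θ ^ (-(κ / 2)))) := by rw [hsplit]; ring
    _ ≤ 4 * ℓ * θ ^ (κ / 2) * (Real.log (2 * Q) + 2 / κ) := by
        rw [hcancel, mul_one]
        refine mul_le_mul_of_nonneg_left ?_ (by positivity)
        have := mul_le_mul_of_nonneg_left hle1 hL0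
        linarith
    _ ≤ 4 * ℓ * θ0 ^ (κ / 2) * (Real.log (2 * Q) + 2 / κ) := by
        refine mul_le_mul_of_nonneg_right ?_ (by positivity)
        exact mul_le_mul_of_nonneg_left hle0 (by positivity)
    _ = _ := by ring

/-- choice of the largest threshold -/
theorem exists_theta {κ : ℝ} (hκ : 0 < κ) (D L Δ : ℝ) (hD : 0 < D) (hL : 0 < L) (hΔ : 0 < Δ) :
    ∃ θ0 : ℝ, 0 < θ0 ∧ θ0 ≤ 1 / 4 ∧ D * θ0 ≤ Δ ∧ 4 * θ0 ^ (κ / 2) * L ≤ Δ := by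
  set y := Δ / (4 * L) with hy
  have hy0 : 0 < y := by positivity
  refine ⟨min (1 / 4) (min (Δ / D) (y ^ (2 / κ))), ?_, min_le_left _ _, ?_, ?_⟩
  · have h1 : 0 < Δ / D := by positivity
    have h2 : 0 < y ^ (2 / κ) := by positivity
    exact lt_min (by norm_num) (lt_min h1 h2)
  · have h1 : min (1 / 4) (min (Δ / D) (y ^ (2 / κ))) ≤ Δ / D :=
      (min_le_right _ _).trans (min_le_left _ _)
    have h2 := mul_le_mul_of_nonneg_left h1 hD.le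
    have h3 : D * (Δ / D) = Δ := by field_simp
    linarith
  · set θ0 := min (1 / 4) (min (Δ / D) (y ^ (2 / κ))) with hθ0
    have hpos : 0 < θ0 := by
      have h1 : 0 < Δ / D := by positivity
      have h2 : 0 < y ^ (2 / κ) := by positivity
      exact lt_min (by norm_num) (lt_min h1 h2)
    have h1 : θ0 ≤ y ^ (2 / κ) := (min_le_right _ _).trans (min_le_right _ _)
    have h2 : θ0 ^ (κ / 2) ≤ y := by
      have h3 := Real.rpow_le_rpow hpos.le h1 (by positivity : 0 ≤ κ / 2)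
      rw [← Real.rpow_mul hy0.le] at h3
      have h4 : 2 / κ * (κ / 2) = 1 := by field_simp
      rwa [h4, Real.rpow_one] at h3
    have h3 : 4 * θ0 ^ (κ / 2) * L ≤ 4 * y * L := by
      refine mul_le_mul_of_nonneg_right ?_ hL.le
      linarith
    have h4 : 4 * y * L = Δ := by rw [hy]; field_simp
    linarith

/-- the cost of a clean point -/
theorem cst_bound {p θ θ0 ℓ Q R U ε sig g N N' Δ E W : ℝ} (hp : 1 < p) (hθ : 0 < θ) (hθ0 : θ ≤ θ0)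
    (hθ1 : θ0 ≤ 1) (hℓ : 1 ≤ ℓ) (hQ : 1 ≤ Q) (hU1 : 2 * θ * ℓ ≤ U) (hU2 : U ≤ 4 * θ * ℓ)
    (hR : R = 2 * ℓ + 1) (hsig : sig ≤ 2 * (g * ℓ) + 1) (hN0 : 0 ≤ N) (hN : N ≤ N')
    (hε : ε ≤ E / ℓ) (hW : 0 ≤ W) (hE : 0 ≤ E) (hEW : 2 + 4 * E * W ≤ ℓ * Δ)
    (hD : 4 * (1 + Real.log Q) * θ0 ≤ Δ)
    (hlog : 4 * θ0 ^ ((1 - 1 / p) / 2) * (Real.log (2 * Q) + 2 / (1 - 1 / p)) ≤ Δ) :
    1 + sig + U * (1 + Real.log Q) * (1 + N)
      + Real.log (Q * R / U) * (U ^ (1 - 1 / p) * R ^ (1 / p)) + ε * W * (1 + R) ≤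
      ℓ * (3 * Δ + 2 * g + 4 * (1 + Real.log Q) * (θ * N')) := by
  have hR3 : R ≤ 3 * ℓ := by linarith
  have hR0 : 0 < R := by linarith
  have hlQ : 0 ≤ Real.log Q := Real.log_nonneg hQ
  have h1 := (log_term hp hθ hθ0 hθ1 hℓ hQ hU1 hU2 hR0 hR3).trans
    (mul_le_mul_of_nonneg_left hlog (by linarith))
  have h2 : U * (1 + Real.log Q) * (1 + N) ≤ ℓ * (Δ + 4 * (1 + Real.log Q) * (θ * N')) := by
    have a1 : U * (1 + Real.log Q) ≤ 4 * θ * ℓ * (1 + Real.log Q) :=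
      mul_le_mul_of_nonneg_right hU2 (by linarith)
    have a2 : U * (1 + Real.log Q) * (1 + N) ≤ 4 * θ * ℓ * (1 + Real.log Q) * (1 + N') :=
      mul_le_mul a1 (by linarith) (by linarith) (by positivity)
    have a3 : 4 * (1 + Real.log Q) * θ ≤ Δ := by
      refine le_trans ?_ hD
      exact mul_le_mul_of_nonneg_left hθ0 (by linarith)
    have a4 := mul_le_mul_of_nonneg_left a3 (by linarith : 0 ≤ ℓ)
    nlinarith
  have h3 : ε * W * (1 + R) ≤ 4 * E * W := by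
    have a1 : ε * W ≤ E / ℓ * W := mul_le_mul_of_nonneg_right hε hW
    have a2 : ε * W * (1 + R) ≤ E / ℓ * W * (4 * ℓ) :=
      mul_le_mul a1 (by linarith) (by linarith) (by positivity)
    have a3 : E / ℓ * W * (4 * ℓ) = 4 * E * W := by
      have : ℓ ≠ 0 := by linarith
      field_simp
    linarith
  nlinarith

/-- the parameters -/
structure Par (p Δ : ℝ) where
  G : ℕ
  m : ℕ
  m' : ℕ
  B : ℕ
  θ0 : ℝ
  hG : 1 ≤ G
  hm : 1 ≤ m
  hm' : 1 ≤ m'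
  hθ0 : 0 < θ0
  hθ04 : θ0 ≤ 1 / 4
  hDθ : 4 * (1 + Real.log (2 ^ G)) * θ0 ≤ Δ / 36
  hLθ : 4 * θ0 ^ ((1 - 1 / p) / 2) * (Real.log (2 * 2 ^ G) + 2 / (1 - 1 / p)) ≤ Δ / 36
  hB : 2 ^ m / θ0 ≤ B
  hGr : 4 * 6 ^ p ≤ G * Δ ^ p
  hmr : 8 * (3 * (4 * (1 + Real.log (2 ^ G)))) ^ p ≤ m * Δ ^ p
  hm'r : 4 * (2 ^ m / θ0) * (3 * (B + 1) * (2 ^ G) ^ (B + 2)) ^ p ≤ m' * Δ ^ p

theorem exists_par {p Δ : ℝ} (hp : 1 < p) (hΔ0 : 0 < Δ) : Nonempty (Par p Δ) := by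
  have hp0 : 0 < p := by linarith
  have hκ0 : 0 < 1 - 1 / p := by
    rw [sub_pos, div_lt_one hp0]
    exact hp
  have hΔp : 0 < Δ ^ p := by positivity
  obtain ⟨G0, hG0⟩ := exists_nat_ge (4 * 6 ^ p / Δ ^ p)
  have hQ1 : (1:ℝ) ≤ 2 ^ (G0 + 1) := one_le_pow₀ (by norm_num)
  have hlQ : 0 ≤ Real.log (2 ^ (G0 + 1)) := Real.log_nonneg hQ1
  have hlQ2 : 0 ≤ Real.log (2 * 2 ^ (G0 + 1)) := Real.log_nonneg (by linarith)
  obtain ⟨θ0, hθ0, hθ04, hDθ, hLθ⟩ := exists_theta hκ0 (4 * (1 + Real.log (2 ^ (G0 + 1))))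
    (Real.log (2 * 2 ^ (G0 + 1)) + 2 / (1 - 1 / p)) (Δ / 36) (by positivity) (by positivity)
    (by positivity)
  obtain ⟨m0, hm0⟩ := exists_nat_ge (8 * (3 * (4 * (1 + Real.log (2 ^ (G0 + 1))))) ^ p / Δ ^ p)
  obtain ⟨B, hB⟩ := exists_nat_ge ((2:ℝ) ^ (m0 + 1) / θ0)
  obtain ⟨m1, hm1⟩ := exists_nat_ge (4 * (2 ^ (m0 + 1) / θ0) *
    (3 * (B + 1) * (2 ^ (G0 + 1)) ^ (B + 2)) ^ p / Δ ^ p)
  rw [div_le_iff₀ hΔp] at hG0 hm0 hm1
  refine ⟨⟨G0 + 1, m0 + 1, m1 + 1, B, θ0, by omega, by omega, by omega, hθ0, hθ04, hDθ, hLθ, hB,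
    ?_, ?_, ?_⟩⟩
  · push_cast; linarith
  · push_cast; linarith
  · push_cast; linarith

namespace Par

variable {p Δ : ℝ} (P : Par p Δ)

/-- auxiliary constant -/
noncomputable def W : ℝ := (P.B + 1) * (2 ^ P.G) ^ (P.B + 1)

/-- auxiliary constant -/
noncomputable def E : ℝ := 3 * P.m' * 2 ^ P.m / (2 * P.θ0)

/-- thresholds -/
noncomputable def θ (a : ℕ) : ℝ := P.θ0 / 2 ^ a

/-- lower threshold -/
noncomputable def s (ℓ : ℝ) (a b : ℕ) : ℝ := P.θ a * (1 + (b : ℝ) / P.m') * ℓ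

/-- upper threshold -/
noncomputable def t (ℓ : ℝ) (a b : ℕ) : ℝ := P.θ a * (1 + ((b : ℝ) + 1) / P.m') * ℓ

theorem m'_pos : (0:ℝ) < P.m' := by
  have := P.hm'
  exact_mod_cast this

theorem one_le_Q : (1:ℝ) ≤ 2 ^ P.G := one_le_pow₀ (by norm_num)

theorem two_le_Q : (2:ℝ) ≤ 2 ^ P.G := by
  calc (2:ℝ) = 2 ^ 1 := by norm_num
    _ ≤ 2 ^ P.G := pow_le_pow_right₀ (by norm_num) P.hG

theorem one_le_QB : (1:ℝ) ≤ (2 ^ P.G) ^ (P.B + 1) := one_le_pow₀ P.one_le_Q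

theorem BW : ((P.B:ℝ) + 1) ≤ P.W := by
  have h1 := P.one_le_QB
  have h2 : (0:ℝ) ≤ P.B := by positivity
  unfold W
  nlinarith

theorem QW : (2 ^ P.G) ^ (P.B + 1) ≤ P.W := by
  have h1 := P.one_le_QB
  have h2 : (0:ℝ) ≤ P.B := by positivity
  unfold W
  nlinarith

theorem one_le_W : 1 ≤ P.W := P.one_le_QB.trans P.QW

theorem E_pos : 0 < P.E := by
  have h1 := P.m'_pos
  have h2 := P.hθ0
  unfold E
  positivity

theorem θ_pos (a : ℕ) : 0 < P.θ a := by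
  have := P.hθ0
  unfold θ
  positivity

theorem θ_le (a : ℕ) : P.θ a ≤ P.θ0 := by
  have h0 := P.hθ0
  unfold θ
  rw [div_le_iff₀ (by positivity)]
  have : (1:ℝ) ≤ 2 ^ a := one_le_pow₀ (by norm_num)
  nlinarith

theorem θ_ge {a : ℕ} (ha : a < P.m) : P.θ0 / 2 ^ P.m ≤ P.θ a := by
  have h0 := P.hθ0
  unfold θ
  apply div_le_div_of_nonneg_left h0.le (by positivity)
  exact pow_le_pow_right₀ (by norm_num) ha.le

variable {ℓ : ℝ}

theorem s_ge (hℓ : 0 < ℓ) (a b : ℕ) : P.θ a * ℓ ≤ P.s ℓ a b := by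
  have h0 := P.m'_pos
  have h1 : (0:ℝ) ≤ (b : ℝ) / P.m' := by positivity
  have h2 : 0 < P.θ a * ℓ := mul_pos (P.θ_pos a) hℓ
  unfold s
  nlinarith

theorem t_ge (hℓ : 0 < ℓ) (a b : ℕ) : P.θ a * ℓ ≤ P.t ℓ a b := by
  have h0 := P.m'_pos
  have h1 : (0:ℝ) ≤ ((b : ℝ) + 1) / P.m' := by positivity
  have h2 : 0 < P.θ a * ℓ := mul_pos (P.θ_pos a) hℓ
  unfold t
  nlinarith

theorem t_le (hℓ : 0 < ℓ) (a : ℕ) {b : ℕ} (hb : b < P.m') : P.t ℓ a b ≤ 2 * (P.θ a * ℓ) := by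
  have h1 : ((b : ℝ) + 1) / P.m' ≤ 1 := by
    rw [div_le_one P.m'_pos]
    exact_mod_cast hb
  have h2 : 0 < P.θ a * ℓ := mul_pos (P.θ_pos a) hℓ
  unfold t
  nlinarith

theorem t_sub (ℓ : ℝ) (a b : ℕ) : P.t ℓ a b - P.s ℓ a b = P.θ a * ℓ / P.m' := by
  unfold t s
  ring

theorem eps_le (hℓ : 0 < ℓ) {a : ℕ} (ha : a < P.m) (b : ℕ) :
    3 / (2 * (P.t ℓ a b - P.s ℓ a b)) ≤ P.E / ℓ := by
  have h0 := P.m'_pos
  have h0' := P.hθ0
  have h1 := P.θ_ge ha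
  have h2 : 0 < P.θ0 / 2 ^ P.m := by positivity
  have h5 := P.θ_pos a
  rw [t_sub]
  have h3 : 3 / (2 * (P.θ a * ℓ / P.m')) = 3 * P.m' / (2 * ℓ) * (P.θ a)⁻¹ := by
    field_simp
  have h4 : P.E / ℓ = 3 * P.m' / (2 * ℓ) * (P.θ0 / 2 ^ P.m)⁻¹ := by
    unfold E
    field_simp
  rw [h3, h4]
  refine mul_le_mul_of_nonneg_left ?_ (by positivity)
  exact inv_anti₀ h2 h1

end Par

/-- the configurations with their properties -/
theorem exists_family {p Δ : ℝ} (hp : 1 < p) (P : Par p Δ) {V ι : Type} [Fintype V] [Fintype ι]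
    [Nonempty V] (f : V → ι → ℝ) (hf : Function.Injective f)
    (hℓ : 2 ^ P.m / P.θ0 ≤ Real.log (Fintype.card V)) :
    ∃ (K : ℕ) (Γ : Fin P.G → ℕ → V → ℝ) (c : Fin P.G × Fin P.m × Fin P.m' → Cfg p f),
      (∀ o j x, 0 ≤ Γ o j x) ∧
      (∀ x, ∑ o, ∑ j ∈ Ico 1 K, Γ o j x ≤ Real.log (Fintype.card V)) ∧
      (∀ ξ, (c ξ).Q = 2 ^ P.G ∧ (c ξ).ε = 3 / (2 * (P.t (Real.log (Fintype.card V)) ξ.2.1 ξ.2.2 -
          P.s (Real.log (Fintype.card V)) ξ.2.1 ξ.2.2)) ∧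
        (c ξ).U = 2 * P.t (Real.log (Fintype.card V)) ξ.2.1 ξ.2.2 ∧
        (c ξ).R = 2 * Real.log (Fintype.card V) + 1 ∧ (c ξ).B = P.B) ∧
      (∀ ξ x, (c ξ).sig x ≤ 2 * ∑ j ∈ Ico 1 K, Γ ξ.1 j x + 1) ∧
      (∀ ξ x, ((c ξ).N x : ℝ) ≤ (((Ico 1 K).filter fun j =>
        P.θ ξ.2.1 * Real.log (Fintype.card V) < Γ ξ.1 j x).card : ℕ)) ∧
      (∀ ξ x, ¬ (c ξ).Clean x → ∃ j ∈ Ico 1 K,
        P.s (Real.log (Fintype.card V)) ξ.2.1 ξ.2.2 < Γ ξ.1 j x ∧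
        Γ ξ.1 j x < P.t (Real.log (Fintype.card V)) ξ.2.1 ξ.2.2) := by
  have hθ0 := P.hθ0
  have hℓpos : 0 < Real.log (Fintype.card V) := lt_of_lt_of_le (by positivity) hℓ
  generalize hL : Real.log (Fintype.card V) = ℓ at *
  obtain ⟨K, hK, S, hS1, hS2⟩ := exists_gib hp.le f hf P.G P.hG (P.θ0 / 2 ^ P.m * ℓ)
    (by positivity)
  rw [hL] at hS2
  have hΓ0 : ∀ o j x, 0 ≤ (S o).Γ j x := fun o j x => (S o).Γ_nonneg j x
  have hSo : ∀ o x, ∑ j ∈ Ico 1 K, (S o).Γ j x ≤ ℓ := by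
    intro o x
    refine le_trans ?_ (hS2 x)
    exact single_le_sum (f := fun o => ∑ j ∈ Ico 1 K, (S o).Γ j x)
      (fun o _ => sum_nonneg fun j _ => hΓ0 o j x) (mem_univ o)
  have hex : ∀ ξ : Fin P.G × Fin P.m × Fin P.m', ∃ c : Cfg p f, c.Q = 2 ^ P.G ∧
      c.ε = 3 / (2 * (P.t ℓ ξ.2.1 ξ.2.2 - P.s ℓ ξ.2.1 ξ.2.2)) ∧ c.U = 2 * P.t ℓ ξ.2.1 ξ.2.2 ∧
      c.R = 2 * ℓ + 1 ∧ c.B = P.B ∧
      (∀ x, c.sig x ≤ 2 * ∑ j ∈ Ico 1 K, (S ξ.1).Γ j x + 1) ∧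
      (∀ x, (c.N x : ℝ) ≤
        (((Ico 1 K).filter fun j => P.s ℓ ξ.2.1 ξ.2.2 < (S ξ.1).Γ j x).card : ℕ)) ∧
      (∀ x, ¬ c.Clean x → ∃ j ∈ Ico 1 K, P.s ℓ ξ.2.1 ξ.2.2 < (S ξ.1).Γ j x ∧
        (S ξ.1).Γ j x < P.t ℓ ξ.2.1 ξ.2.2) := by
    rintro ⟨o, a, b⟩
    have h1 := P.θ_ge a.2
    have h2 := P.s_ge hℓpos a b
    have h3 := mul_le_mul_of_nonneg_right h1 hℓpos.le
    have h4 := P.t_sub ℓ a b
    have h5 : 0 < P.θ a * ℓ / P.m' := by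
      have h6 := P.θ_pos a
      have h7 := P.m'_pos
      positivity
    have h6 : 0 < P.θ0 / 2 ^ P.m * ℓ := by positivity
    refine exists_cfg_of_gib (S o) hK P.two_le_Q (P.s ℓ a b) (P.t ℓ a b) (by linarith)
      (by linarith) ?_ ?_ ℓ (hSo o) P.B ?_
    · have h7 := P.t_ge hℓpos a b
      have h8 : 1 ≤ P.θ0 / 2 ^ P.m * ℓ := by
        have h9 := mul_le_mul_of_nonneg_left hℓ (by positivity : 0 ≤ P.θ0 / 2 ^ P.m)
        have h10 : P.θ0 / 2 ^ P.m * (2 ^ P.m / P.θ0) = 1 := by field_simp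
        linarith
      linarith
    · intro x
      exact (hS1 o x).trans (by linarith)
    · refine le_trans ?_ P.hB
      rw [div_le_iff₀ (by linarith)]
      have h7 : 2 ^ P.m / P.θ0 * (P.θ0 / 2 ^ P.m * ℓ) = ℓ := by field_simp
      have h8 : 2 ^ P.m / P.θ0 * (P.θ0 / 2 ^ P.m * ℓ) ≤ 2 ^ P.m / P.θ0 * P.s ℓ a b :=
        mul_le_mul_of_nonneg_left (by linarith) (by positivity)
      linarith
  choose c hcQ hcε hcU hcR hcB hcsig hcN hcC using hex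
  refine ⟨K, fun o j x => (S o).Γ j x, c, hΓ0, hS2,
    fun ξ => ⟨hcQ ξ, hcε ξ, hcU ξ, hcR ξ, hcB ξ⟩, hcsig, ?_, hcC⟩
  intro ξ x
  refine (hcN ξ x).trans ?_
  have h1 : ((Ico 1 K).filter fun j => P.s ℓ ξ.2.1 ξ.2.2 < (S ξ.1).Γ j x).card ≤
      ((Ico 1 K).filter fun j => P.θ ξ.2.1 * ℓ < (S ξ.1).Γ j x).card := by
    refine card_le_card ?_
    intro j hj
    rw [mem_filter] at hj ⊢
    exact ⟨hj.1, lt_of_le_of_lt (P.s_ge hℓpos _ _) hj.2⟩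
  exact_mod_cast h1

theorem cst_nonneg' {V ι : Type} [Fintype V] [Fintype ι] {p : ℝ} {f : V → ι → ℝ} (c : Cfg p f)
    (hU : 0 < c.U) (hUR : c.U ≤ c.R) (x : V) : 0 ≤ c.cst x := by
  unfold Cfg.cst
  have hQ := c.hQ
  have h1 : 0 ≤ c.sig x := sum_nonneg fun j _ => c.u_nonneg j x
  have h2 : 0 ≤ Real.log c.Q := Real.log_nonneg (by linarith)
  have h3 : 0 ≤ Real.log (c.Q * c.R / c.U) := by
    refine Real.log_nonneg ?_
    rw [le_div_iff₀ hU]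
    nlinarith
  have h4 : 0 < c.R := by linarith
  have h5 := c.hε
  have h6 : (0:ℝ) ≤ (c.N x : ℝ) := by positivity
  positivity

open Classical in
/-- pointwise bound of the cost -/
theorem pt_bound {V ι : Type} [Fintype V] [Fintype ι] {p Δ : ℝ} (hp : 1 < p) (hΔ : 0 < Δ)
    (P : Par p Δ) {f : V → ι → ℝ} (c : Cfg p f) (x : V) {θ ℓ g N' : ℝ} (hθ : 0 < θ)
    (hθ0 : θ ≤ P.θ0) (hℓ : 1 ≤ ℓ) (hEW : 36 * (2 + 4 * P.E * P.W) ≤ ℓ * Δ)
    (hQ : c.Q = 2 ^ P.G) (hε : c.ε ≤ P.E / ℓ) (hU1 : 2 * θ * ℓ ≤ c.U) (hU2 : c.U ≤ 4 * θ * ℓ)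
    (hR : c.R = 2 * ℓ + 1) (hB : c.B = P.B) (hg : 0 ≤ g) (hsig : c.sig x ≤ 2 * (g * ℓ) + 1)
    (hN : (c.N x : ℝ) ≤ N') :
    (c.cost x / ℓ) ^ p ≤
      3 ^ p * ((Δ / 12) ^ p + (2 * g) ^ p + (4 * (1 + Real.log (2 ^ P.G)) * (θ * N')) ^ p)
        + (if c.Clean x then 0 else 1) * (3 * (P.B + 1) * (2 ^ P.G) ^ (P.B + 2)) ^ p := by
  have hp0 : 0 < p := by linarith
  have hN0 : (0:ℝ) ≤ (c.N x : ℝ) := by positivity
  have hN'0 : 0 ≤ N' := hN0.trans hN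
  have hlQ : 0 ≤ Real.log (2 ^ P.G) := Real.log_nonneg P.one_le_Q
  have hE := P.E_pos
  have hW := P.one_le_W
  have hℓ0 : 0 < ℓ := by linarith
  have h04 := P.hθ04
  by_cases hcl : c.Clean x
  · have e2 : c.cost x = c.cst x := by
      unfold Cfg.cost
      rw [if_pos hcl]
    rw [if_pos hcl, zero_mul, add_zero, e2]
    have hb := cst_bound (N := (c.N x : ℝ)) (N' := N') (Δ := Δ / 36) (Q := 2 ^ P.G) (θ0 := P.θ0)
      (W := P.W) (E := P.E) hp hθ hθ0 (by linarith) hℓ P.one_le_Q hU1 hU2 hR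
      hsig hN0 hN hε (by linarith) hE.le (by linarith) P.hDθ P.hLθ
    have hcst : c.cst x ≤ ℓ * (3 * (Δ / 36) + 2 * g + 4 * (1 + Real.log (2 ^ P.G)) * (θ * N')) := by
      unfold Cfg.cst
      rw [hQ, hB]
      exact hb
    have hle : c.cst x / ℓ ≤ Δ / 12 + 2 * g + 4 * (1 + Real.log (2 ^ P.G)) * (θ * N') := by
      rw [div_le_iff₀ hℓ0]
      linarith
    have hU0 : 0 < c.U := lt_of_lt_of_le (by positivity) hU1
    have hUR : c.U ≤ c.R := by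
      rw [hR]
      have h1 : θ * ℓ ≤ 1 / 4 * ℓ := mul_le_mul_of_nonneg_right (by linarith) hℓ0.le
      linarith
    have h0 : 0 ≤ c.cst x / ℓ := div_nonneg (cst_nonneg' c hU0 hUR x) hℓ0.le
    refine (Real.rpow_le_rpow h0 hle hp0.le).trans ?_
    exact rpow_add3 hp.le (by positivity) (by positivity) (by positivity)
  · have e2 : c.cost x = ((P.B:ℝ) + 1) * (2 ^ P.G) ^ (P.B + 2) * (2 * ℓ + 1) := by
      unfold Cfg.cost
      rw [if_neg hcl, hB, hQ, hR]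
    rw [if_neg hcl, one_mul, e2]
    have h1 : ((P.B:ℝ) + 1) * (2 ^ P.G) ^ (P.B + 2) * (2 * ℓ + 1) / ℓ ≤
        3 * (P.B + 1) * (2 ^ P.G) ^ (P.B + 2) := by
      rw [div_le_iff₀ hℓ0]
      have h2 : 2 * ℓ + 1 ≤ 3 * ℓ := by linarith
      have h3 := mul_le_mul_of_nonneg_left h2
        (by positivity : 0 ≤ ((P.B:ℝ) + 1) * (2 ^ P.G) ^ (P.B + 2))
      linarith
    have h2 := Real.rpow_le_rpow (by positivity) h1 hp0.le
    have h4 : 0 ≤ 3 ^ p * ((Δ / 12) ^ p + (2 * g) ^ p +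
        (4 * (1 + Real.log (2 ^ P.G)) * (θ * N')) ^ p) := by positivity
    linarith

/-- the sum over the configurations -/
theorem sum_bound {p Δ : ℝ} (hp : 1 < p) (hΔ : 0 < Δ) (P : Par p Δ)
    (y bad : Fin P.G × Fin P.m × Fin P.m' → ℝ) (g : Fin P.G → ℝ) (N' : Fin P.G → ℕ → ℝ)
    (hy : ∀ ξ, y ξ ≤ 3 ^ p * ((Δ / 12) ^ p + (2 * g ξ.1) ^ p +
      (4 * (1 + Real.log (2 ^ P.G)) * (P.θ ξ.2.1 * N' ξ.1 ξ.2.1)) ^ p)
        + bad ξ * (3 * (P.B + 1) * (2 ^ P.G) ^ (P.B + 2)) ^ p)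
    (hg0 : ∀ o, 0 ≤ g o) (hg1 : ∀ o, g o ≤ 1) (hgs : ∑ o, g o ≤ 1)
    (hN0 : ∀ o a, 0 ≤ N' o a) (hN1 : ∀ o a, P.θ a * N' o a ≤ 1)
    (hNs : ∀ o, ∑ a ∈ range P.m, P.θ a * N' o a ≤ 2)
    (hbad : ∀ o a, ∑ b, bad (o, a, b) ≤ 2 ^ P.m / P.θ0) :
    ∑ ξ, y ξ ≤ (Fintype.card (Fin P.G × Fin P.m × Fin P.m') : ℝ) * Δ ^ p := by
  have hp0 : 0 < p := by linarith
  have hlQ : 0 ≤ Real.log (2 ^ P.G) := Real.log_nonneg P.one_le_Q
  have hG0 : (0:ℝ) ≤ P.G := by positivity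
  have hm0 : (0:ℝ) ≤ P.m := by positivity
  have hm'0 := P.m'_pos
  have hΔp : 0 < Δ ^ p := by positivity
  generalize hD : 4 * (1 + Real.log (2 ^ P.G)) = D at *
  have hD0 : 0 < D := by rw [← hD]; positivity
  generalize hCb : (3 * ((P.B:ℝ) + 1) * (2 ^ P.G) ^ (P.B + 2)) ^ p = C at *
  have hC0 : 0 ≤ C := by rw [← hCb]; positivity
  have hy' : ∀ ξ, y ξ ≤ (Δ / 4) ^ p + 6 ^ p * g ξ.1 + (3 * D) ^ p * (P.θ ξ.2.1 * N' ξ.1 ξ.2.1)
      + bad ξ * C := by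
    intro ξ
    refine (hy ξ).trans ?_
    have h0 := hg0 ξ.1
    have h0' := hN0 ξ.1 ξ.2.1
    have h0'' := P.θ_pos ξ.2.1
    have h1 : 3 ^ p * (Δ / 12) ^ p = (Δ / 4) ^ p := by
      rw [← Real.mul_rpow (by norm_num) (by positivity)]
      ring_nf
    have h2 : 3 ^ p * (2 * g ξ.1) ^ p ≤ 6 ^ p * g ξ.1 := by
      rw [← Real.mul_rpow (by norm_num) (by positivity)]
      have : 3 * (2 * g ξ.1) = 6 * g ξ.1 := by ring
      rw [this, Real.mul_rpow (by norm_num) h0]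
      exact mul_le_mul_of_nonneg_left (rpow_le_self' hp.le h0 (hg1 _)) (by positivity)
    have h3 : 3 ^ p * (D * (P.θ ξ.2.1 * N' ξ.1 ξ.2.1)) ^ p ≤
        (3 * D) ^ p * (P.θ ξ.2.1 * N' ξ.1 ξ.2.1) := by
      rw [← Real.mul_rpow (by norm_num) (by positivity), ← mul_assoc,
        Real.mul_rpow (by positivity) (by positivity)]
      exact mul_le_mul_of_nonneg_left (rpow_le_self' hp.le (by positivity) (hN1 _ _))
        (by positivity)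
    linarith
  refine (sum_le_sum fun ξ _ => hy' ξ).trans ?_
  rw [Fintype.sum_prod_type]
  simp only [Fintype.sum_prod_type]
  have hcard : (Fintype.card (Fin P.G × Fin P.m × Fin P.m') : ℝ) = P.G * (P.m * P.m') := by
    simp [Fintype.card_prod]
  rw [hcard]
  -- inner sums
  have hb : ∀ o : Fin P.G, ∀ a : Fin P.m, ∑ b : Fin P.m', ((Δ / 4) ^ p + 6 ^ p * g o +
      (3 * D) ^ p * (P.θ a * N' o a) + bad (o, a, b) * C) ≤
      P.m' * ((Δ / 4) ^ p + 6 ^ p * g o) + P.m' * ((3 * D) ^ p * (P.θ a * N' o a))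
        + 2 ^ P.m / P.θ0 * C := by
    intro o a
    rw [sum_add_distrib, ← sum_mul, sum_const, card_univ, Fintype.card_fin, nsmul_eq_mul]
    have := mul_le_mul_of_nonneg_right (hbad o a) hC0
    linarith
  have ha : ∀ o : Fin P.G, ∑ a : Fin P.m, ∑ b : Fin P.m', ((Δ / 4) ^ p + 6 ^ p * g o +
      (3 * D) ^ p * (P.θ a * N' o a) + bad (o, a, b) * C) ≤
      P.m * (P.m' * ((Δ / 4) ^ p + 6 ^ p * g o)) + P.m' * ((3 * D) ^ p * 2)
        + P.m * (2 ^ P.m / P.θ0 * C) := by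
    intro o
    refine (sum_le_sum fun a _ => hb o a).trans ?_
    rw [sum_add_distrib, sum_add_distrib, ← mul_sum, ← mul_sum, sum_const, sum_const, card_univ,
      Fintype.card_fin, nsmul_eq_mul, nsmul_eq_mul]
    have h1 : ∑ a : Fin P.m, P.θ a * N' o a ≤ 2 := by
      rw [Fin.sum_univ_eq_sum_range (fun a => P.θ a * N' o a) P.m]
      exact hNs o
    have h2 := mul_le_mul_of_nonneg_left h1 (by positivity : 0 ≤ (3 * D) ^ p)
    rw [mul_sum] at h2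
    have h3 := mul_le_mul_of_nonneg_left h2 hm'0.le
    linarith
  refine (sum_le_sum fun o _ => ha o).trans ?_
  rw [sum_add_distrib, sum_add_distrib, ← mul_sum, ← mul_sum, sum_add_distrib, ← mul_sum,
    sum_const, sum_const, sum_const, card_univ, Fintype.card_fin, nsmul_eq_mul, nsmul_eq_mul,
    nsmul_eq_mul]
  have t1 : (Δ / 4) ^ p ≤ Δ ^ p / 4 := by
    rw [Real.div_rpow hΔ.le (by norm_num)]
    have h4 : (4:ℝ) ≤ 4 ^ p := by
      calc (4:ℝ) = 4 ^ (1:ℝ) := by rw [Real.rpow_one]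
        _ ≤ 4 ^ p := Real.rpow_le_rpow_of_exponent_le (by norm_num) hp.le
    exact div_le_div_of_nonneg_left hΔp.le (by norm_num) h4
  have t2 : 6 ^ p * ∑ o, g o ≤ P.G * Δ ^ p / 4 := by
    have h1 := mul_le_mul_of_nonneg_left hgs (by positivity : (0:ℝ) ≤ 6 ^ p)
    have h2 := P.hGr
    linarith
  have t3 : (3 * D) ^ p * 2 ≤ P.m * Δ ^ p / 4 := by
    have h2 := P.hmr
    rw [hD] at h2
    linarith
  have t4 : 2 ^ P.m / P.θ0 * C ≤ P.m' * Δ ^ p / 4 := by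
    have h2 := P.hm'r
    rw [hCb] at h2
    linarith
  have s1 : (P.m:ℝ) * (P.m' * (P.G * (Δ / 4) ^ p)) ≤ P.m * (P.m' * (P.G * (Δ ^ p / 4))) := by
    gcongr
  have s2 : (P.m:ℝ) * (P.m' * (6 ^ p * ∑ o, g o)) ≤ P.m * (P.m' * (P.G * Δ ^ p / 4)) := by
    gcongr
  have s3 : (P.G:ℝ) * (P.m' * ((3 * D) ^ p * 2)) ≤ P.G * (P.m' * (P.m * Δ ^ p / 4)) := by
    gcongr
  have s4 : (P.G:ℝ) * (P.m * (2 ^ P.m / P.θ0 * C)) ≤ P.G * (P.m * (P.m' * Δ ^ p / 4)) := by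
    gcongr
  linarith

/-- `X ℓ ≤ exp (η ℓ)` for large `ℓ` -/
theorem exp_large {X η ℓ : ℝ} (hη : 0 < η) (hℓ : 0 < ℓ) (h : 2 * X / η ^ 2 ≤ ℓ) :
    X * ℓ ≤ Real.exp (η * ℓ) := by
  have h1 : 2 * X ≤ ℓ * η ^ 2 := by
    rwa [div_le_iff₀ (by positivity)] at h
  have h2 : (η * ℓ) ^ 2 / 2 ≤ Real.exp (η * ℓ) := by
    have := Real.quadratic_le_exp_of_nonneg (by positivity : 0 ≤ η * ℓ)
    have h3 : 0 < η * ℓ := by positivity
    linarith
  have h3 : X * ℓ ≤ (η * ℓ) ^ 2 / 2 := by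
    have h4 := mul_le_mul_of_nonneg_right h1 hℓ.le
    nlinarith
  linarith

/-- properties of the single configurations -/
theorem cfg_props {p Δ : ℝ} (P : Par p Δ) {V ι : Type} [Fintype V] [Fintype ι] {f : V → ι → ℝ}
    {ℓ : ℝ} (hℓ1 : 1 ≤ ℓ) (hℓ5 : 2 + 4 * P.E * P.W ≤ ℓ) (c : Cfg p f) {a b : ℕ} (ha : a < P.m)
    (hb : b < P.m') (hQ : c.Q = 2 ^ P.G) (hε : c.ε = 3 / (2 * (P.t ℓ a b - P.s ℓ a b)))
    (hU : c.U = 2 * P.t ℓ a b) (hR : c.R = 2 * ℓ + 1) (hB : c.B = P.B) :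
    (c.ε ≤ P.E / ℓ ∧ 2 * P.θ a * ℓ ≤ c.U ∧ c.U ≤ 4 * P.θ a * ℓ) ∧
    (c.ε * (c.B + 1) ≤ 1 ∧ c.ε * c.Q ^ (c.B + 1) < 1 ∧ 0 < c.U ∧ c.U ≤ c.R ∧
      2 * (10 * (c.B + 1) * c.Q ^ (c.B + 1) * c.R) ≤ 60 * P.W * ℓ) := by
  have hℓpos : 0 < ℓ := by linarith
  have hE := P.E_pos
  have hW := P.one_le_W
  have h04 := P.hθ04
  have hε1 : c.ε ≤ P.E / ℓ := by rw [hε]; exact P.eps_le hℓpos ha b
  have h1 := P.t_ge hℓpos a b
  have h2 := P.t_le hℓpos a hb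
  have h3 := P.θ_pos a
  have h4 := P.θ_le a
  have hEW : P.E / ℓ * P.W ≤ 1 / 4 := by
    rw [div_mul_eq_mul_div, div_le_iff₀ hℓpos]
    linarith
  have hEℓ : 0 ≤ P.E / ℓ := by positivity
  have hε0 := c.hε
  refine ⟨⟨hε1, by rw [hU]; linarith, by rw [hU]; linarith⟩, ?_, ?_, ?_, ?_, ?_⟩
  · rw [hB]
    have := mul_le_mul hε1 P.BW (by positivity) hEℓ
    linarith
  · rw [hB, hQ]
    have := mul_le_mul hε1 P.QW (by positivity) hEℓ
    linarith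
  · rw [hU]
    have : 0 < P.θ a * ℓ := by positivity
    linarith
  · rw [hU, hR]
    have h4 : P.θ a * ℓ ≤ 1 / 4 * ℓ := mul_le_mul_of_nonneg_right (by linarith) hℓpos.le
    linarith
  · rw [hB, hQ, hR]
    have h4 : 2 * ℓ + 1 ≤ 3 * ℓ := by linarith
    have h5 := mul_le_mul_of_nonneg_left h4 (by positivity : (0:ℝ) ≤ 20 * P.W)
    unfold Par.W at h5 ⊢
    linarith

end AvgAux

open AvgAux in
/-- choice of the parameters, average over the configurations -/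
theorem exists_cfgs {p : ℝ} (hp : 1 < p) {δ η : ℝ} (hδ : 0 < δ) (hδ1 : δ ≤ 1) (hη : 0 < η)
    (hη1 : η ≤ 1) :
    ∃ n0 X : ℝ, 2 ≤ n0 ∧ 1 ≤ X ∧ ∀ (V : Type) [Fintype V] (ι : Type) [Fintype ι] (f : V → ι → ℝ),
      Function.Injective f → n0 ≤ Fintype.card V →
      12 ≤ η * Real.log (Fintype.card V) ∧
      X * Real.log (Fintype.card V) ≤ Real.exp (η * Real.log (Fintype.card V)) ∧
      ∃ (Ξ : Type) (_ : Fintype Ξ) (_ : Nonempty Ξ) (c : Ξ → Cfg p f),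
        (∀ ξ, (c ξ).ε * ((c ξ).B + 1) ≤ 1 ∧ (c ξ).ε * (c ξ).Q ^ ((c ξ).B + 1) < 1 ∧
          0 < (c ξ).U ∧ (c ξ).U ≤ (c ξ).R ∧
          2 * (10 * ((c ξ).B + 1) * (c ξ).Q ^ ((c ξ).B + 1) * (c ξ).R) ≤
            X * Real.log (Fintype.card V)) ∧
        ∀ x, ∑ ξ, (120000 / (η * Real.log (Fintype.card V)) * (c ξ).cost x) ^ p ≤
          (Fintype.card Ξ : ℝ) * δ ^ p := by
  classical
  have hp0 : 0 < p := by linarith
  -- target
  have hΔ0 : 0 < δ * η / 120000 := by positivity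
  obtain ⟨P⟩ := exists_par hp hΔ0
  have hE := P.E_pos
  have hW := P.one_le_W
  have hθ0 := P.hθ0
  have hpos1 : 0 < 12 / η := by positivity
  have hpos2 : 0 < 2 * (60 * P.W) / η ^ 2 := by positivity
  have hpos3 : 0 < 36 * (2 + 4 * P.E * P.W) / (δ * η / 120000) := by positivity
  have hpos4 : 0 < 2 ^ P.m / P.θ0 := by positivity
  have hpos5 : 0 < 4 * P.E * P.W := by positivity
  refine ⟨Real.exp (12 / η + 2 * (60 * P.W) / η ^ 2 +
    36 * (2 + 4 * P.E * P.W) / (δ * η / 120000) + 2 ^ P.m / P.θ0 + (2 + 4 * P.E * P.W)) + 2,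
    60 * P.W, by linarith [Real.exp_pos (12 / η + 2 * (60 * P.W) / η ^ 2 +
    36 * (2 + 4 * P.E * P.W) / (δ * η / 120000) + 2 ^ P.m / P.θ0 + (2 + 4 * P.E * P.W))],
    by linarith, ?_⟩
  intro V _ ι _ f hf hn
  have hn0 : (0:ℝ) < Fintype.card V := by
    have := Real.exp_pos (12 / η + 2 * (60 * P.W) / η ^ 2 +
    36 * (2 + 4 * P.E * P.W) / (δ * η / 120000) + 2 ^ P.m / P.θ0 + (2 + 4 * P.E * P.W))
    linarith
  have hV : Nonempty V := by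
    rw [← Fintype.card_pos_iff]
    exact_mod_cast hn0
  have hℓℓ0 : 12 / η + 2 * (60 * P.W) / η ^ 2 +
    36 * (2 + 4 * P.E * P.W) / (δ * η / 120000) + 2 ^ P.m / P.θ0 + (2 + 4 * P.E * P.W) ≤
      Real.log (Fintype.card V) := by
    rw [Real.le_log_iff_exp_le hn0]
    linarith
  have hℓ1 : 12 / η ≤ Real.log (Fintype.card V) := by linarith
  have hℓ2 : 2 * (60 * P.W) / η ^ 2 ≤ Real.log (Fintype.card V) := by linarith
  have hℓ3 : 36 * (2 + 4 * P.E * P.W) / (δ * η / 120000) ≤ Real.log (Fintype.card V) := by linarith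
  have hℓ4 : 2 ^ P.m / P.θ0 ≤ Real.log (Fintype.card V) := by linarith
  have hℓ5 : 2 + 4 * P.E * P.W ≤ Real.log (Fintype.card V) := by linarith
  have hℓone : 1 ≤ Real.log (Fintype.card V) := by linarith
  have hℓpos : 0 < Real.log (Fintype.card V) := by linarith
  refine ⟨?_, exp_large hη hℓpos hℓ2, ?_⟩
  · rw [div_le_iff₀ hη] at hℓ1
    linarith
  obtain ⟨K, Γ, c, hΓ0, hΓs, hc, hsig, hN, hC⟩ := exists_family hp P f hf hℓ4
  have hprop := fun ξ => cfg_props P hℓone hℓ5 (c ξ) ξ.2.1.2 ξ.2.2.2 (hc ξ).1 (hc ξ).2.1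
    (hc ξ).2.2.1 (hc ξ).2.2.2.1 (hc ξ).2.2.2.2
  have hne : Nonempty (Fin P.G × Fin P.m × Fin P.m') := by
    have h1 := P.hG
    have h2 := P.hm
    have h3 := P.hm'
    exact ⟨(⟨0, by omega⟩, ⟨0, by omega⟩, ⟨0, by omega⟩)⟩
  refine ⟨Fin P.G × Fin P.m × Fin P.m', inferInstance, hne, c, fun ξ => (hprop ξ).2, ?_⟩
  intro x
  generalize hL : Real.log (Fintype.card V) = ℓ at *
  have hΓo : ∀ o x, ∑ j ∈ Ico 1 K, Γ o j x ≤ ℓ := by
    intro o x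
    refine le_trans ?_ (hΓs x)
    exact single_le_sum (f := fun o => ∑ j ∈ Ico 1 K, Γ o j x)
      (fun o _ => sum_nonneg fun j _ => hΓ0 o j x) (mem_univ o)
  -- the sum of the normalised costs
  have key : ∑ ξ, ((c ξ).cost x / ℓ) ^ p ≤
      (Fintype.card (Fin P.G × Fin P.m × Fin P.m') : ℝ) * (δ * η / 120000) ^ p := by
    refine sum_bound hp hΔ0 P (fun ξ => ((c ξ).cost x / ℓ) ^ p)
      (fun ξ => if (c ξ).Clean x then 0 else 1)
      (fun o => (∑ j ∈ Ico 1 K, Γ o j x) / ℓ)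
      (fun o a => (((Ico 1 K).filter fun j => P.θ a * ℓ < Γ o j x).card : ℕ)) ?_ ?_ ?_ ?_ ?_ ?_ ?_ ?_
    · intro ξ
      have h0 : 0 ≤ (∑ j ∈ Ico 1 K, Γ ξ.1 j x) / ℓ :=
        div_nonneg (sum_nonneg fun j _ => hΓ0 ξ.1 j x) hℓpos.le
      refine pt_bound hp hΔ0 P (c ξ) x (P.θ_pos _) (P.θ_le _) hℓone ?_ (hc ξ).1 (hprop ξ).1.1
        (hprop ξ).1.2.1 (hprop ξ).1.2.2 (hc ξ).2.2.2.1 (hc ξ).2.2.2.2 h0 ?_ (hN ξ x)
      · rw [div_le_iff₀ hΔ0] at hℓ3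
        exact hℓ3
      · have h2 : (∑ j ∈ Ico 1 K, Γ ξ.1 j x) / ℓ * ℓ = ∑ j ∈ Ico 1 K, Γ ξ.1 j x := by
          field_simp
        rw [h2]
        exact hsig ξ x
    · exact fun o => div_nonneg (sum_nonneg fun j _ => hΓ0 o j x) hℓpos.le
    · intro o
      rw [div_le_one hℓpos]
      exact hΓo o x
    · rw [← sum_div, div_le_one hℓpos]
      exact hΓs x
    · intro o a
      positivity
    · intro o a
      exact card_mul_le (Ico 1 K) (fun j => Γ o j x) (fun j => hΓ0 o j x) ℓ (P.θ a) hℓpos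
        (hΓo o x)
    · intro o
      exact sum_card_le (Ico 1 K) (fun j => Γ o j x) (fun j => hΓ0 o j x) ℓ P.θ0 hℓpos hθ0 P.m
        (hΓo o x)
    · intro o a
      have h1 : ∑ b : Fin P.m', (if (c (o, a, b)).Clean x then (0:ℝ) else 1) =
          ((univ.filter fun b : Fin P.m' => ¬ (c (o, a, b)).Clean x).card : ℝ) := by
        rw [card_filter]
        push_cast
        refine sum_congr rfl fun b _ => ?_
        by_cases h : (c (o, a, b)).Clean x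
        · simp [h]
        · simp [h]
      have h2 := unclean_card (Ico 1 K) (fun j => Γ o j x) ℓ (P.θ a) hℓpos (P.θ_pos a) P.m'
        (fun b => ¬ (c (o, a, b)).Clean x) (fun b hb => hC (o, a, b) x hb)
      have h3 := card_mul_le (Ico 1 K) (fun j => Γ o j x) (fun j => hΓ0 o j x) ℓ (P.θ a) hℓpos
        (hΓo o x)
      have h4 := P.θ_ge a.2
      show ∑ b : Fin P.m', (if (c (o, a, b)).Clean x then (0:ℝ) else 1) ≤ _
      rw [h1]
      have h5 : ((univ.filter fun b : Fin P.m' => ¬ (c (o, a, b)).Clean x).card : ℝ) ≤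
          (((Ico 1 K).filter fun j => P.θ a * ℓ < Γ o j x).card : ℝ) := by
        exact_mod_cast h2
      refine h5.trans ?_
      have h6 : (0:ℝ) ≤ (((Ico 1 K).filter fun j => P.θ a * ℓ < Γ o j x).card : ℝ) := by
        positivity
      have h7 := mul_le_mul_of_nonneg_right h4 h6
      have h8 : P.θ0 / 2 ^ P.m * (((Ico 1 K).filter fun j => P.θ a * ℓ < Γ o j x).card : ℝ) ≤ 1 := by
        linarith
      rw [div_mul_eq_mul_div, div_le_one (by positivity)] at h8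
      rw [le_div_iff₀ hθ0]
      linarith
  have hconv : ∀ ξ, (120000 / (η * ℓ) * (c ξ).cost x) ^ p =
      (120000 / η) ^ p * ((c ξ).cost x / ℓ) ^ p := by
    intro ξ
    have hcost : 0 ≤ (c ξ).cost x := by
      unfold Cfg.cost
      split_ifs
      · exact cst_nonneg' (c ξ) (hprop ξ).2.2.2.1 (hprop ξ).2.2.2.2.1 x
      · have h1 := (c ξ).hQ
        have h2 := (hprop ξ).2.2.2.1
        have h3 := (hprop ξ).2.2.2.2.1
        have h4 : 0 < (c ξ).R := by linarith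
        positivity
    rw [← Real.mul_rpow (by positivity) (by positivity)]
    congr 1
    field_simp
  simp only [hconv]
  rw [← mul_sum]
  calc (120000 / η) ^ p * ∑ ξ, ((c ξ).cost x / ℓ) ^ p
      ≤ (120000 / η) ^ p * ((Fintype.card (Fin P.G × Fin P.m × Fin P.m') : ℝ) *
          (δ * η / 120000) ^ p) := mul_le_mul_of_nonneg_left key (by positivity)
    _ = (Fintype.card (Fin P.G × Fin P.m × Fin P.m') : ℝ) *
          ((120000 / η) ^ p * (δ * η / 120000) ^ p) := by ring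
    _ = (Fintype.card (Fin P.G × Fin P.m × Fin P.m') : ℝ) * δ ^ p := by
        rw [← Real.mul_rpow (by positivity) (by positivity)]
        congr 2
        field_simp

end Vale.Agent.P249
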