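import Vale.Agent.P249.NormC0

/-! P249, all distortions: the fine part at a clean point. -/

open Finset

namespace Vale.Agent.P249

namespace CleanFineAux

section
variable {V ι : Type} [Fintype V] [Fintype ι] {p : ℝ} {f : V → ι → ℝ}

/-- the mixed scales -/
noncomputable def h (c : Cfg p f) (x : V) (j : ℕ) : ℝ :=
  mix c.K (fun j => c.g j x) (fun j => 1 / c.lam j) j

lemma Qpos (c : Cfg p f) : 0 < c.Q := by linarith [c.hQ]

lemma lam_succ_le (c : Cfg p f) (j : ℕ) : 2 * c.lam (j + 1) ≤ c.lam j := by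
  rw [c.lam_succ j]
  exact mul_le_mul_of_nonneg_right c.hQ (c.lam_pos (j + 1)).le

lemma lam_anti (c : Cfg p f) {i j : ℕ} (hij : i ≤ j) : c.lam j ≤ c.lam i := by
  induction hij with
  | refl => exact le_rfl
  | step _ ih =>
    refine le_trans ?_ ih
    have := lam_succ_le c
    rename_i m _
    linarith [this m, c.lam_pos (m + 1)]

lemma inv_lam_succ (c : Cfg p f) (j : ℕ) : 2 * (1 / c.lam j) ≤ 1 / c.lam (j + 1) := by
  have h1 := lam_succ_le c j
  have h2 := c.lam_pos j
  have h3 := c.lam_pos (j + 1)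
  rw [mul_one_div, div_le_div_iff₀ h2 h3]
  linarith

lemma h_ge (c : Cfg p f) (x : V) : ∀ j, j ≤ c.K → 1 / c.lam j ≤ h c x j := by
  refine down_induction ?_ ?_
  · unfold h; rw [mix_last]
  · intro j hj ih
    unfold h at ih ⊢
    rw [mix_step hj]
    have h1 := inv_lam_succ c j
    have h2 : 0 < 1 / c.lam j := one_div_pos.mpr (c.lam_pos j)
    have h3 : 1 / c.lam j ≤ mix c.K (fun j => c.g j x) (fun j => 1 / c.lam j) (j + 1) := by
      linarith
    have h4 := mul_le_mul_of_nonneg_left h3 (sub_nonneg.mpr (c.g_le_one j x))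
    have h5 : (1 - c.g j x) * (1 / c.lam j) + c.g j x * (1 / c.lam j) = 1 / c.lam j := by ring
    linarith

lemma h_pos (c : Cfg p f) (x : V) {j : ℕ} (hj : j ≤ c.K) : 0 < h c x j :=
  lt_of_lt_of_le (one_div_pos.mpr (c.lam_pos j)) (h_ge c x j hj)

lemma h_one (c : Cfg p f) (x : V) {j : ℕ} (hj : j ≤ c.K) (hg : c.g j x = 1) :
    h c x j = 1 / c.lam j := by
  unfold h
  rw [mix_one hj _ (Or.inl hg)]

lemma h_zero (c : Cfg p f) (x : V) {j : ℕ} (hj : j < c.K) (hg : c.g j x = 0) :
    h c x j = h c x (j + 1) := by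
  unfold h
  rw [mix_zero hj _ hg]

lemma h_two (c : Cfg p f) (x : V) {j : ℕ} (hj : j < c.K) (hg : c.g j x = 1) :
    2 * h c x j ≤ h c x (j + 1) := by
  rw [h_one c x hj.le hg]
  exact (inv_lam_succ c j).trans (h_ge c x (j + 1) hj)

lemma h_step (c : Cfg p f) {x : V} {j : ℕ} (hj : j < c.K) : h c x j ≤ h c x (j + 1) := by
  have h1 := inv_lam_succ c j
  have h2 : 0 < 1 / c.lam j := one_div_pos.mpr (c.lam_pos j)
  have h3 := h_ge c x (j + 1) hj
  have h4 : 1 / c.lam j ≤ h c x (j + 1) := by linarith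
  have h5 := mul_le_mul_of_nonneg_left h4 (c.g_nonneg j x)
  have h6 : h c x j = (1 - c.g j x) * h c x (j + 1) + c.g j x * (1 / c.lam j) := by
    unfold h
    rw [mix_step hj]
  rw [h6]
  linarith

lemma h_mono (c : Cfg p f) {x : V} {i j : ℕ} (hij : i ≤ j) (hj : j ≤ c.K) :
    h c x i ≤ h c x j := by
  induction hij with
  | refl => exact le_rfl
  | step hm ih =>
    rename_i m
    exact (ih (by omega)).trans (h_step c (by omega))

lemma U_nonneg (c : Cfg p f) (x : V) : 0 ≤ c.U := (c.u_nonneg c.K x).trans (c.u_last x)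

lemma u_le_R (c : Cfg p f) (x : V) {j : ℕ} (hj : j ≤ c.K) : c.u j x ≤ c.R :=
  (single_le_sum (f := fun j => c.u j x) (fun j _ => c.u_nonneg j x)
    (mem_range.mpr (by omega))).trans (c.u_sum x)

lemma nrm_M_le (hp : 1 ≤ p) (c : Cfg p f) (x : V) {j : ℕ} (hj : j ≤ c.K) :
    nrm p (fun i => c.M x i j - f x i) ≤ c.U * h c x j := by
  refine (nrm_M_sub hp c x hj).trans ?_
  unfold h
  rw [← mix_const_mul _ _ _ _ j hj]
  refine mix_mono (fun j => c.g_nonneg j x) (fun j => c.g_le_one j x) ?_ ?_ j hj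
  · intro j hj hg
    have h1 : 0 < c.g j x := lt_of_le_of_ne (c.g_nonneg j x) (Ne.symm hg)
    rw [mul_one_div]
    exact div_le_div_of_nonneg_right (c.u_le j x hj h1) (c.lam_pos j).le
  · rw [mul_one_div]
    exact div_le_div_of_nonneg_right (c.u_last x) (c.lam_pos _).le

lemma nrm_m_le (c : Cfg p f) (x : V) {j : ℕ} (hj : j ≤ c.K) :
    nrm p (fun i => c.m j x i - f x i) ≤ c.u j x / c.lam j := by
  rw [le_div_iff₀ (c.lam_pos j), mul_comm]
  exact c.nrm_m j x hj

lemma nrm_e_le (c : Cfg p f) (x : V) {j : ℕ} (hj : j ≤ c.K) :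
    nrm p (c.e j x) ≤ 2 * c.u j x / c.lam j := by
  rw [le_div_iff₀ (c.lam_pos j), mul_comm]
  exact c.nrm_e j x hj

lemma nrm_mM (hp : 1 ≤ p) (c : Cfg p f) (x : V) {j : ℕ} (hj : j < c.K) :
    nrm p (fun i => c.m j x i - c.M x i (j + 1)) ≤ c.u j x / c.lam j + c.U * h c x (j + 1) := by
  have h1 := nrm_triangle hp (fun i => c.m j x i) (f x) (fun i => c.M x i (j + 1))
  have h2 := nrm_m_le c x hj.le
  have h3 := nrm_M_le hp c x (j := j + 1) hj
  rw [nrm_sub_comm] at h3
  linarith

lemma nrm_D (hp : 1 ≤ p) (c : Cfg p f) {x : V} {j : ℕ} (hj : j < c.K)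
    (hx : c.g j x = 0 ∨ c.g j x = 1) :
    nrm p (fun i => c.M x i j - c.M x i (j + 1)) ≤ 3 * c.U * (h c x (j + 1) - h c x j) := by
  rcases hx with hg | hg
  · have h1 : ∀ i, c.M x i j - c.M x i (j + 1) = 0 := fun i => by
      unfold Cfg.M
      rw [mix_zero hj _ hg, sub_self]
    simp only [h1]
    rw [nrm_zero hp, h_zero c x hj hg, sub_self, mul_zero]
  · have h1 : ∀ i, c.M x i j = c.m j x i := fun i => by
      unfold Cfg.M
      rw [mix_one hj.le _ (Or.inl hg)]
    simp only [h1]
    have h2 := nrm_mM hp c x hj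
    have hU := U_nonneg c x
    have h3 : c.u j x / c.lam j ≤ c.U * h c x j := by
      rw [h_one c x hj.le hg, mul_one_div]
      exact div_le_div_of_nonneg_right (c.u_le j x hj (by rw [hg]; exact one_pos)) (c.lam_pos j).le
    have h4 := h_two c x hj hg
    have h5 : c.U * h c x j + c.U * h c x (j + 1) ≤ 3 * c.U * (h c x (j + 1) - h c x j) := by
      have h6 := mul_le_mul_of_nonneg_left h4 hU
      nlinarith
    linarith

lemma sum_weights (a : ℕ → ℝ) (κ : ℕ) :
    ∑ j ∈ range κ, ((κ : ℝ) - j) * (a (j + 1) - a j) = ∑ k ∈ range κ, (a (k + 1) - a 0) := by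
  induction κ with
  | zero => simp
  | succ κ ih =>
    rw [sum_range_succ, sum_range_succ _ κ, ← ih]
    have h1 : ∑ j ∈ range κ, (((κ + 1 : ℕ) : ℝ) - j) * (a (j + 1) - a j) =
        ∑ j ∈ range κ, ((κ : ℝ) - j) * (a (j + 1) - a j) + ∑ j ∈ range κ, (a (j + 1) - a j) := by
      rw [← sum_add_distrib]
      refine sum_congr rfl fun j _ => ?_
      push_cast
      ring
    rw [h1, sum_range_sub]
    push_cast
    ring

lemma log_lam (c : Cfg p f) {j κ : ℕ} (hj : j ≤ κ) :
    Real.log (c.lam j / c.lam κ) = ((κ : ℝ) - j) * Real.log c.Q := by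
  obtain ⟨d, rfl⟩ := Nat.exists_eq_add_of_le hj
  have h1 : c.lam j = c.Q ^ d * c.lam (j + d) := by
    clear hj
    induction d with
    | zero => simp
    | succ d ih =>
      rw [ih, c.lam_succ (j + d)]
      rw [show j + (d + 1) = j + d + 1 by ring]
      ring
  rw [h1, mul_div_assoc, div_self (c.lam_pos _).ne', mul_one, Real.log_pow]
  push_cast
  ring

lemma sum_inv_lam (c : Cfg p f) (κ : ℕ) :
    ∑ k ∈ range κ, 1 / c.lam (k + 1) ≤ 2 * (1 / c.lam κ) := by
  induction κ with
  | zero =>
    simp only [range_zero, sum_empty]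
    have := one_div_pos.mpr (c.lam_pos 0)
    linarith
  | succ κ ih =>
    rw [sum_range_succ]
    have := inv_lam_succ c κ
    linarith

lemma bad_count (c : Cfg p f) (x : V) {κ : ℕ} (hκ : κ < c.K) :
    ∑ k ∈ range κ, (if c.g (k + 1) x ≠ 1 then (1 : ℝ) else 0) ≤ c.N x ∧
    ∑ k ∈ range κ, (if c.g k x ≠ 1 then (1 : ℝ) else 0) ≤ c.N x := by
  have h0 : (c.N x : ℝ) = ∑ k ∈ range c.K, (if c.g k x ≠ 1 then (1 : ℝ) else 0) := by
    unfold Cfg.N
    rw [sum_boole]
  have hnn : ∀ k, (0 : ℝ) ≤ (if c.g k x ≠ 1 then (1 : ℝ) else 0) := fun k => by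
    split_ifs <;> norm_num
  rw [h0]
  constructor
  · have h1 : ∑ k ∈ range κ, (if c.g (k + 1) x ≠ 1 then (1 : ℝ) else 0) ≤
        ∑ k ∈ range (κ + 1), (if c.g k x ≠ 1 then (1 : ℝ) else 0) := by
      rw [sum_range_succ' (fun k => if c.g k x ≠ 1 then (1 : ℝ) else 0) κ]
      have := hnn 0
      linarith
    refine h1.trans (sum_le_sum_of_subset_of_nonneg ?_ fun k _ _ => hnn k)
    exact range_subset_range.mpr (by omega)
  · exact sum_le_sum_of_subset_of_nonneg (range_subset_range.mpr (by omega)) fun k _ _ => hnn k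

end

end CleanFineAux

open CleanFineAux in
theorem clean_fine {V ι : Type} [Fintype V] [Fintype ι] {p : ℝ} {f : V → ι → ℝ}
    (hp : 1 ≤ p) (c : Cfg p f) (hε : c.ε ≤ 1) (hUR : c.U ≤ c.R) {x : V}
    (hx : c.Clean x) {κ : ℕ} (hκ : κ < c.K) (hgκ : c.g κ x = 1) :
    nrm p (fun i => ∑ j ∈ range κ, Real.log (c.lam j / c.lam κ) *
        |c.M x i j - c.M x i (j + 1)|) ≤
      3 * c.U * Real.log c.Q * (2 + c.N x) / c.lam κ ∧
    nrm p (fun i => ∑ j ∈ range κ, c.β x i j / c.lam j) ≤
      (10 * c.U + 4 * c.ε * c.N x * c.R) / c.lam κ := by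
  have hU := U_nonneg c x
  have hlogQ : 0 ≤ Real.log c.Q := Real.log_nonneg (by linarith [c.hQ])
  have hκ1 := h_one c x hκ.le hgκ
  have hinv : 0 < 1 / c.lam κ := one_div_pos.mpr (c.lam_pos κ)
  constructor
  · refine (nrm_sum_le hp _ (fun j i => Real.log (c.lam j / c.lam κ) *
        |c.M x i j - c.M x i (j + 1)|)).trans ?_
    have h1 : ∀ j ∈ range κ, nrm p (fun i => Real.log (c.lam j / c.lam κ) *
        |c.M x i j - c.M x i (j + 1)|) ≤
        3 * c.U * Real.log c.Q * (((κ : ℝ) - j) * (h c x (j + 1) - h c x j)) := by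
      intro j hj
      rw [mem_range] at hj
      have hjκ : (0 : ℝ) ≤ (κ : ℝ) - j := by
        have : (j : ℝ) ≤ κ := by exact_mod_cast hj.le
        linarith
      rw [log_lam c hj.le]
      rw [nrm_const_mul hp, abs_of_nonneg (by positivity)]
      have h2 : nrm p (fun i => |c.M x i j - c.M x i (j + 1)|) =
          nrm p (fun i => c.M x i j - c.M x i (j + 1)) := by
        unfold nrm; simp only [abs_abs]
      rw [h2]
      have h3 := nrm_D hp c (x := x) (j := j) (by omega) (hx j (by omega))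
      calc ((κ : ℝ) - j) * Real.log c.Q * nrm p (fun i => c.M x i j - c.M x i (j + 1))
          ≤ ((κ : ℝ) - j) * Real.log c.Q * (3 * c.U * (h c x (j + 1) - h c x j)) :=
            mul_le_mul_of_nonneg_left h3 (by positivity)
        _ = _ := by ring
    refine (sum_le_sum h1).trans ?_
    rw [← mul_sum, sum_weights (h c x) κ]
    have h2 : ∑ k ∈ range κ, (h c x (k + 1) - h c x 0) ≤ (2 + c.N x) * (1 / c.lam κ) := by
      have h3 : ∀ k ∈ range κ, h c x (k + 1) - h c x 0 ≤
          1 / c.lam (k + 1) + (if c.g (k + 1) x ≠ 1 then (1 : ℝ) else 0) * (1 / c.lam κ) := by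
        intro k hk
        rw [mem_range] at hk
        have h4 := h_pos c x (Nat.zero_le c.K)
        by_cases hg : c.g (k + 1) x = 1
        · rw [h_one c x (by omega) hg]
          simp only [hg, ne_eq, not_true_eq_false, if_false, zero_mul, add_zero]
          linarith
        · rw [if_pos hg, one_mul]
          have h5 := h_mono c (x := x) (i := k + 1) (j := κ) (by omega) hκ.le
          rw [hκ1] at h5
          have h6 : 0 < 1 / c.lam (k + 1) := one_div_pos.mpr (c.lam_pos _)
          linarith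
      refine (sum_le_sum h3).trans ?_
      rw [sum_add_distrib, ← sum_mul]
      have h4 := sum_inv_lam c κ
      have h5 := mul_le_mul_of_nonneg_right (bad_count c x hκ).1 hinv.le
      linarith
    calc 3 * c.U * Real.log c.Q * ∑ k ∈ range κ, (h c x (k + 1) - h c x 0)
        ≤ 3 * c.U * Real.log c.Q * ((2 + c.N x) * (1 / c.lam κ)) :=
          mul_le_mul_of_nonneg_left h2 (by positivity)
      _ = _ := by ring
  · refine (nrm_sum_le hp _ (fun j i => c.β x i j / c.lam j)).trans ?_
    have hR : 0 ≤ c.R := hU.trans hUR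
    have h1 : ∀ j ∈ range κ, nrm p (fun i => c.β x i j / c.lam j) ≤
        10 * c.U * (h c x (j + 1) - h c x j) +
          (if c.g j x ≠ 1 then (1 : ℝ) else 0) * (4 * c.ε * c.R * (1 / c.lam κ)) := by
      intro j hj
      rw [mem_range] at hj
      have hjK : j < c.K := by omega
      have hβ : ∀ i, c.β x i j / c.lam j = |c.M x i j - c.M x i (j + 1)| +
          (c.g j x + c.ε) * c.e j x i + c.ε * |c.m j x i - c.M x i (j + 1)| := fun i => by
        unfold Cfg.β bet Cfg.M
        rw [mul_div_assoc, mul_comm, div_mul_cancel₀ _ (c.lam_pos j).ne']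
      have hεp := c.hε
      rcases hx j hjK with hg | hg
      · have h2 : ∀ i, c.M x i j - c.M x i (j + 1) = 0 := fun i => by
          unfold Cfg.M
          rw [mix_zero hjK _ hg, sub_self]
        have h3 : (fun i => c.β x i j / c.lam j) =
            fun i => c.ε * (c.e j x i + |c.m j x i - c.M x i (j + 1)|) := by
          funext i
          rw [hβ i, h2 i, hg, abs_zero]
          ring
        rw [h3, nrm_const_mul hp, abs_of_pos hεp, h_zero c x hjK hg, sub_self, mul_zero, zero_add]
        have hne : c.g j x ≠ 1 := by rw [hg]; exact zero_ne_one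
        rw [if_pos hne, one_mul]
        have h4 := nrm_add_le hp (c.e j x) (fun i => |c.m j x i - c.M x i (j + 1)|)
        have h5 : nrm p (fun i => |c.m j x i - c.M x i (j + 1)|) =
            nrm p (fun i => c.m j x i - c.M x i (j + 1)) := by
          unfold nrm; simp only [abs_abs]
        rw [h5] at h4
        have h6 := nrm_e_le c x hjK.le
        have h7 := nrm_mM hp c x hjK
        have h8 := h_mono c (x := x) (i := j + 1) (j := κ) (by omega) hκ.le
        rw [hκ1] at h8
        have h9 : c.u j x / c.lam j ≤ c.R * (1 / c.lam κ) := by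
          rw [div_eq_mul_one_div]
          refine mul_le_mul (u_le_R c x hjK.le) ?_ (one_div_pos.mpr (c.lam_pos j)).le hR
          exact one_div_le_one_div_of_le (c.lam_pos κ) (lam_anti c hj.le)
        have h10 : c.U * h c x (j + 1) ≤ c.R * (1 / c.lam κ) :=
          mul_le_mul hUR h8 (h_pos c x (by omega)).le hR
        have h11 : 2 * c.u j x / c.lam j = 2 * (c.u j x / c.lam j) := by ring
        have h12 : nrm p (fun i => c.e j x i + |c.m j x i - c.M x i (j + 1)|) ≤
            4 * (c.R * (1 / c.lam κ)) := by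
          rw [h11] at h6
          linarith
        calc c.ε * nrm p (fun i => c.e j x i + |c.m j x i - c.M x i (j + 1)|)
            ≤ c.ε * (4 * (c.R * (1 / c.lam κ))) := mul_le_mul_of_nonneg_left h12 hεp.le
          _ = _ := by ring
      · have h2 : ∀ i, c.M x i j = c.m j x i := fun i => by
          unfold Cfg.M
          rw [mix_one hjK.le _ (Or.inl hg)]
        have h3 : (fun i => c.β x i j / c.lam j) =
            fun i => (1 + c.ε) * (|c.M x i j - c.M x i (j + 1)| + c.e j x i) := by
          funext i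
          rw [hβ i, hg, h2 i]
          ring
        rw [h3, nrm_const_mul hp, abs_of_pos (by linarith)]
        simp only [hg, ne_eq, not_true_eq_false, if_false, zero_mul, add_zero]
        have h4 := nrm_add_le hp (fun i => |c.M x i j - c.M x i (j + 1)|) (c.e j x)
        have h5 : nrm p (fun i => |c.M x i j - c.M x i (j + 1)|) =
            nrm p (fun i => c.M x i j - c.M x i (j + 1)) := by
          unfold nrm; simp only [abs_abs]
        rw [h5] at h4
        have h6 := nrm_e_le c x hjK.le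
        have h7 := nrm_D hp c (x := x) (j := j) hjK (Or.inr hg)
        have h8 : c.u j x / c.lam j ≤ c.U * h c x j := by
          rw [h_one c x hjK.le hg, mul_one_div]
          exact div_le_div_of_nonneg_right (c.u_le j x hjK (by rw [hg]; exact one_pos))
            (c.lam_pos j).le
        have h9 := mul_le_mul_of_nonneg_left (h_two c x hjK hg) hU
        have h11 : 2 * c.u j x / c.lam j = 2 * (c.u j x / c.lam j) := by ring
        rw [h11] at h6
        have h12 : nrm p (fun i => |c.M x i j - c.M x i (j + 1)| + c.e j x i) ≤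
            5 * c.U * (h c x (j + 1) - h c x j) := by
          nlinarith
        have h13 : 0 ≤ nrm p (fun i => |c.M x i j - c.M x i (j + 1)| + c.e j x i) := nrm_nonneg _
        calc (1 + c.ε) * nrm p (fun i => |c.M x i j - c.M x i (j + 1)| + c.e j x i)
            ≤ 2 * nrm p (fun i => |c.M x i j - c.M x i (j + 1)| + c.e j x i) :=
              mul_le_mul_of_nonneg_right (by linarith) h13
          _ ≤ 2 * (5 * c.U * (h c x (j + 1) - h c x j)) := by linarith
          _ = _ := by ring
    refine (sum_le_sum h1).trans ?_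
    rw [sum_add_distrib, ← mul_sum, ← sum_mul, sum_range_sub]
    have h2 := (bad_count c x hκ).2
    have h3 := h_pos c x (Nat.zero_le c.K)
    have h4 : 10 * c.U * (h c x κ - h c x 0) ≤ 10 * c.U * (1 / c.lam κ) := by
      apply mul_le_mul_of_nonneg_left _ (by positivity)
      rw [hκ1]; linarith
    have hεp := c.hε
    have h5 : (∑ k ∈ range κ, if c.g k x ≠ 1 then (1 : ℝ) else 0) *
        (4 * c.ε * c.R * (1 / c.lam κ)) ≤ c.N x * (4 * c.ε * c.R * (1 / c.lam κ)) :=
      mul_le_mul_of_nonneg_right h2 (by positivity)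
    calc _ ≤ 10 * c.U * (1 / c.lam κ) + c.N x * (4 * c.ε * c.R * (1 / c.lam κ)) := add_le_add h4 h5
      _ = _ := by ring

end Vale.Agent.P249
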