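import Vale.Agent.P249.Mix

/-! P249 [FOLDS]. -/

open Finset

namespace Vale.Agent.P249

namespace FoldScalarAux

lemma core {C t h b S : ℝ} (hC : 0 < C) (ht0 : 0 ≤ t) (htC : t ≤ C) (htS : t ≤ S) (hS : 0 < S)
    (hh0 : 0 ≤ h) (hhC : h ≤ C) (hb : 0 ≤ b) :
    t * Real.log (1 + b / C) ≤ 2 * S * (Real.log (S + (h + b)) - Real.log (S + h)) := by
  have hSh : 0 < S + h := by linarith
  have hR : Real.log (S + (h + b)) - Real.log (S + h) = Real.log (1 + b / (S + h)) := by
    rw [← Real.log_div (by linarith) hSh.ne']
    congr 1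
    field_simp
    ring
  rw [hR]
  rcases ht0.eq_or_lt with h0 | h0
  · rw [← h0, zero_mul]
    have : 0 ≤ Real.log (1 + b / (S + h)) := by
      apply Real.log_nonneg
      have : 0 ≤ b / (S + h) := by positivity
      linarith
    positivity
  · have hth : 0 < t + h := by linarith
    set y := b / (t + h) with hy
    have hy0 : 0 ≤ y := by positivity
    have h1 : Real.log (1 + b / C) ≤ 2 * Real.log (1 + y) := by
      have h2 : (1 + b / C) ≤ (1 + y) ^ 2 := by
        have h3 : b / C ≤ 2 * y := by
          rw [hy, div_le_iff₀ hC, ← mul_div_assoc, div_mul_eq_mul_div, le_div_iff₀ hth]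
          nlinarith
        nlinarith
      have h4 : 0 ≤ b / C := by positivity
      refine (Real.log_le_log (by linarith) h2).trans (le_of_eq ?_)
      rw [Real.log_pow]; norm_num
    set θ := t / S with hθ
    have hθ0 : 0 ≤ θ := by positivity
    have hθ1 : θ ≤ 1 := by rw [hθ, div_le_one hS]; exact htS
    have h5 : θ * Real.log (1 + y) ≤ Real.log (1 + θ * y) := by
      rw [← Real.log_rpow (by linarith)]
      exact Real.log_le_log (by positivity)
        (rpow_one_add_le_one_add_mul_self (by linarith) hθ0 hθ1)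
    have h6 : θ * y ≤ b / (S + h) := by
      rw [hθ, hy, div_mul_div_comm, div_le_div_iff₀ (by positivity) hSh]
      have : t * h ≤ S * h := mul_le_mul_of_nonneg_right htS hh0
      nlinarith
    have h7 : Real.log (1 + θ * y) ≤ Real.log (1 + b / (S + h)) := by
      apply Real.log_le_log (by positivity)
      linarith
    calc t * Real.log (1 + b / C) ≤ t * (2 * Real.log (1 + y)) := by gcongr
      _ = 2 * S * (θ * Real.log (1 + y)) := by rw [hθ]; field_simp
      _ ≤ 2 * S * Real.log (1 + b / (S + h)) := by
          have := h5.trans h7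
          gcongr

end FoldScalarAux

open FoldScalarAux

theorem fold_scalar {K κ : ℕ} (β b r t : ℕ → ℝ) (J : Finset ℕ) (S A : ℝ) (hS : 0 ≤ S) (hA : 1 ≤ A)
    (hβ : ∀ j, 0 ≤ β j) (hb : ∀ j, 0 ≤ b j) (hr : ∀ j ∈ J, 1 ≤ r j)
    (hbβ : ∀ j ∈ J, b j ≤ β j) (hβb : ∀ j ∈ J, β j ≤ r j * b j)
    (ht0 : ∀ j, j ≤ K → 0 ≤ t j) (htC : ∀ j, j ≤ K → t j ≤ tail K β j)
    (htS : ∀ j, j ≤ K → t j ≤ S) :
    ∑ j ∈ Ico κ K, Real.log (tail K β j / tail K β (j + 1)) * t (j + 1) ≤
      ∑ j ∈ (Ico κ K).filter (fun j => j ∉ J), β j
      + ∑ j ∈ (Ico κ K).filter (fun j => j ∈ J), Real.log (r j) * t (j + 1)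
      + 2 * (Real.log A * S + (∑ j ∈ (Ico κ K).filter (fun j => j ∈ J), b j) / A) := by
  have hlogA : 0 ≤ Real.log A := Real.log_nonneg hA
  have hA0 : 0 < A := by linarith
  have hR1 : 0 ≤ ∑ j ∈ (Ico κ K).filter (fun j => j ∉ J), β j := sum_nonneg fun j _ => hβ j
  have hR2 : 0 ≤ ∑ j ∈ (Ico κ K).filter (fun j => j ∈ J), Real.log (r j) * t (j + 1) := by
    refine sum_nonneg fun j hj => ?_
    rw [mem_filter, mem_Ico] at hj
    exact mul_nonneg (Real.log_nonneg (hr j hj.2)) (ht0 _ (by omega))
  have hR3 : 0 ≤ (∑ j ∈ (Ico κ K).filter (fun j => j ∈ J), b j) / A := by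
    apply div_nonneg (sum_nonneg fun j _ => hb j) hA0.le
  rcases hS.eq_or_lt with hS0 | hS0
  · have : ∑ j ∈ Ico κ K, Real.log (tail K β j / tail K β (j + 1)) * t (j + 1) = 0 := by
      refine sum_eq_zero fun j hj => ?_
      rw [mem_Ico] at hj
      have h1 := ht0 (j + 1) (by omega)
      have h2 := htS (j + 1) (by omega)
      have h3 : t (j + 1) = 0 := by linarith
      rw [h3, mul_zero]
    rw [this]
    have : 0 ≤ Real.log A * S := by positivity
    linarith
  -- the partial sums
  set H : ℕ → ℝ := fun j => ∑ s ∈ (Ico j K).filter (fun s => s ∈ J), b s with hH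
  have hH0 : ∀ j, 0 ≤ H j := fun j => sum_nonneg fun s _ => hb s
  have hHK : H K = 0 := by simp [hH]
  have hHC : ∀ j, H j ≤ tail K β j := by
    intro j
    calc H j ≤ ∑ s ∈ (Ico j K).filter (fun s => s ∈ J), β s :=
          sum_le_sum fun s hs => hbβ s (mem_filter.1 hs).2
      _ ≤ _ := sum_le_sum_of_subset_of_nonneg (filter_subset _ _) fun s _ _ => hβ s
  have hHs : ∀ j, j < K → H j = H (j + 1) + if j ∈ J then b j else 0 := by
    intro j hj
    simp only [hH]
    rw [← Finset.insert_Ico_add_one_left_eq_Ico hj, filter_insert]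
    by_cases h : j ∈ J
    · rw [if_pos h, if_pos h, sum_insert (by simp)]; ring
    · rw [if_neg h, if_neg h, add_zero]
  have hterm : ∀ j ∈ Ico κ K, Real.log (tail K β j / tail K β (j + 1)) * t (j + 1) ≤
      (if j ∉ J then β j else 0) + (if j ∈ J then Real.log (r j) * t (j + 1) else 0) +
        2 * S * (Real.log (S + H j) - Real.log (S + H (j + 1))) := by
    intro j hj
    rw [mem_Ico] at hj
    have htj := ht0 (j + 1) (by omega)
    have htjC := htC (j + 1) (by omega)
    have htjS := htS (j + 1) (by omega)
    have hCn : 0 ≤ tail K β (j + 1) := tail_nonneg hβ _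
    have hmono : 0 ≤ Real.log (S + H j) - Real.log (S + H (j + 1)) := by
      rw [sub_nonneg]
      apply Real.log_le_log (by linarith [hH0 (j + 1)])
      rw [hHs j hj.2]
      have : 0 ≤ (if j ∈ J then b j else 0) := by split_ifs; exact hb j; exact le_refl _
      linarith
    rcases hCn.eq_or_lt with hC0 | hC0
    · have h3 : t (j + 1) = 0 := by linarith
      rw [h3, mul_zero, mul_zero]
      have h4 : 0 ≤ (if j ∉ J then β j else 0) := by
        by_cases h : j ∈ J
        · rw [if_neg (by simpa using h)]
        · rw [if_pos h]; exact hβ j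
      have h5 : 0 ≤ 2 * S * (Real.log (S + H j) - Real.log (S + H (j + 1))) := by positivity
      have h6 : (if j ∈ J then (0:ℝ) else 0) = 0 := by split_ifs <;> rfl
      rw [h6]
      linarith
    · have hlog : Real.log (tail K β j / tail K β (j + 1)) =
          Real.log (1 + β j / tail K β (j + 1)) := by
        rw [tail_succ hj.2]
        congr 1
        field_simp
        ring
      rw [hlog]
      by_cases hJ : j ∈ J
      · rw [if_neg (by simpa using hJ), if_pos hJ, zero_add]
        have hr1 := hr j hJ
        have h1 : Real.log (1 + β j / tail K β (j + 1)) ≤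
            Real.log (r j) + Real.log (1 + b j / tail K β (j + 1)) := by
          have h2 : 0 ≤ b j / tail K β (j + 1) := div_nonneg (hb j) hC0.le
          have h3 : 0 ≤ β j / tail K β (j + 1) := div_nonneg (hβ j) hC0.le
          rw [← Real.log_mul (by linarith) (by linarith)]
          apply Real.log_le_log (by linarith)
          have h4 : β j / tail K β (j + 1) ≤ r j * (b j / tail K β (j + 1)) := by
            rw [← mul_div_assoc]
            exact div_le_div_of_nonneg_right (hβb j hJ) hC0.le
          nlinarith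
        have h5 := core hC0 htj htjC htjS hS0 (hH0 (j + 1)) (hHC (j + 1)) (hb j)
        rw [hHs j hj.2, if_pos hJ]
        calc _ ≤ (Real.log (r j) + Real.log (1 + b j / tail K β (j + 1))) * t (j + 1) := by gcongr
          _ = Real.log (r j) * t (j + 1) + t (j + 1) * Real.log (1 + b j / tail K β (j + 1)) := by
              ring
          _ ≤ _ := by linarith
      · rw [if_pos hJ, if_neg hJ, add_zero]
        have h5 : 0 ≤ 2 * S * (Real.log (S + H j) - Real.log (S + H (j + 1))) := by positivity
        have h6 : Real.log (1 + β j / tail K β (j + 1)) ≤ β j / tail K β (j + 1) := by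
          have h3 : 0 ≤ β j / tail K β (j + 1) := div_nonneg (hβ j) hC0.le
          have := Real.log_le_sub_one_of_pos (show 0 < 1 + β j / tail K β (j + 1) by linarith)
          linarith
        calc Real.log (1 + β j / tail K β (j + 1)) * t (j + 1) ≤
              (β j / tail K β (j + 1)) * t (j + 1) := by gcongr
          _ ≤ (β j / tail K β (j + 1)) * tail K β (j + 1) := by
              apply mul_le_mul_of_nonneg_left htjC (div_nonneg (hβ j) hC0.le)
          _ = β j := by field_simp
          _ ≤ _ := by linarith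
  refine (sum_le_sum hterm).trans ?_
  rw [sum_add_distrib, sum_add_distrib, ← sum_filter, ← sum_filter, ← mul_sum]
  have htel : 2 * S * ∑ j ∈ Ico κ K, (Real.log (S + H j) - Real.log (S + H (j + 1))) ≤
      2 * (Real.log A * S + H κ / A) := by
    rcases Nat.lt_or_ge K κ with hlt | hge
    · rw [Ico_eq_empty (by omega), sum_empty, mul_zero]
      have := hH0 κ
      positivity
    · have h1 : ∑ j ∈ Ico κ K, (Real.log (S + H j) - Real.log (S + H (j + 1))) =
          Real.log (S + H κ) - Real.log (S + H K) := by
        have h2 := Finset.sum_Ico_sub (fun j => -Real.log (S + H j)) hge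
        have h3 : ∑ j ∈ Ico κ K, (Real.log (S + H j) - Real.log (S + H (j + 1))) =
            ∑ i ∈ Ico κ K, (-Real.log (S + H (i + 1)) - -Real.log (S + H i)) :=
          sum_congr rfl fun i _ => by ring
        rw [h3, h2]; ring
      rw [h1, hHK, add_zero, ← Real.log_div (by linarith [hH0 κ]) hS0.ne']
      set y := H κ / S with hy
      have hy0 : 0 ≤ y := div_nonneg (hH0 κ) hS0.le
      have h2 : (S + H κ) / S = 1 + y := by rw [hy]; field_simp
      rw [h2]
      have h3 : Real.log (1 + y) ≤ Real.log A + y / A := by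
        have h4 : (1 + y) = A * ((1 + y) / A) := by field_simp
        rw [h4, Real.log_mul hA0.ne' (by positivity)]
        have h5 := Real.log_le_sub_one_of_pos (show 0 < (1 + y) / A by positivity)
        have h6 : (1 + y) / A - 1 ≤ y / A := by
          rw [add_div]
          have : 1 / A ≤ 1 := by rw [div_le_one hA0]; exact hA
          linarith
        linarith
      calc 2 * S * Real.log (1 + y) ≤ 2 * S * (Real.log A + y / A) := by gcongr
        _ = 2 * (Real.log A * S + (S * y) / A) := by ring
        _ = _ := by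
            have : S * y = H κ := by rw [hy]; field_simp
            rw [this]
  have hfin : (∑ j ∈ (Ico κ K).filter (fun j => j ∈ J), b j) = H κ := rfl
  rw [hfin]
  linarith

end Vale.Agent.P249
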