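import Vale.Agent.P249.NormC0
import Vale.Agent.P249.FoldScalar

/-! P249 [FOLD]. -/

open Finset

namespace Vale.Agent.P249

section
variable {V ι : Type} [Fintype V] [Fintype ι] {p : ℝ} {f : V → ι → ℝ}

namespace CleanFoldAux

lemma te_nonneg (c : Cfg p f) (x : V) (i : ι) (j : ℕ) :
    0 ≤ (if j < c.K then c.lam j * c.e j x i else 0) := by
  have := c.lam_pos j
  have := c.e_nonneg j x i
  split_ifs
  · positivity
  · exact le_refl _

lemma tt_last (c : Cfg p f) (x : V) (i : ι) : c.tt x i c.K = 0 := by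
  unfold Cfg.tt
  rw [mix_last]; simp

lemma tt_step (c : Cfg p f) (x : V) (i : ι) {j : ℕ} (hj : j < c.K) :
    c.tt x i j = (1 - c.g j x) * c.tt x i (j + 1) + c.g j x * (c.lam j * c.e j x i) := by
  unfold Cfg.tt
  rw [mix_step hj, if_pos hj]

end CleanFoldAux

open CleanFoldAux NormC0Aux

theorem tt_nonneg (c : Cfg p f) (x : V) (i : ι) {j : ℕ} (hj : j ≤ c.K) : 0 ≤ c.tt x i j := by
  unfold Cfg.tt
  exact mix_nonneg (fun j => c.g_nonneg j x) (fun j => c.g_le_one j x)
    (fun j => te_nonneg c x i j) j hj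

theorem tt_le_C (c : Cfg p f) (x : V) (i : ι) {j : ℕ} (hj : j ≤ c.K) :
    c.tt x i j ≤ c.C x i j := by
  have key : ∀ j, j ≤ c.K → c.tt x i j ≤ c.C x i j := by
    refine down_induction ?_ ?_
    · rw [tt_last]; exact c.C_nonneg x i _
    · intro j hj ih
      have h0 := c.g_nonneg j x
      have h1 := c.g_le_one j x
      have hl := c.lam_pos j
      have he := c.e_nonneg j x i
      have hC := c.C_nonneg x i (j + 1)
      have htt := tt_nonneg c x i (show j + 1 ≤ c.K from hj)
      rw [tt_step c x i hj]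
      have h2 : c.C x i j = c.β x i j + c.C x i (j + 1) := tail_succ hj
      have h3 : c.g j x * (c.lam j * c.e j x i) ≤ c.β x i j := by
        unfold Cfg.β bet
        have hε := c.hε.le
        have ha := abs_nonneg (mix c.K (fun j => c.g j x) (fun j => c.m j x i) j -
          mix c.K (fun j => c.g j x) (fun j => c.m j x i) (j + 1))
        have hb := abs_nonneg (c.m j x i - mix c.K (fun j => c.g j x) (fun j => c.m j x i) (j + 1))
        have h4 : c.g j x * (c.lam j * c.e j x i) = c.lam j * (c.g j x * c.e j x i) := by ring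
        rw [h4]
        apply mul_le_mul_of_nonneg_left _ hl.le
        have h5 : 0 ≤ c.ε * c.e j x i := by positivity
        have h6 : 0 ≤ c.ε * |c.m j x i - mix c.K (fun j => c.g j x) (fun j => c.m j x i) (j + 1)| := by
          positivity
        have h7 : (c.g j x + c.ε) * c.e j x i = c.g j x * c.e j x i + c.ε * c.e j x i := by ring
        rw [h7]
        linarith
      have h4 : (1 - c.g j x) * c.tt x i (j + 1) ≤ 1 * c.tt x i (j + 1) :=
        mul_le_mul_of_nonneg_right (by linarith) htt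
      rw [h2]
      linarith
  exact key j hj

theorem nrm_tt (hp : 1 ≤ p) (c : Cfg p f) (hU : 0 ≤ c.U) (x : V) {j : ℕ} (hj : j ≤ c.K) :
    nrm p (fun i => c.tt x i j) ≤ 2 * c.U ∧
    nrm p (fun i => c.tt x i j) ≤ 2 * mix c.K (fun j => c.g j x) (fun j => c.u j x) j := by
  have key : ∀ j, j ≤ c.K → nrm p (fun i => c.tt x i j) ≤
      2 * mix c.K (fun j => c.g j x) (fun j => c.u j x) j := by
    refine down_induction ?_ ?_
    · rw [mix_last]
      have : (fun i => c.tt x i c.K) = fun _ => (0:ℝ) := by funext i; exact tt_last c x i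
      rw [this, nrm_zero hp]
      have := c.u_nonneg c.K x
      positivity
    · intro j hj ih
      have h0 := c.g_nonneg j x
      have h1 := c.g_le_one j x
      have hl := c.lam_pos j
      have : (fun i => c.tt x i j) = fun i => (1 - c.g j x) * c.tt x i (j + 1) +
          c.g j x * c.lam j * c.e j x i := by
        funext i; rw [tt_step c x i hj]; ring
      rw [this, mix_step hj]
      refine (nrm_add_le hp _ _).trans ?_
      rw [nrm_const_mul hp, nrm_const_mul hp,
        abs_of_nonneg (by linarith : (0:ℝ) ≤ 1 - c.g j x),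
        abs_of_nonneg (mul_nonneg h0 hl.le : (0:ℝ) ≤ c.g j x * c.lam j)]
      have h2 := c.nrm_e j x hj.le
      have h3 := mul_le_mul_of_nonneg_left ih (by linarith : (0:ℝ) ≤ 1 - c.g j x)
      have h4 := mul_le_mul_of_nonneg_left h2 h0
      calc _ ≤ (1 - c.g j x) * (2 * mix c.K (fun j => c.g j x) (fun j => c.u j x) (j + 1)) +
            c.g j x * (2 * c.u j x) := by
            refine add_le_add h3 ?_
            rw [mul_assoc]; exact h4
        _ = _ := by ring
  refine ⟨?_, key j hj⟩
  refine (key j hj).trans ?_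
  have h1 : mix c.K (fun j => c.g j x) (fun j => c.u j x) j ≤ c.U := by
    have h2 := mix_mono (K := c.K) (g := fun j => c.g j x) (a := fun j => c.u j x)
      (b := fun _ => c.U) (fun j => c.g_nonneg j x) (fun j => c.g_le_one j x)
      (fun j hj hg => c.u_le j x hj (lt_of_le_of_ne (c.g_nonneg j x) (Ne.symm hg))) (c.u_last x) j hj
    rwa [mix_const _ _ _ j hj] at h2
  linarith

/-- sum of the energies of the next used scales -/
theorem sum_mix_u (c : Cfg p f) {x : V} (hx : c.Clean x) (κ : ℕ) :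
    ∑ j ∈ (Ico κ c.K).filter (fun j => c.g j x = 1),
      mix c.K (fun j => c.g j x) (fun j => c.u j x) (j + 1) ≤ c.sig x := by
  have hsig : 0 ≤ c.sig x := sum_nonneg fun j _ => c.u_nonneg j x
  rcases Nat.lt_or_ge c.K κ with hκ | hκ
  · rw [Ico_eq_empty (by omega), filter_empty, sum_empty]; exact hsig
  have key : ∀ κ, κ ≤ c.K → ∑ j ∈ (Ico κ c.K).filter (fun j => c.g j x = 1),
      mix c.K (fun j => c.g j x) (fun j => c.u j x) (j + 1) +
      mix c.K (fun j => c.g j x) (fun j => c.u j x) κ ≤ ∑ s ∈ Ico κ (c.K + 1), c.u s x := by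
    refine down_induction ?_ ?_
    · rw [mix_last]; simp
    · intro j hj ih
      have hsplit : ∑ s ∈ Ico j (c.K + 1), c.u s x =
          c.u j x + ∑ s ∈ Ico (j + 1) (c.K + 1), c.u s x :=
        sum_eq_sum_Ico_succ_bot (by omega) _
      have hu := c.u_nonneg j x
      rw [hsplit, ← Finset.insert_Ico_add_one_left_eq_Ico hj, filter_insert]
      rcases hx j hj with h | h
      · rw [if_neg (by rw [h]; norm_num), mix_zero hj _ h]
        linarith
      · rw [if_pos h, sum_insert (by simp), mix_one hj.le _ (Or.inl h)]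
        linarith
  have h1 := key κ hκ
  have h2 : 0 ≤ mix c.K (fun j => c.g j x) (fun j => c.u j x) κ :=
    mix_nonneg (fun j => c.g_nonneg j x) (fun j => c.g_le_one j x) (fun j => c.u_nonneg j x) κ hκ
  have h3 : ∑ s ∈ Ico κ (c.K + 1), c.u s x ≤ c.sig x := by
    unfold Cfg.sig
    refine sum_le_sum_of_subset_of_nonneg ?_ fun s _ _ => c.u_nonneg s x
    intro s hs
    rw [mem_Ico] at hs
    exact mem_range.2 hs.2
  linarith

namespace CleanFoldAux

/-- `lam j * mix (1 / lam) j` -/
noncomputable def η (c : Cfg p f) (x : V) (j : ℕ) : ℝ :=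
  c.lam j * mix c.K (fun j => c.g j x) (fun j => 1 / c.lam j) j

lemma η_one (c : Cfg p f) (x : V) {j : ℕ} (hj : j ≤ c.K) (h : c.g j x = 1 ∨ j = c.K) :
    η c x j = 1 := by
  unfold η
  rw [mix_one hj _ h]
  have := (c.lam_pos j).ne'
  field_simp

lemma η_zero (c : Cfg p f) (x : V) {j : ℕ} (hj : j < c.K) (h : c.g j x = 0) :
    η c x j = c.Q * η c x (j + 1) := by
  unfold η
  rw [mix_zero hj _ h]
  conv_lhs => rw [c.lam_succ j]
  ring

lemma η_ge {c : Cfg p f} {x : V} (hx : c.Clean x) : ∀ j, j ≤ c.K → 1 ≤ η c x j := by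
  have hQ := c.hQ
  refine down_induction ?_ ?_
  · rw [η_one c x le_rfl (Or.inr rfl)]
  · intro j hj ih
    rcases hx j hj with h | h
    · rw [η_zero c x hj h]; nlinarith
    · rw [η_one c x hj.le (Or.inl h)]

lemma nb_used {c : Cfg p f} {x : V} {j : ℕ} (hj : j < c.K) (h : c.g j x = 1) :
    nb c x j = nb c x (j + 1) := by
  unfold nb
  rw [← Finset.insert_Ico_add_one_left_eq_Ico hj, filter_insert, if_neg (by simpa using h)]

lemma nb_bad {c : Cfg p f} {x : V} {j : ℕ} (hj : j < c.K) (h : c.g j x = 0) :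
    nb c x j = nb c x (j + 1) + 1 := by
  unfold nb
  rw [← Finset.insert_Ico_add_one_left_eq_Ico hj, filter_insert, if_pos (by rw [h]; norm_num),
    card_insert_of_notMem (by simp)]

lemma nb_le_N (c : Cfg p f) (x : V) (j : ℕ) : nb c x j ≤ c.N x := by
  unfold nb Cfg.N
  refine card_le_card ?_
  intro s hs
  rw [mem_filter, mem_Ico] at hs
  rw [mem_filter, mem_range]
  exact ⟨hs.1.2, hs.2⟩

lemma η_le {c : Cfg p f} {x : V} (hx : c.Clean x) : ∀ j, j ≤ c.K → η c x j ≤ c.Q ^ nb c x j := by
  have hQ := c.hQ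
  refine down_induction ?_ ?_
  · rw [η_one c x le_rfl (Or.inr rfl)]
    exact one_le_pow₀ (by linarith)
  · intro j hj ih
    rcases hx j hj with h | h
    · rw [η_zero c x hj h, nb_bad hj h, pow_succ, mul_comm]
      exact mul_le_mul_of_nonneg_right ih (by linarith)
    · rw [η_one c x hj.le (Or.inl h)]
      exact one_le_pow₀ (by linarith)

lemma A_eq {c : Cfg p f} {x : V} (hx : c.Clean x) : ∀ j, j ≤ c.K →
    A c x j = mix c.K (fun j => c.g j x) (fun j => c.u j x) j * η c x j := by
  refine down_induction ?_ ?_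
  · rw [A_last, mix_last, η_one c x le_rfl (Or.inr rfl), mul_one]
  · intro j hj ih
    rw [A_step c x hj]
    rcases hx j hj with h | h
    · rw [h, ih, mix_zero hj _ h, η_zero c x hj h]; ring
    · rw [h, mix_one hj.le _ (Or.inl h), η_one c x hj.le (Or.inl h)]; ring

lemma sum_log_η {c : Cfg p f} {x : V} (hx : c.Clean x) : ∀ κ, κ ≤ c.K →
    ∑ j ∈ (Ico κ c.K).filter (fun j => c.g j x = 1), Real.log (η c x (j + 1)) +
      Real.log (η c x κ) ≤ nb c x κ * Real.log c.Q := by
  have hQ := c.hQ
  refine down_induction ?_ ?_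
  · rw [η_one c x le_rfl (Or.inr rfl)]
    simp only [Ico_self, filter_empty, sum_empty, Real.log_one, add_zero]
    have : 0 ≤ Real.log c.Q := Real.log_nonneg (by linarith)
    positivity
  · intro j hj ih
    rw [← Finset.insert_Ico_add_one_left_eq_Ico hj, filter_insert]
    have h1 := η_ge hx (j + 1) hj
    rcases hx j hj with h | h
    · rw [if_neg (by rw [h]; norm_num), η_zero c x hj h, nb_bad hj h,
        Real.log_mul (by linarith) (by linarith)]
      push_cast
      linarith
    · rw [if_pos h, sum_insert (by simp), η_one c x hj.le (Or.inl h), nb_used hj h, Real.log_one]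
      linarith

/-- the `ℓ_p` sum of the used oscillations. -/
noncomputable def SS (c : Cfg p f) (x : V) (i : ι) : ℝ :=
  (∑ s ∈ (range c.K).filter (fun s => c.g s x = 1), (c.lam s * c.e s x i) ^ p) ^ (1 / p)

lemma SS_nonneg (c : Cfg p f) (x : V) (i : ι) : 0 ≤ SS c x i := by
  unfold SS
  apply Real.rpow_nonneg
  refine sum_nonneg fun s _ => ?_
  have := c.lam_pos s
  have := c.e_nonneg s x i
  positivity

lemma tt_le_SS (hp : 1 ≤ p) {c : Cfg p f} {x : V} (hx : c.Clean x) (i : ι) : ∀ j, j ≤ c.K →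
    c.tt x i j ≤ SS c x i := by
  have hp0 : 0 < p := by linarith
  refine down_induction ?_ ?_
  · rw [tt_last]; exact SS_nonneg c x i
  · intro j hj ih
    rw [tt_step c x i hj]
    rcases hx j hj with h | h
    · rw [h]; linarith
    · rw [h]
      have hl := c.lam_pos j
      have he := c.e_nonneg j x i
      have h1 : (c.lam j * c.e j x i) ^ p ≤
          ∑ s ∈ (range c.K).filter (fun s => c.g s x = 1), (c.lam s * c.e s x i) ^ p := by
        refine single_le_sum (f := fun s => (c.lam s * c.e s x i) ^ p) (fun s _ => ?_)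
          (mem_filter.2 ⟨mem_range.2 hj, h⟩)
        have := c.lam_pos s
        have := c.e_nonneg s x i
        positivity
      have h2 := Real.rpow_le_rpow (by positivity) h1 (show 0 ≤ 1 / p by positivity)
      rw [← Real.rpow_mul (by positivity), mul_one_div_cancel hp0.ne', Real.rpow_one] at h2
      have h3 : (1 - 1) * c.tt x i (j + 1) + 1 * (c.lam j * c.e j x i) = c.lam j * c.e j x i := by
        ring
      rw [h3]
      exact h2

lemma nrm_SS (hp : 1 ≤ p) (c : Cfg p f) (hU : 0 < c.U) (hUR : c.U ≤ c.R) (x : V) :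
    nrm p (fun i => SS c x i) ≤ 2 * (c.U ^ (1 - 1 / p) * c.R ^ (1 / p)) := by
  have hp0 : 0 < p := by linarith
  have hR : 0 < c.R := by linarith
  have hpos : ∀ (s : ℕ) (i : ι), 0 ≤ c.lam s * c.e s x i := fun s i => by
    have := c.lam_pos s
    have := c.e_nonneg s x i
    positivity
  have h1 : ∑ i, |SS c x i| ^ p =
      ∑ s ∈ (range c.K).filter (fun s => c.g s x = 1), ∑ i, (c.lam s * c.e s x i) ^ p := by
    rw [sum_comm]
    refine sum_congr rfl fun i _ => ?_
    rw [abs_of_nonneg (SS_nonneg c x i)]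
    unfold SS
    rw [← Real.rpow_mul (sum_nonneg fun s _ => Real.rpow_nonneg (hpos s i) _),
      one_div_mul_cancel hp0.ne', Real.rpow_one]
  have h2 : ∀ s ∈ (range c.K).filter (fun s => c.g s x = 1),
      ∑ i, (c.lam s * c.e s x i) ^ p ≤ (2 * c.U) ^ (p - 1) * (2 * c.u s x) := by
    intro s hs
    rw [mem_filter, mem_range] at hs
    have hu := c.u_nonneg s x
    have h3 : ∑ i, (c.lam s * c.e s x i) ^ p = (c.lam s * nrm p (c.e s x)) ^ p := by
      have h4 : c.lam s * nrm p (c.e s x) = nrm p (fun i => c.lam s * c.e s x i) := by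
        rw [nrm_const_mul hp, abs_of_nonneg (c.lam_pos s).le]
      rw [h4, nrm_rpow hp]
      exact sum_congr rfl fun i _ => by rw [abs_of_nonneg (hpos s i)]
    rw [h3]
    have h5 := c.nrm_e s x hs.1.le
    have h6 : 0 ≤ c.lam s * nrm p (c.e s x) := mul_nonneg (c.lam_pos s).le (nrm_nonneg _)
    have h7 : c.u s x ≤ c.U := c.u_le s x hs.1 (by rw [hs.2]; norm_num)
    calc (c.lam s * nrm p (c.e s x)) ^ p ≤ (2 * c.u s x) ^ p := Real.rpow_le_rpow h6 h5 hp0.le
      _ = (2 * c.u s x) ^ (p - 1) * (2 * c.u s x) := by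
          rcases hu.eq_or_lt with h0 | h0
          · rw [← h0]; simp [Real.zero_rpow hp0.ne']
          · rw [Real.rpow_sub_one (by positivity)]
            field_simp
      _ ≤ (2 * c.U) ^ (p - 1) * (2 * c.u s x) := by
          apply mul_le_mul_of_nonneg_right _ (by positivity)
          exact Real.rpow_le_rpow (by positivity) (by linarith) (by linarith)
  have h3 : ∑ i, |SS c x i| ^ p ≤ (2 * c.U) ^ (p - 1) * (2 * c.R) := by
    rw [h1]
    refine (sum_le_sum h2).trans ?_
    rw [← mul_sum, ← mul_sum]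
    have h4 : ∑ s ∈ (range c.K).filter (fun s => c.g s x = 1), c.u s x ≤ c.R := by
      refine le_trans (sum_le_sum_of_subset_of_nonneg ?_ fun s _ _ => c.u_nonneg s x) (c.u_sum x)
      intro s hs
      rw [mem_filter, mem_range] at hs
      exact mem_range.2 (by omega)
    gcongr
  have h4 := Real.rpow_le_rpow (sum_nonneg fun i _ => by positivity) h3
    (show 0 ≤ 1 / p by positivity)
  refine le_trans (show nrm p (fun i => SS c x i) ≤ _ from h4) (le_of_eq ?_)
  have h5 : (2 * c.U) ^ (p - 1) * (2 * c.R) = 2 ^ p * (c.U ^ (p - 1) * c.R) := by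
    rw [Real.mul_rpow (by norm_num) hU.le, Real.rpow_sub_one (by norm_num)]
    field_simp
  rw [h5, Real.mul_rpow (by positivity) (by positivity),
    Real.mul_rpow (by positivity) hR.le, ← Real.rpow_mul (by norm_num), ← Real.rpow_mul hU.le,
    mul_one_div_cancel hp0.ne', Real.rpow_one]
  congr 3
  field_simp

end CleanFoldAux

open CleanFoldAux

theorem clean_fold (hp : 1 ≤ p) (c : Cfg p f) (hε : c.ε ≤ 1) (hU : 0 < c.U) (hUR : c.U ≤ c.R) {x : V}
    (hx : c.Clean x) {κ : ℕ} (hκ : κ < c.K) (hgκ : c.g κ x = 1) :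
    nrm p (fun i => ∑ j ∈ Ico κ c.K, Real.log (c.C x i j / c.C x i (j + 1)) * c.tt x i (j + 1)) ≤
      2 * c.U * Real.log c.Q * c.N x
      + 4 * Real.log (c.Q * c.R / c.U) * (c.U ^ (1 - 1 / p) * c.R ^ (1 / p))
      + 16 * c.U + 4 * c.ε * c.B * c.Q ^ (c.B + 1) * c.R := by
  classical
  have hQ := c.hQ
  have hR : 0 < c.R := by linarith
  have hlogQ : 0 ≤ Real.log c.Q := Real.log_nonneg (by linarith)
  have hA : 1 ≤ c.Q * c.R / c.U := by
    rw [le_div_iff₀ hU]; nlinarith
  have hlogA : 0 ≤ Real.log (c.Q * c.R / c.U) := Real.log_nonneg hA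
  set J : Finset ℕ := (range c.K).filter (fun j => c.g j x = 1) with hJ
  have hJm : ∀ j ∈ Ico κ c.K, (j ∈ J ↔ c.g j x = 1) := by
    intro j hj
    rw [mem_Ico] at hj
    rw [hJ, mem_filter, mem_range]
    exact ⟨fun h => h.2, fun h => ⟨hj.2, h⟩⟩
  have hJ1 : (Ico κ c.K).filter (fun j => j ∈ J) = (Ico κ c.K).filter (fun j => c.g j x = 1) :=
    filter_congr hJm
  have hJ2 : (Ico κ c.K).filter (fun j => j ∉ J) = (Ico κ c.K).filter (fun j => c.g j x = 0) := by
    refine filter_congr fun j hj => ?_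
    rw [hJm j hj]
    rcases hx j (mem_Ico.1 hj).2 with h | h
    · simp [h]
    · simp [h]
  have hηJ : ∀ j ∈ J, 1 ≤ η c x (j + 1) := by
    intro j hj
    rw [hJ, mem_filter, mem_range] at hj
    exact η_ge hx (j + 1) hj.1
  -- the scalar inequality for every coordinate
  have hfold : ∀ i, ∑ j ∈ Ico κ c.K, Real.log (c.C x i j / c.C x i (j + 1)) * c.tt x i (j + 1) ≤
      ∑ j ∈ (Ico κ c.K).filter (fun j => c.g j x = 0), c.β x i j
      + ∑ j ∈ (Ico κ c.K).filter (fun j => c.g j x = 1), Real.log (η c x (j + 1)) * c.tt x i (j + 1)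
      + 2 * (Real.log (c.Q * c.R / c.U) * SS c x i +
        (∑ j ∈ (Ico κ c.K).filter (fun j => c.g j x = 1), |c.β x i j / η c x (j + 1)|) /
          (c.Q * c.R / c.U)) := by
    intro i
    have h := fold_scalar (K := c.K) (κ := κ) (c.β x i) (fun j => |c.β x i j / η c x (j + 1)|)
      (fun j => η c x (j + 1)) (fun j => c.tt x i j) J (SS c x i) (c.Q * c.R / c.U)
      (SS_nonneg c x i) hA (c.β_nonneg x i) (fun j => abs_nonneg _) hηJ ?_ ?_
      (fun j hj => tt_nonneg c x i hj) (fun j hj => tt_le_C c x i hj)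
      (fun j hj => tt_le_SS hp hx i j hj)
    · rw [hJ1, hJ2] at h
      exact h
    · intro j hj
      have h1 := hηJ j hj
      have h2 := c.β_nonneg x i j
      rw [abs_of_nonneg (by positivity)]
      exact div_le_self h2 h1
    · intro j hj
      have h1 := hηJ j hj
      have h2 := c.β_nonneg x i j
      rw [abs_of_nonneg (by positivity), mul_div_cancel₀]
      linarith
  have hlhs0 : ∀ i, 0 ≤ ∑ j ∈ Ico κ c.K,
      Real.log (c.C x i j / c.C x i (j + 1)) * c.tt x i (j + 1) := by
    intro i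
    refine sum_nonneg fun j hj => ?_
    rw [mem_Ico] at hj
    refine mul_nonneg ?_ (tt_nonneg c x i (show j + 1 ≤ c.K by omega))
    have h1 := c.C_nonneg x i (j + 1)
    have h2 : c.C x i (j + 1) ≤ c.C x i j := tail_anti (c.β_nonneg x i) (Nat.le_succ j)
    rcases h1.eq_or_lt with h0 | h0
    · rw [← h0, div_zero, Real.log_zero]
    · exact Real.log_nonneg ((one_le_div h0).2 h2)
  -- norms of the four pieces
  have hT1 : nrm p (fun i => ∑ j ∈ (Ico κ c.K).filter (fun j => c.g j x = 0), c.β x i j) ≤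
      4 * c.ε * c.B * c.Q ^ (c.B + 1) * c.R := by
    refine (nrm_sum_le hp _ (fun j i => c.β x i j)).trans ?_
    have h1 : ∀ j ∈ (Ico κ c.K).filter (fun j => c.g j x = 0), nrm p (fun i => c.β x i j) ≤
        4 * c.ε * c.Q ^ (c.B + 1) * c.R := by
      intro j hj
      rw [mem_filter, mem_Ico] at hj
      have hjK := hj.1.2
      have hl := c.lam_pos j
      have hε0 := c.hε.le
      have h2 : ∀ i, c.β x i j = c.lam j * c.ε * c.e j x i +
          c.lam j * c.ε * |c.m j x i - c.M x i (j + 1)| := by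
        intro i
        have h3 : mix c.K (fun j => c.g j x) (fun j => c.m j x i) j =
            mix c.K (fun j => c.g j x) (fun j => c.m j x i) (j + 1) := mix_zero hjK _ hj.2
        have hg : (fun j => c.g j x) j = 0 := hj.2
        unfold Cfg.β bet
        rw [h3, sub_self, abs_zero, hg]
        show _ = c.lam j * c.ε * c.e j x i + c.lam j * c.ε * |c.m j x i -
          mix c.K (fun j => c.g j x) (fun j => c.m j x i) (j + 1)|
        ring
      have h3 : (fun i => c.β x i j) = fun i => c.lam j * c.ε * c.e j x i +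
          c.lam j * c.ε * |c.m j x i - c.M x i (j + 1)| := funext h2
      rw [h3]
      refine (nrm_add_le hp _ _).trans ?_
      rw [nrm_const_mul hp, nrm_const_mul hp, abs_of_nonneg (by positivity)]
      have h4 : nrm p (fun i => |c.m j x i - c.M x i (j + 1)|) =
          nrm p (fun i => c.m j x i - c.M x i (j + 1)) := by
        unfold nrm; simp only [abs_abs]
      rw [h4]
      have h5 := nrm_triangle hp (fun i => c.m j x i) (fun i => f x i) (fun i => c.M x i (j + 1))
      have h6 := nrm_m' c x hjK.le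
      have h7 := nrm_M_sub hp c x (show j + 1 ≤ c.K from hjK)
      rw [nrm_sub_comm] at h7
      have h8 := nrm_e' c x hjK.le
      have h9 : c.lam j * (c.u j x / c.lam j) = c.u j x := by field_simp
      have h10 : c.lam j * (2 * c.u j x / c.lam j) = 2 * c.u j x := by field_simp
      have h11 : c.lam j * mix c.K (fun j => c.g j x) (fun j => c.u j x / c.lam j) (j + 1) =
          c.Q * A c x (j + 1) := by
        unfold A; conv_lhs => rw [c.lam_succ j]
        ring
      have h12 : A c x (j + 1) ≤ c.R * c.Q ^ c.B := by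
        rw [mul_comm]; exact A_le' c x hjK
      have hu : c.u j x ≤ c.R := by
        refine le_trans ?_ (c.u_sum x)
        exact single_le_sum (f := fun j => c.u j x) (fun j _ => c.u_nonneg j x)
          (mem_range.2 (by omega))
      have hQB : 1 ≤ c.Q ^ c.B := one_le_pow₀ (by linarith)
      have h5' : nrm p (fun i => c.m j x i - c.M x i (j + 1)) ≤ c.u j x / c.lam j +
          mix c.K (fun j => c.g j x) (fun j => c.u j x / c.lam j) (j + 1) :=
        h5.trans (add_le_add h6 h7)
      have h8' : nrm p (fun i => c.e j x i) ≤ 2 * c.u j x / c.lam j := h8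
      calc c.lam j * c.ε * nrm p (fun i => c.e j x i) +
            c.lam j * c.ε * nrm p (fun i => c.m j x i - c.M x i (j + 1))
          ≤ c.lam j * c.ε * (2 * c.u j x / c.lam j) + c.lam j * c.ε * (c.u j x / c.lam j +
            mix c.K (fun j => c.g j x) (fun j => c.u j x / c.lam j) (j + 1)) := by gcongr
        _ = c.ε * (c.lam j * (2 * c.u j x / c.lam j) + c.lam j * (c.u j x / c.lam j) +
            c.lam j * mix c.K (fun j => c.g j x) (fun j => c.u j x / c.lam j) (j + 1)) := by ring
        _ = c.ε * (3 * c.u j x + c.Q * A c x (j + 1)) := by rw [h9, h10, h11]; ring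
        _ ≤ c.ε * (3 * c.R + c.Q * (c.R * c.Q ^ c.B)) := by gcongr
        _ ≤ c.ε * (4 * (c.R * (c.Q ^ c.B * c.Q))) := by
            apply mul_le_mul_of_nonneg_left _ hε0
            have h13 : 1 ≤ c.Q ^ c.B * c.Q := by nlinarith
            have h14 : c.R ≤ c.R * (c.Q ^ c.B * c.Q) := le_mul_of_one_le_right hR.le h13
            nlinarith
        _ = _ := by rw [pow_succ]; ring
    refine (sum_le_sum h1).trans ?_
    rw [sum_const, nsmul_eq_mul]
    have h2 : ((((Ico κ c.K).filter fun j => c.g j x = 0).card : ℕ) : ℝ) ≤ c.B := by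
      have : ((Ico κ c.K).filter fun j => c.g j x = 0).card ≤ c.B := by
        refine le_trans (card_le_card ?_) (c.bad_card x)
        intro s hs
        rw [mem_filter, mem_Ico] at hs
        rw [mem_filter, mem_range]
        exact ⟨hs.1.2, by rw [hs.2]; norm_num⟩
      exact_mod_cast this
    have hε0 := c.hε.le
    calc _ ≤ (c.B : ℝ) * (4 * c.ε * c.Q ^ (c.B + 1) * c.R) := by gcongr
      _ = _ := by ring
  have hT2 : nrm p (fun i => ∑ j ∈ (Ico κ c.K).filter (fun j => c.g j x = 1),
      Real.log (η c x (j + 1)) * c.tt x i (j + 1)) ≤ 2 * c.U * Real.log c.Q * c.N x := by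
    refine (nrm_sum_le hp _ (fun j i => Real.log (η c x (j + 1)) * c.tt x i (j + 1))).trans ?_
    have h1 : ∀ j ∈ (Ico κ c.K).filter (fun j => c.g j x = 1),
        nrm p (fun i => Real.log (η c x (j + 1)) * c.tt x i (j + 1)) ≤
        Real.log (η c x (j + 1)) * (2 * c.U) := by
      intro j hj
      rw [mem_filter, mem_Ico] at hj
      have h2 : 0 ≤ Real.log (η c x (j + 1)) := Real.log_nonneg (η_ge hx (j + 1) hj.1.2)
      rw [nrm_const_mul hp, abs_of_nonneg h2]
      exact mul_le_mul_of_nonneg_left (nrm_tt hp c hU.le x hj.1.2).1 h2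
    refine (sum_le_sum h1).trans ?_
    rw [← sum_mul]
    have h2 := sum_log_η hx κ hκ.le
    have h3 : 0 ≤ Real.log (η c x κ) := Real.log_nonneg (η_ge hx κ hκ.le)
    have h4 : (nb c x κ : ℝ) ≤ c.N x := by exact_mod_cast nb_le_N c x κ
    have h5 : (nb c x κ : ℝ) * Real.log c.Q ≤ c.N x * Real.log c.Q := by gcongr
    calc _ ≤ (c.N x * Real.log c.Q) * (2 * c.U) := by
          apply mul_le_mul_of_nonneg_right _ (by positivity)
          linarith
      _ = _ := by ring
  have hT4 : nrm p (fun i => ∑ j ∈ (Ico κ c.K).filter (fun j => c.g j x = 1),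
      |c.β x i j / η c x (j + 1)|) ≤ 5 * c.Q * c.R := by
    refine (nrm_sum_le hp _ (fun j i => |c.β x i j / η c x (j + 1)|)).trans ?_
    have h1 : ∀ j ∈ (Ico κ c.K).filter (fun j => c.g j x = 1),
        nrm p (fun i => |c.β x i j / η c x (j + 1)|) ≤
        6 * c.u j x + 2 * c.Q * mix c.K (fun j => c.g j x) (fun j => c.u j x) (j + 1) := by
      intro j hj
      rw [mem_filter, mem_Ico] at hj
      have hη := η_ge hx (j + 1) hj.1.2
      have hη0 : 0 < η c x (j + 1) := by linarith
      have h2 : nrm p (fun i => |c.β x i j / η c x (j + 1)|) =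
          (η c x (j + 1))⁻¹ * nrm p (fun i => c.β x i j) := by
        have h3 : nrm p (fun i => |c.β x i j / η c x (j + 1)|) =
            nrm p (fun i => (η c x (j + 1))⁻¹ * c.β x i j) := by
          unfold nrm
          simp only [abs_abs]
          congr 1
          refine sum_congr rfl fun i _ => ?_
          rw [div_eq_inv_mul]
        rw [h3, nrm_const_mul hp, abs_of_nonneg (by positivity)]
      rw [h2]
      have h3 := nrm_β hp c hε x hj.1.2
      rw [A_eq hx (j + 1) hj.1.2] at h3
      have hu := c.u_nonneg j x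
      calc (η c x (j + 1))⁻¹ * nrm p (fun i => c.β x i j) ≤
            (η c x (j + 1))⁻¹ * (6 * c.u j x + 2 * c.Q *
              (mix c.K (fun j => c.g j x) (fun j => c.u j x) (j + 1) * η c x (j + 1))) := by gcongr
        _ = (η c x (j + 1))⁻¹ * (6 * c.u j x) + 2 * c.Q *
              mix c.K (fun j => c.g j x) (fun j => c.u j x) (j + 1) := by
            field_simp
        _ ≤ 1 * (6 * c.u j x) + 2 * c.Q *
              mix c.K (fun j => c.g j x) (fun j => c.u j x) (j + 1) := by
            have h4 : (η c x (j + 1))⁻¹ ≤ 1 := inv_le_one_of_one_le₀ hη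
            gcongr
        _ = _ := by ring
    refine (sum_le_sum h1).trans ?_
    rw [sum_add_distrib, ← mul_sum, ← mul_sum]
    have h2 := sum_mix_u c hx κ
    have h3 : c.sig x ≤ c.R := c.u_sum x
    have h4 : ∑ j ∈ (Ico κ c.K).filter (fun j => c.g j x = 1), c.u j x ≤ c.R := by
      refine le_trans (sum_le_sum_of_subset_of_nonneg ?_ fun s _ _ => c.u_nonneg s x) (c.u_sum x)
      intro s hs
      rw [mem_filter, mem_Ico] at hs
      exact mem_range.2 (by omega)
    have h5 : 2 * c.Q * ∑ j ∈ (Ico κ c.K).filter (fun j => c.g j x = 1),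
        mix c.K (fun j => c.g j x) (fun j => c.u j x) (j + 1) ≤ 2 * c.Q * c.R := by
      have := h2.trans h3
      gcongr
    nlinarith
  -- assembly
  have hmono : nrm p (fun i => ∑ j ∈ Ico κ c.K,
      Real.log (c.C x i j / c.C x i (j + 1)) * c.tt x i (j + 1)) ≤
      nrm p (fun i => (∑ j ∈ (Ico κ c.K).filter (fun j => c.g j x = 0), c.β x i j
      + ∑ j ∈ (Ico κ c.K).filter (fun j => c.g j x = 1), Real.log (η c x (j + 1)) * c.tt x i (j + 1))
      + (2 * Real.log (c.Q * c.R / c.U) * SS c x i +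
        2 / (c.Q * c.R / c.U) *
          (∑ j ∈ (Ico κ c.K).filter (fun j => c.g j x = 1), |c.β x i j / η c x (j + 1)|))) := by
    refine nrm_mono hp fun i => ?_
    rw [abs_of_nonneg (hlhs0 i)]
    refine le_trans (hfold i) (le_trans (le_of_eq ?_) (le_abs_self _))
    ring
  refine hmono.trans ?_
  refine (nrm_add_le hp _ _).trans ?_
  have hA0 : 0 < c.Q * c.R / c.U := by linarith
  have h1 := nrm_add_le hp
    (fun i => ∑ j ∈ (Ico κ c.K).filter (fun j => c.g j x = 0), c.β x i j)
    (fun i => ∑ j ∈ (Ico κ c.K).filter (fun j => c.g j x = 1),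
      Real.log (η c x (j + 1)) * c.tt x i (j + 1))
  have h2 := nrm_add_le hp
    (fun i => 2 * Real.log (c.Q * c.R / c.U) * SS c x i)
    (fun i => 2 / (c.Q * c.R / c.U) *
          (∑ j ∈ (Ico κ c.K).filter (fun j => c.g j x = 1), |c.β x i j / η c x (j + 1)|))
  rw [nrm_const_mul hp, nrm_const_mul hp, abs_of_nonneg (by positivity),
    abs_of_nonneg (by positivity)] at h2
  have h3 := nrm_SS hp c hU hUR x
  have h4 : 2 * Real.log (c.Q * c.R / c.U) * nrm p (fun i => SS c x i) ≤
      2 * Real.log (c.Q * c.R / c.U) * (2 * (c.U ^ (1 - 1 / p) * c.R ^ (1 / p))) := by gcongr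
  have h5 : 2 / (c.Q * c.R / c.U) * nrm p (fun i => ∑ j ∈ (Ico κ c.K).filter
      (fun j => c.g j x = 1), |c.β x i j / η c x (j + 1)|) ≤
      2 / (c.Q * c.R / c.U) * (5 * c.Q * c.R) := by gcongr
  have h6 : 2 / (c.Q * c.R / c.U) * (5 * c.Q * c.R) = 10 * c.U := by
    have hQ0 : c.Q ≠ 0 := by linarith
    field_simp
    norm_num
  rw [h6] at h5
  linarith

end

end Vale.Agent.P249
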