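import Vale.Agent.P249.Mix
import Vale.Agent.P249.CleanFold

/-! P249, all distortions: clean pairs. -/

open Finset

namespace Vale.Agent.P249


namespace CleanPairAux

variable {V ι : Type} [Fintype V] [Fintype ι] {p : ℝ} {f : V → ι → ℝ}

lemma lam_pow (c : Cfg p f) {i j : ℕ} (h : i ≤ j) : c.lam i = c.Q ^ (j - i) * c.lam j := by
  obtain ⟨k, rfl⟩ := Nat.exists_eq_add_of_le h
  rw [Nat.add_sub_cancel_left]
  clear h
  induction k with
  | zero => simp
  | succ k ih =>
    rw [ih, c.lam_succ (i + k), pow_succ]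
    ring_nf

lemma lam_anti (c : Cfg p f) {i j : ℕ} (h : i ≤ j) : c.lam j ≤ c.lam i := by
  rw [lam_pow c h]
  have h1 := c.lam_pos j
  have h2 := c.hQ
  have h3 : 1 ≤ c.Q ^ (j - i) := one_le_pow₀ (by linarith)
  nlinarith

lemma exists_k1 (c : Cfg p f) {x y : V} (hxy : x ≠ y) :
    ∃ κ : ℕ, 1 ≤ κ ∧ κ < c.K ∧ 1 ≤ c.lam κ * dd p f x y ∧ c.lam κ * dd p f x y ≤ c.Q ∧
      ∀ j, κ < j → c.lam j * dd p f x y ≤ 1 := by
  classical
  have hK := c.hK
  have hρ0 := dd_nonneg p f x y
  have hP1 : 1 ≤ c.lam 1 * dd p f x y := c.far x y hxy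
  set P : ℕ → Prop := fun j => 1 ≤ c.lam j * dd p f x y with hP
  have h1 : Nat.findGreatest P (c.K - 1) ≤ c.K - 1 := Nat.findGreatest_le _
  have h2 : 1 ≤ Nat.findGreatest P (c.K - 1) := Nat.le_findGreatest (by omega) hP1
  have h3 : P (Nat.findGreatest P (c.K - 1)) := Nat.findGreatest_spec (m := 1) (by omega) hP1
  have h4 : ∀ j, Nat.findGreatest P (c.K - 1) < j → c.lam j * dd p f x y ≤ 1 := by
    intro j hj
    rcases Nat.lt_or_ge (c.K - 1) j with h | h
    · have h5 := lam_anti c (show c.K ≤ j by omega)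
      have h6 := c.near x y
      have h7 := mul_le_mul_of_nonneg_right h5 hρ0
      linarith
    · have := Nat.findGreatest_is_greatest hj h
      simp only [hP, not_le] at this
      exact this.le
  refine ⟨Nat.findGreatest P (c.K - 1), h2, by omega, h3, ?_, h4⟩
  have h5 := h4 _ (Nat.lt_succ_self (Nat.findGreatest P (c.K - 1)))
  rw [c.lam_succ, mul_assoc]
  have h6 := c.hQ
  calc c.Q * (c.lam (Nat.findGreatest P (c.K - 1) + 1) * dd p f x y) ≤ c.Q * 1 :=
        mul_le_mul_of_nonneg_left h5 (by linarith)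
    _ = c.Q := mul_one _

lemma exp2 {t : ℝ} (h0 : 0 ≤ t) (h1 : t ≤ 1) : Real.exp (2 * t) - 1 ≤ 7 * t := by
  have hconv := (convexOn_exp.2 (Set.mem_univ 0) (Set.mem_univ 2) (show 0 ≤ 1 - t by linarith) h0
    (by ring))
  simp only [smul_eq_mul, mul_zero, zero_add, Real.exp_zero, mul_one] at hconv
  have h2 : Real.exp 2 ≤ 8 := by
    have h3 := Real.exp_one_lt_d9
    have h4 : Real.exp 2 = Real.exp 1 * Real.exp 1 := by rw [← Real.exp_add]; norm_num
    rw [h4]
    nlinarith [Real.exp_pos 1]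
  have h5 : t * 2 = 2 * t := by ring
  rw [h5] at hconv
  nlinarith

lemma exp4 {t : ℝ} (h0 : 0 ≤ t) (h1 : t ≤ 1) : Real.exp (4 * t) - 1 ≤ 54 * t := by
  have hconv := (convexOn_exp.2 (Set.mem_univ 0) (Set.mem_univ 4) (show 0 ≤ 1 - t by linarith) h0
    (by ring))
  simp only [smul_eq_mul, mul_zero, zero_add, Real.exp_zero, mul_one] at hconv
  have h2 : Real.exp 4 ≤ 55 := exp_four_le
  have h5 : t * 4 = 4 * t := by ring
  rw [h5] at hconv
  nlinarith

lemma nrm_le_of_le (hp : 1 ≤ p) {v w : ι → ℝ} (h : ∀ i, |v i| ≤ w i) : nrm p v ≤ nrm p w :=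
  nrm_mono hp (fun i => (h i).trans (le_abs_self _))

lemma nrm_abs (v : ι → ℝ) : nrm p (fun i => |v i|) = nrm p v := by
  unfold nrm; simp

lemma nrm_cmul (hp : 1 ≤ p) {c : ℝ} (hc : 0 ≤ c) (v : ι → ℝ) :
    nrm p (fun i => c * v i) = c * nrm p v := by
  rw [nrm_const_mul hp, abs_of_nonneg hc]

lemma nrm_m_diff (hp : 1 ≤ p) (c : Cfg p f) (x y : V) {j : ℕ} (hj : j ≤ c.K) :
    nrm p (fun i => c.m j x i - c.m j y i) ≤ dd p f x y + (c.u j x + c.u j y) / c.lam j := by
  have hl := c.lam_pos j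
  have h1 := c.nrm_m j x hj
  have h2 := c.nrm_m j y hj
  have e1 : nrm p (fun i => c.m j x i - f x i) ≤ c.u j x / c.lam j := by
    rw [le_div_iff₀ hl, mul_comm]; exact h1
  have e2 : nrm p (fun i => f y i - c.m j y i) ≤ c.u j y / c.lam j := by
    rw [nrm_sub_comm, le_div_iff₀ hl, mul_comm]; exact h2
  have e3 := nrm_triangle hp (fun i => c.m j x i) (fun i => f x i) (fun i => c.m j y i)
  have e4 := nrm_triangle hp (fun i => f x i) (fun i => f y i) (fun i => c.m j y i)
  rw [add_div]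
  unfold dd
  linarith

lemma nrm_e_le (c : Cfg p f) (x : V) {j : ℕ} (hj : j ≤ c.K) :
    nrm p (c.e j x) ≤ 2 * c.u j x / c.lam j := by
  rw [le_div_iff₀ (c.lam_pos j), mul_comm]; exact c.nrm_e j x hj

lemma u_le_R (c : Cfg p f) (x : V) {j : ℕ} (hj : j ≤ c.K) : c.u j x ≤ c.R := by
  refine le_trans ?_ (c.u_sum x)
  exact single_le_sum (f := fun j => c.u j x) (fun j _ => c.u_nonneg j x)
    (mem_range.mpr (by omega))

lemma u_le_sig (c : Cfg p f) (x : V) {j : ℕ} (hj : j ≤ c.K) : c.u j x ≤ c.sig x := by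
  exact single_le_sum (f := fun j => c.u j x) (fun j _ => c.u_nonneg j x)
    (mem_range.mpr (by omega))

/-- coordinatewise difference of weights at a used scale -/
lemma beta_used (c : Cfg p f) {x y : V} {t : ℕ} (ht : t < c.K)
    (hgx : c.g t x = 1) (hgy : c.g t y = 1) (hε : c.ε ≤ 1) (i : ι) :
    |c.β x i t - c.β y i t| / c.lam t ≤
      2 * (|c.m t x i - c.m t y i| + |c.M x i (t + 1) - c.M y i (t + 1)| +
        |c.e t x i - c.e t y i|) := by
  have hl := c.lam_pos t
  have hε0 := c.hε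
  have key : ∀ z : V, c.g t z = 1 → c.β z i t =
      c.lam t * ((1 + c.ε) * (|c.m t z i - c.M z i (t + 1)| + c.e t z i)) := by
    intro z hz
    unfold Cfg.β bet Cfg.M
    rw [mix_one ht.le (g := fun j => c.g j z) _ (Or.inl hz)]
    beta_reduce
    rw [hz]
    ring
  rw [key x hgx, key y hgy, ← mul_sub, abs_mul, abs_of_pos hl,
    mul_div_cancel_left₀ _ hl.ne', ← mul_sub, abs_mul, abs_of_pos (by linarith : 0 < 1 + c.ε)]
  have h1 : |(|c.m t x i - c.M x i (t + 1)| + c.e t x i) -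
      (|c.m t y i - c.M y i (t + 1)| + c.e t y i)| ≤
      |c.m t x i - c.m t y i| + |c.M x i (t + 1) - c.M y i (t + 1)| +
        |c.e t x i - c.e t y i| := by
    have h2 := abs_abs_sub_abs_le (c.m t x i - c.M x i (t + 1)) (c.m t y i - c.M y i (t + 1))
    have h3 : |(c.m t x i - c.M x i (t + 1)) - (c.m t y i - c.M y i (t + 1))| ≤
        |c.m t x i - c.m t y i| + |c.M x i (t + 1) - c.M y i (t + 1)| := by
      have : (c.m t x i - c.M x i (t + 1)) - (c.m t y i - c.M y i (t + 1)) =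
          (c.m t x i - c.m t y i) - (c.M x i (t + 1) - c.M y i (t + 1)) := by ring
      rw [this]
      exact abs_sub _ _
    have h4 : (|c.m t x i - c.M x i (t + 1)| + c.e t x i) -
      (|c.m t y i - c.M y i (t + 1)| + c.e t y i) =
      (|c.m t x i - c.M x i (t + 1)| - |c.m t y i - c.M y i (t + 1)|) +
        (c.e t x i - c.e t y i) := by ring
    rw [h4]
    refine (abs_add_le _ _).trans ?_
    linarith
  apply mul_le_mul (by linarith) h1 (abs_nonneg _) (by norm_num)

/-- coordinatewise difference of weights at a skipped scale -/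
lemma beta_skip (c : Cfg p f) {x y : V} {t : ℕ} (ht : t < c.K)
    (hgx : c.g t x = 0) (hgy : c.g t y = 0) (i : ι) :
    |c.β x i t - c.β y i t| / c.lam t ≤
      c.ε * (|c.m t x i - c.m t y i| + |c.M x i (t + 1) - c.M y i (t + 1)| +
        |c.e t x i - c.e t y i|) := by
  have hl := c.lam_pos t
  have hε0 := c.hε
  have key : ∀ z : V, c.g t z = 0 → c.β z i t =
      c.lam t * (c.ε * (|c.m t z i - c.M z i (t + 1)| + c.e t z i)) := by
    intro z hz
    unfold Cfg.β bet Cfg.M
    rw [mix_zero ht (g := fun j => c.g j z) _ hz]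
    beta_reduce
    rw [hz, sub_self, abs_zero]
    ring
  rw [key x hgx, key y hgy, ← mul_sub, abs_mul, abs_of_pos hl,
    mul_div_cancel_left₀ _ hl.ne', ← mul_sub, abs_mul, abs_of_pos hε0]
  have h1 : |(|c.m t x i - c.M x i (t + 1)| + c.e t x i) -
      (|c.m t y i - c.M y i (t + 1)| + c.e t y i)| ≤
      |c.m t x i - c.m t y i| + |c.M x i (t + 1) - c.M y i (t + 1)| +
        |c.e t x i - c.e t y i| := by
    have h2 := abs_abs_sub_abs_le (c.m t x i - c.M x i (t + 1)) (c.m t y i - c.M y i (t + 1))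
    have h3 : |(c.m t x i - c.M x i (t + 1)) - (c.m t y i - c.M y i (t + 1))| ≤
        |c.m t x i - c.m t y i| + |c.M x i (t + 1) - c.M y i (t + 1)| := by
      have : (c.m t x i - c.M x i (t + 1)) - (c.m t y i - c.M y i (t + 1)) =
          (c.m t x i - c.m t y i) - (c.M x i (t + 1) - c.M y i (t + 1)) := by ring
      rw [this]
      exact abs_sub _ _
    have h4 : (|c.m t x i - c.M x i (t + 1)| + c.e t x i) -
      (|c.m t y i - c.M y i (t + 1)| + c.e t y i) =
      (|c.m t x i - c.M x i (t + 1)| - |c.m t y i - c.M y i (t + 1)|) +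
        (c.e t x i - c.e t y i) := by ring
    rw [h4]
    refine (abs_add_le _ _).trans ?_
    linarith
  exact mul_le_mul_of_nonneg_left h1 hε0.le

/-- norm of a sum of three -/
lemma nrm_three (hp : 1 ≤ p) {k A B C : ℝ} (hk : 0 ≤ k) {v a b d : ι → ℝ}
    (h : ∀ i, |v i| ≤ k * (|a i| + |b i| + |d i|)) (ha : nrm p a ≤ A) (hb : nrm p b ≤ B)
    (hd : nrm p d ≤ C) : nrm p v ≤ k * (A + B + C) := by
  have h1 := nrm_le_of_le hp h
  rw [nrm_cmul hp hk] at h1
  refine h1.trans (mul_le_mul_of_nonneg_left ?_ hk)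
  have h2 := nrm_add_le hp (fun i => |a i| + |b i|) (fun i => |d i|)
  have h3 := nrm_add_le hp (fun i => |a i|) (fun i => |b i|)
  rw [nrm_abs] at h2 h3
  rw [nrm_abs] at h3
  linarith

/-- the bound for one scale -/
lemma term_bound (hp : 1 ≤ p) (c : Cfg p f) (hε : c.ε ≤ 1) (hU : 0 ≤ c.U) (hUR : c.U ≤ c.R)
    {x y : V} (hx : c.Clean x) {κ : ℕ} (hκ1 : 1 ≤ κ) (hκ : κ < c.K)
    (hgκ : c.g κ x = 1) {ρ : ℝ} (hρe : ρ = dd p f x y) (hρ0 : 0 ≤ ρ)
    (hρinv : 1 / c.lam κ ≤ ρ)
    (hpat : ∀ j, κ ≤ j → j < c.K → c.g j x = c.g j y)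
    (hbad' : ∀ j, κ < j → j < c.K → c.lam j * ρ ≤ 1 ∨ c.g j x = 0)
    (hmd : ∀ j i, 1 ≤ j → j ≤ c.K → c.lam j * ρ ≤ 1 →
      |c.m j x i - c.m j y i| ≤ 7 * (c.lam j * ρ) * c.e j x i ∧
      |c.m j x i - c.m j y i| ≤ 7 * (c.lam j * ρ) * c.e j y i)
    (hed : ∀ j i, 1 ≤ j → j ≤ c.K → c.lam j * ρ ≤ 1 →
      |c.e j x i - c.e j y i| ≤ 54 * (c.lam j * ρ) * c.e j x i)
    (hMn : ∀ t, κ ≤ t → t < c.K →
      nrm p (fun i => c.M x i (t + 1) - c.M y i (t + 1)) ≤
        14 * ρ * mix c.K (fun j => c.g j x) (fun j => c.u j x) (t + 1) ∧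
      nrm p (fun i => c.M x i (t + 1) - c.M y i (t + 1)) ≤ 14 * ρ * c.U) :
    ∀ t ∈ Ico κ c.K,
      nrm p (fun i => |c.β x i t - c.β y i t| / c.lam t) ≤
        ρ * ((if t = κ then 2 + 6 * (c.u κ x + c.u κ y) else 0) + 244 * c.u t x +
          (if c.g t x = 1 then 28 * mix c.K (fun j => c.g j x) (fun j => c.u j x) (t + 1) else 0) +
          (if c.g t x ≠ 1 then c.ε * (1 + 258 * c.R) else 0)) := by
  have hR0 : 0 ≤ c.R := hU.trans hUR
  have hε0 := c.hε
  intro t ht
  rw [mem_Ico] at ht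
  have hl := c.lam_pos t
  have hgt := hpat t ht.1 ht.2
  have hux := c.u_nonneg t x
  have huy := c.u_nonneg t y
  have huxR := u_le_R c x (j := t) ht.2.le
  have huyR := u_le_R c y (j := t) ht.2.le
  obtain ⟨hM1, hM2⟩ := hMn t ht.1 ht.2
  have hmm := nrm_m_diff hp c x y (j := t) ht.2.le
  rw [← hρe] at hmm
  have hex := nrm_e_le c x (j := t) ht.2.le
  have hey := nrm_e_le c y (j := t) ht.2.le
  have hee : nrm p (fun i => c.e t x i - c.e t y i) ≤
      2 * c.u t x / c.lam t + 2 * c.u t y / c.lam t := by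
    have h1 := nrm_add_le hp (fun i => c.e t x i) (fun i => - c.e t y i)
    have h2 : nrm p (fun i => - c.e t y i) = nrm p (c.e t y) := nrm_neg _
    rw [h2] at h1
    have h3 : (fun i => c.e t x i + - c.e t y i) = fun i => c.e t x i - c.e t y i := by
      funext i; ring
    rw [h3] at h1
    exact h1.trans (add_le_add hex hey)
  have habs : ∀ i, |(|c.β x i t - c.β y i t| / c.lam t)| = |c.β x i t - c.β y i t| / c.lam t :=
    fun i => abs_of_nonneg (div_nonneg (abs_nonneg _) hl.le)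
  by_cases hinv : c.lam t * ρ ≤ 1
  swap
  · -- coarse scale: lam t * ρ ≥ 1
    push Not at hinv
    have hti : 1 / c.lam t ≤ ρ := by
      rw [div_le_iff₀ hl, mul_comm]; exact hinv.le
    have e1 : (c.u t x + c.u t y) / c.lam t ≤ ρ * (c.u t x + c.u t y) := by
      calc (c.u t x + c.u t y) / c.lam t = 1 / c.lam t * (c.u t x + c.u t y) := by ring
        _ ≤ _ := mul_le_mul_of_nonneg_right hti (by positivity)
    have e2 : 2 * c.u t x / c.lam t + 2 * c.u t y / c.lam t ≤ 2 * (ρ * (c.u t x + c.u t y)) := by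
      have : 2 * c.u t x / c.lam t + 2 * c.u t y / c.lam t =
        2 * ((c.u t x + c.u t y) / c.lam t) := by ring
      rw [this]; linarith
    by_cases htκ : t = κ
    · subst htκ
      have hgy : c.g t y = 1 := by rw [← hgt]; exact hgκ
      have h1 := nrm_three hp (k := 2) (by norm_num)
        (v := fun i => |c.β x i t - c.β y i t| / c.lam t)
        (fun i => by rw [habs]; exact beta_used c ht.2 hgκ hgy hε i) hmm hM1 hee
      rw [if_pos rfl, if_pos hgκ, if_neg (by rw [hgκ]; simp)]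
      refine h1.trans ?_
      have h2 : 0 ≤ ρ * c.u t x := by positivity
      have h3 : 0 ≤ ρ * c.u t y := by positivity
      linarith
    · have hg0 : c.g t x = 0 := by
        rcases hbad' t (by omega) ht.2 with h | h
        · exact absurd h (not_le.mpr hinv)
        · exact h
      have hgy : c.g t y = 0 := by rw [← hgt]; exact hg0
      have h1 := nrm_three hp (k := c.ε) hε0.le
        (v := fun i => |c.β x i t - c.β y i t| / c.lam t)
        (fun i => by rw [habs]; exact beta_skip c ht.2 hg0 hgy i) hmm hM2 hee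
      rw [if_neg htκ, if_neg (by rw [hg0]; norm_num), if_pos (by rw [hg0]; norm_num)]
      refine h1.trans ?_
      have h2 : ρ + (c.u t x + c.u t y) / c.lam t + 14 * ρ * c.U +
          (2 * c.u t x / c.lam t + 2 * c.u t y / c.lam t) ≤ ρ * (1 + 258 * c.R) := by
        have a1 := mul_le_mul_of_nonneg_left huxR hρ0
        have a2 := mul_le_mul_of_nonneg_left huyR hρ0
        have a3 := mul_le_mul_of_nonneg_left hUR hρ0
        have a4 := mul_nonneg hρ0 hR0
        linarith
      have h3 := mul_le_mul_of_nonneg_left h2 hε0.le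
      have h4 : 0 ≤ ρ * (244 * c.u t x) := by positivity
      linarith
  · -- fine scale
    by_cases htκ : t = κ
    · subst htκ
      have hti : 1 / c.lam t ≤ ρ := hρinv
      have e1 : (c.u t x + c.u t y) / c.lam t ≤ ρ * (c.u t x + c.u t y) := by
        calc (c.u t x + c.u t y) / c.lam t = 1 / c.lam t * (c.u t x + c.u t y) := by ring
          _ ≤ _ := mul_le_mul_of_nonneg_right hti (by positivity)
      have e2 : 2 * c.u t x / c.lam t + 2 * c.u t y / c.lam t ≤
          2 * (ρ * (c.u t x + c.u t y)) := by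
        have : 2 * c.u t x / c.lam t + 2 * c.u t y / c.lam t =
          2 * ((c.u t x + c.u t y) / c.lam t) := by ring
        rw [this]; linarith
      have hgy : c.g t y = 1 := by rw [← hgt]; exact hgκ
      have h1 := nrm_three hp (k := 2) (by norm_num)
        (v := fun i => |c.β x i t - c.β y i t| / c.lam t)
        (fun i => by rw [habs]; exact beta_used c ht.2 hgκ hgy hε i) hmm hM1 hee
      rw [if_pos rfl, if_pos hgκ, if_neg (by rw [hgκ]; simp)]
      refine h1.trans ?_
      have h2 : 0 ≤ ρ * c.u t x := by positivity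
      have h3 : 0 ≤ ρ * c.u t y := by positivity
      linarith
    · have hmn : nrm p (fun i => c.m t x i - c.m t y i) ≤ 14 * (ρ * c.u t x) := by
        have h1 : nrm p (fun i => c.m t x i - c.m t y i) ≤
            7 * (c.lam t * ρ) * nrm p (c.e t x) := by
          rw [← nrm_cmul hp (by positivity)]
          exact nrm_le_of_le hp fun i => (hmd t i (by omega) ht.2.le hinv).1
        have h2 := mul_le_mul_of_nonneg_left (c.nrm_e t x ht.2.le) (show 0 ≤ 7 * ρ by positivity)
        linarith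
      have hen : nrm p (fun i => c.e t x i - c.e t y i) ≤ 108 * (ρ * c.u t x) := by
        have h1 : nrm p (fun i => c.e t x i - c.e t y i) ≤
            54 * (c.lam t * ρ) * nrm p (c.e t x) := by
          rw [← nrm_cmul hp (by positivity)]
          exact nrm_le_of_le hp fun i => hed t i (by omega) ht.2.le hinv
        have h2 := mul_le_mul_of_nonneg_left (c.nrm_e t x ht.2.le) (show 0 ≤ 54 * ρ by positivity)
        linarith
      rw [if_neg htκ]
      rcases hx t ht.2 with hg0 | hg1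
      · have hgy : c.g t y = 0 := by rw [← hgt]; exact hg0
        have h1 := nrm_three hp (k := c.ε) hε0.le
          (v := fun i => |c.β x i t - c.β y i t| / c.lam t)
          (fun i => by rw [habs]; exact beta_skip c ht.2 hg0 hgy i) hmn hM2 hen
        rw [if_neg (by rw [hg0]; norm_num), if_pos (by rw [hg0]; norm_num)]
        refine h1.trans ?_
        have h2 : 14 * (ρ * c.u t x) + 14 * ρ * c.U + 108 * (ρ * c.u t x) ≤
            ρ * (1 + 258 * c.R) := by
          have a1 := mul_le_mul_of_nonneg_left huxR hρ0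
          have a3 := mul_le_mul_of_nonneg_left hUR hρ0
          have a4 := mul_nonneg hρ0 hR0
          linarith
        have h3 := mul_le_mul_of_nonneg_left h2 hε0.le
        have h4 : 0 ≤ ρ * (244 * c.u t x) := by positivity
        linarith
      · have hgy : c.g t y = 1 := by rw [← hgt]; exact hg1
        have h1 := nrm_three hp (k := 2) (by norm_num)
          (v := fun i => |c.β x i t - c.β y i t| / c.lam t)
          (fun i => by rw [habs]; exact beta_used c ht.2 hg1 hgy hε i) hmn hM1 hen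
        rw [if_pos hg1, if_neg (by rw [hg1]; simp)]
        refine h1.trans ?_
        linarith

end CleanPairAux

open CleanPairAux

section
variable {V ι : Type} [Fintype V] [Fintype ι] {p : ℝ} {f : V → ι → ℝ}

theorem exists_clean_kappa (c : Cfg p f) (hεQ : c.ε * c.Q ^ (c.B + 1) < 1) {x y : V} (hxy : x ≠ y)
    (hx : c.Clean x) (hy : c.Clean y) :
    ∃ κ : ℕ, 1 ≤ κ ∧ κ < c.K ∧ c.g κ x = 1 ∧ 1 ≤ c.lam κ * dd p f x y ∧
      (∀ j, κ ≤ j → j < c.K → c.g j x = c.g j y) ∧
      (∀ j, κ < j → j < c.K → c.lam j * dd p f x y ≤ 1 ∨ c.g j x = 0) := by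
  classical
  obtain ⟨κ1, h1, h2, h3, h4, h5⟩ := exists_k1 c hxy
  have hρ0 := dd_nonneg p f x y
  have hQ := c.hQ
  set P : ℕ → Prop := fun j => c.g j x = 1 with hP
  obtain ⟨κ, hκ⟩ : ∃ κ, κ = Nat.findGreatest P κ1 := ⟨_, rfl⟩
  have k1 : κ ≤ κ1 := by rw [hκ]; exact Nat.findGreatest_le _
  have k2 : 1 ≤ κ := by rw [hκ]; exact Nat.le_findGreatest h1 (c.g_one x)
  have k3 : c.g κ x = 1 := by
    rw [hκ]; exact Nat.findGreatest_spec (P := P) (m := 1) h1 (c.g_one x)
  have k4 : ∀ j, κ < j → j ≤ κ1 → c.g j x ≠ 1 := by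
    intro j hj hj1
    rw [hκ] at hj
    exact Nat.findGreatest_is_greatest hj hj1
  have k5 : κ1 - κ ≤ c.B := by
    refine le_trans ?_ (c.bad_card x)
    rw [← Nat.card_Ioc]
    apply card_le_card
    intro j hj
    rw [mem_Ioc] at hj
    rw [mem_filter, mem_range]
    exact ⟨by omega, k4 j hj.1 hj.2⟩
  have k6 : ∀ j, κ ≤ j → c.lam j * dd p f x y ≤ c.Q ^ (c.B + 1) := by
    intro j hj
    have e1 := mul_le_mul_of_nonneg_right (lam_anti c hj) hρ0
    refine e1.trans ?_
    rw [lam_pow c k1, mul_assoc, pow_succ]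
    apply mul_le_mul (pow_le_pow_right₀ (by linarith) k5) h4
      (mul_nonneg (c.lam_pos _).le hρ0) (by positivity)
  refine ⟨κ, k2, by omega, k3, ?_, ?_, ?_⟩
  · exact h3.trans (mul_le_mul_of_nonneg_right (lam_anti c k1) hρ0)
  · intro j hj hjK
    have e1 := c.g_diff j x y hjK
    have e2 : |c.g j x - c.g j y| < 1 := by
      refine lt_of_le_of_lt (e1.trans ?_) hεQ
      exact mul_le_mul_of_nonneg_left (k6 j hj) c.hε.le
    rcases hx j hjK with a | a <;> rcases hy j hjK with b | b <;> rw [a, b] <;>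
      rw [a, b] at e2 <;> norm_num at e2
  · intro j hj hjK
    rcases Nat.lt_or_ge κ1 j with h | h
    · exact Or.inl (h5 j h)
    · right
      rcases hx j hjK with a | a
      · exact a
      · exact absurd a (k4 j hj h)

theorem clean_pair (hp : 1 ≤ p) (c : Cfg p f) (hε : c.ε ≤ 1) (hU : 0 ≤ c.U) (hUR : c.U ≤ c.R)
    {x y : V}
    (hx : c.Clean x) (hy : c.Clean y) {κ : ℕ} (hκ1 : 1 ≤ κ) (hκ : κ < c.K) (hgκ : c.g κ x = 1)
    (hρ : 1 ≤ c.lam κ * dd p f x y)
    (hpat : ∀ j, κ ≤ j → j < c.K → c.g j x = c.g j y)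
    (hbad : ∀ j, κ < j → j < c.K → c.lam j * dd p f x y ≤ 1 ∨ c.g j x = 0) :
    (∀ i j, κ < j → j ≤ c.K →
      |c.M x i j - c.M y i j| ≤ 7 * dd p f x y * min (c.tt x i j) (c.tt y i j)) ∧
    (∀ i, |c.M x i κ - c.M y i κ| ≤ 9 * dd p f x y * max (c.C x i κ) (c.C y i κ)) ∧
    nrm p (fun i => ∑ t ∈ Ico κ c.K, |c.β x i t - c.β y i t| / c.lam t) ≤
      dd p f x y * (400 * (1 + c.sig x + c.sig y) + 400 * c.B * c.ε * (1 + c.R)) := by
  classical
  obtain ⟨ρ, hρe⟩ : ∃ ρ, ρ = dd p f x y := ⟨_, rfl⟩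
  have hρ0 : 0 ≤ ρ := by rw [hρe]; exact dd_nonneg p f x y
  rw [← hρe] at hρ ⊢
  have hbad' : ∀ j, κ < j → j < c.K → c.lam j * ρ ≤ 1 ∨ c.g j x = 0 := by rw [hρe]; exact hbad
  have hρe' : dd p f y x = ρ := by rw [dd_comm, hρe]
  have hlκ := c.lam_pos κ
  have hρinv : 1 / c.lam κ ≤ ρ := by
    rw [div_le_iff₀ hlκ, mul_comm]; exact hρ
  -- Lipschitz estimates at fine scales
  have hmd : ∀ j i, 1 ≤ j → j ≤ c.K → c.lam j * ρ ≤ 1 →
      |c.m j x i - c.m j y i| ≤ 7 * (c.lam j * ρ) * c.e j x i ∧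
      |c.m j x i - c.m j y i| ≤ 7 * (c.lam j * ρ) * c.e j y i := by
    intro j i h1 h2 h3
    have hl := c.lam_pos j
    have h0 : 0 ≤ c.lam j * ρ := by positivity
    have e1 := c.m_diff j x y i h1 h2
    have e2 := c.m_diff j y x i h1 h2
    rw [← hρe] at e1
    rw [hρe'] at e2
    rw [abs_sub_comm] at e2
    have e3 := exp2 h0 h3
    exact ⟨e1.trans (mul_le_mul_of_nonneg_right e3 (c.e_nonneg j x i)),
      e2.trans (mul_le_mul_of_nonneg_right e3 (c.e_nonneg j y i))⟩
  have hed : ∀ j i, 1 ≤ j → j ≤ c.K → c.lam j * ρ ≤ 1 →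
      |c.e j x i - c.e j y i| ≤ 54 * (c.lam j * ρ) * c.e j x i := by
    intro j i h1 h2 h3
    have hl := c.lam_pos j
    have h0 : 0 ≤ c.lam j * ρ := by positivity
    have e1 := c.e_diff j x y i h1 h2
    rw [← hρe] at e1
    exact e1.trans (mul_le_mul_of_nonneg_right (exp4 h0 h3) (c.e_nonneg j x i))
  -- (i)
  have hM : ∀ i j, κ < j → j ≤ c.K →
      |c.M x i j - c.M y i j| ≤ 7 * ρ * min (c.tt x i j) (c.tt y i j) := by
    intro i j hj hjK
    revert hj
    refine down_induction (P := fun j => κ < j →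
      |c.M x i j - c.M y i j| ≤ 7 * ρ * min (c.tt x i j) (c.tt y i j)) ?_ ?_ j hjK
    · intro _
      rw [c.M_last x y i, sub_self, abs_zero]
      exact mul_nonneg (by positivity) (le_min (tt_nonneg c x i le_rfl) (tt_nonneg c y i le_rfl))
    · intro j hj ih hκj
      have hg := hpat j hκj.le hj
      rcases hx j hj with h | h
      · have h' : c.g j y = 0 := by rw [← hg]; exact h
        have e1 : c.M x i j = c.M x i (j + 1) := mix_zero hj (g := fun j => c.g j x) _ h
        have e2 : c.M y i j = c.M y i (j + 1) := mix_zero hj (g := fun j => c.g j y) _ h'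
        have e3 : c.tt x i j = c.tt x i (j + 1) := mix_zero hj (g := fun j => c.g j x) _ h
        have e4 : c.tt y i j = c.tt y i (j + 1) := mix_zero hj (g := fun j => c.g j y) _ h'
        rw [e1, e2, e3, e4]
        exact ih (by omega)
      · have h' : c.g j y = 1 := by rw [← hg]; exact h
        have hl : c.lam j * ρ ≤ 1 := by
          rcases hbad' j hκj hj with h3 | h3
          · exact h3
          · rw [h] at h3; norm_num at h3
        have e1 : c.M x i j = c.m j x i := mix_one hj.le (g := fun j => c.g j x) _ (Or.inl h)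
        have e2 : c.M y i j = c.m j y i := mix_one hj.le (g := fun j => c.g j y) _ (Or.inl h')
        have e3 : c.tt x i j = c.lam j * c.e j x i := by
          unfold Cfg.tt
          rw [mix_one hj.le (g := fun j => c.g j x) _ (Or.inl h), if_pos hj]
        have e4 : c.tt y i j = c.lam j * c.e j y i := by
          unfold Cfg.tt
          rw [mix_one hj.le (g := fun j => c.g j y) _ (Or.inl h'), if_pos hj]
        rw [e1, e2, e3, e4]
        obtain ⟨f1, f2⟩ := hmd j i (by omega) hj.le hl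
        rcases le_total (c.lam j * c.e j x i) (c.lam j * c.e j y i) with h4 | h4
        · rw [min_eq_left h4]; linarith
        · rw [min_eq_right h4]; linarith
  -- (ii)
  have hMκ : ∀ i, |c.M x i κ - c.M y i κ| ≤ 9 * ρ * max (c.C x i κ) (c.C y i κ) := by
    intro i
    have e1 : |c.M x i κ - c.M x i (κ + 1)| ≤ ρ * c.C x i κ := by
      refine (c.M_diff_le x i κ).trans ?_
      have h1 : c.β x i κ ≤ c.C x i κ := le_tail (c.β_nonneg x i) hκ
      have h2 := c.C_nonneg x i κ
      calc c.β x i κ / c.lam κ ≤ c.C x i κ / c.lam κ := div_le_div_of_nonneg_right h1 hlκ.le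
        _ = 1 / c.lam κ * c.C x i κ := by ring
        _ ≤ ρ * c.C x i κ := mul_le_mul_of_nonneg_right hρinv h2
    have e2 : |c.M y i κ - c.M y i (κ + 1)| ≤ ρ * c.C y i κ := by
      refine (c.M_diff_le y i κ).trans ?_
      have h1 : c.β y i κ ≤ c.C y i κ := le_tail (c.β_nonneg y i) hκ
      have h2 := c.C_nonneg y i κ
      calc c.β y i κ / c.lam κ ≤ c.C y i κ / c.lam κ := div_le_div_of_nonneg_right h1 hlκ.le
        _ = 1 / c.lam κ * c.C y i κ := by ring
        _ ≤ ρ * c.C y i κ := mul_le_mul_of_nonneg_right hρinv h2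
    have e3 := hM i (κ + 1) (by omega) (by omega)
    have e4 : min (c.tt x i (κ + 1)) (c.tt y i (κ + 1)) ≤ max (c.C x i κ) (c.C y i κ) := by
      refine (min_le_left _ _).trans (le_trans ?_ (le_max_left _ _))
      exact (tt_le_C c x i (by omega)).trans (tail_anti (c.β_nonneg x i) (Nat.le_succ κ))
    have e5 := le_max_left (c.C x i κ) (c.C y i κ)
    have e6 := le_max_right (c.C x i κ) (c.C y i κ)
    have e7 : c.M x i κ - c.M y i κ = (c.M x i κ - c.M x i (κ + 1)) -
        (c.M y i κ - c.M y i (κ + 1)) + (c.M x i (κ + 1) - c.M y i (κ + 1)) := by ring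
    have e8 : |c.M x i κ - c.M y i κ| ≤ |c.M x i κ - c.M x i (κ + 1)| +
        |c.M y i κ - c.M y i (κ + 1)| + |c.M x i (κ + 1) - c.M y i (κ + 1)| := by
      rw [e7]
      exact (abs_add_le _ _).trans (add_le_add_left (abs_sub _ _) _)
    have f1 := mul_le_mul_of_nonneg_left e5 hρ0
    have f2 := mul_le_mul_of_nonneg_left e6 hρ0
    have f3 := mul_le_mul_of_nonneg_left e4 (show 0 ≤ 7 * ρ by positivity)
    linarith
  refine ⟨hM, hMκ, ?_⟩
  -- (iii)
  have hR0 : 0 ≤ c.R := hU.trans hUR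
  have hε0 := c.hε
  have hMn : ∀ t, κ ≤ t → t < c.K →
      nrm p (fun i => c.M x i (t + 1) - c.M y i (t + 1)) ≤
        14 * ρ * mix c.K (fun j => c.g j x) (fun j => c.u j x) (t + 1) ∧
      nrm p (fun i => c.M x i (t + 1) - c.M y i (t + 1)) ≤ 14 * ρ * c.U := by
    intro t ht htK
    have h1 : nrm p (fun i => c.M x i (t + 1) - c.M y i (t + 1)) ≤
        7 * ρ * nrm p (fun i => c.tt x i (t + 1)) := by
      rw [← nrm_cmul hp (by positivity)]
      refine nrm_le_of_le hp fun i => (hM i (t + 1) (by omega) (by omega)).trans ?_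
      exact mul_le_mul_of_nonneg_left (min_le_left _ _) (by positivity)
    obtain ⟨h2, h3⟩ := nrm_tt hp c hU x (j := t + 1) (by omega)
    have h4 := mul_le_mul_of_nonneg_left h2 (show 0 ≤ 7 * ρ by positivity)
    have h5 := mul_le_mul_of_nonneg_left h3 (show 0 ≤ 7 * ρ by positivity)
    constructor <;> linarith
  have hsigx : 0 ≤ c.sig x := sum_nonneg fun j _ => c.u_nonneg j x
  have hsigy : 0 ≤ c.sig y := sum_nonneg fun j _ => c.u_nonneg j y
  have hterm := term_bound hp c hε hU hUR hx hκ1 hκ hgκ hρe hρ0 hρinv hpat hbad' hmd hed hMn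
  refine (nrm_sum_le hp (Ico κ c.K) (fun t i => |c.β x i t - c.β y i t| / c.lam t)).trans ?_
  refine (sum_le_sum hterm).trans ?_
  rw [← mul_sum]
  refine mul_le_mul_of_nonneg_left ?_ hρ0
  rw [sum_add_distrib, sum_add_distrib, sum_add_distrib]
  have s1 : ∑ t ∈ Ico κ c.K, (if t = κ then 2 + 6 * (c.u κ x + c.u κ y) else 0) =
      2 + 6 * (c.u κ x + c.u κ y) := by
    rw [sum_ite_eq' (Ico κ c.K) κ]
    rw [if_pos (by rw [mem_Ico]; exact ⟨le_rfl, hκ⟩)]
  have s2 : ∑ t ∈ Ico κ c.K, 244 * c.u t x ≤ 244 * c.sig x := by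
    rw [← mul_sum]
    refine mul_le_mul_of_nonneg_left ?_ (by norm_num)
    unfold Cfg.sig
    apply sum_le_sum_of_subset_of_nonneg
    · intro t ht
      rw [mem_Ico] at ht; rw [mem_range]; omega
    · intro t _ _; exact c.u_nonneg t x
  have s3 : ∑ t ∈ Ico κ c.K, (if c.g t x = 1 then
      28 * mix c.K (fun j => c.g j x) (fun j => c.u j x) (t + 1) else 0) ≤ 28 * c.sig x := by
    rw [← sum_filter, ← mul_sum]
    exact mul_le_mul_of_nonneg_left (sum_mix_u c hx κ) (by norm_num)
  have s4 : ∑ t ∈ Ico κ c.K, (if c.g t x ≠ 1 then c.ε * (1 + 258 * c.R) else 0) ≤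
      c.B * (c.ε * (1 + 258 * c.R)) := by
    rw [← sum_filter, sum_const, nsmul_eq_mul]
    refine mul_le_mul_of_nonneg_right ?_ (by positivity)
    have h1 : ((Ico κ c.K).filter fun t => c.g t x ≠ 1).card ≤ c.B := by
      refine (card_le_card ?_).trans (c.bad_card x)
      intro t ht
      rw [mem_filter, mem_Ico] at ht
      rw [mem_filter, mem_range]
      exact ⟨ht.1.2, ht.2⟩
    exact_mod_cast h1
  have s5 := u_le_sig c x hκ.le
  have s6 := u_le_sig c y hκ.le
  rw [s1]
  have hB : (0 : ℝ) ≤ c.B := Nat.cast_nonneg _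
  have h7 : (c.B : ℝ) * (c.ε * (1 + 258 * c.R)) ≤ 400 * c.B * c.ε * (1 + c.R) := by
    have : 0 ≤ (c.B : ℝ) * c.ε := by positivity
    nlinarith
  linarith

end

end Vale.Agent.P249
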