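import Vale.Agent.P249.ScalarMain
import Vale.Agent.P249.CleanFine
import Vale.Agent.P249.CleanFold
import Vale.Agent.P249.CleanPair

/-! P249, all distortions: the error at a pair of clean points. -/

open Finset

namespace Vale.Agent.P249

namespace CleanAux

section
variable {V ι : Type} [Fintype V] [Fintype ι] {p : ℝ} {f : V → ι → ℝ}

lemma C_anti (c : Cfg p f) (x : V) (i : ι) {j k : ℕ} (h : j ≤ k) : c.C x i k ≤ c.C x i j :=
  tail_anti (c.β_nonneg x i) h

lemma log_C_nonneg (c : Cfg p f) (x : V) (i : ι) (j : ℕ) :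
    0 ≤ Real.log (c.C x i j / c.C x i (j + 1)) := by
  rcases eq_or_lt_of_le (c.C_nonneg x i (j + 1)) with h | h
  · rw [← h, div_zero, Real.log_zero]
  · refine Real.log_nonneg ?_
    rw [le_div_iff₀ h, one_mul]
    exact C_anti c x i (Nat.le_succ j)

lemma log_lam_nonneg (c : Cfg p f) {j κ : ℕ} (h : j ≤ κ) :
    0 ≤ Real.log (c.lam j / c.lam κ) := by
  refine Real.log_nonneg ?_
  rw [le_div_iff₀ (c.lam_pos κ), one_mul]
  exact CleanFineAux.lam_anti c h

lemma E_nonneg (c : Cfg p f) (κ : ℕ) {X : ℝ} (hX : 0 ≤ X) (x y : V) (i : ι) :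
    0 ≤ c.E κ X x y i := by
  have hlam := c.lam_pos
  unfold Cfg.E
  have h1 : 0 ≤ ∑ j ∈ Ico κ c.K, |c.C x i j - c.C y i j| / c.lam j :=
    sum_nonneg fun j _ => div_nonneg (abs_nonneg _) (hlam j).le
  have h2 : 0 ≤ ∑ j ∈ Ico κ c.K, (Real.log (c.C x i j / c.C x i (j + 1)) +
        Real.log (c.C y i j / c.C y i (j + 1))) * |c.M x i (j + 1) - c.M y i (j + 1)| :=
    sum_nonneg fun j _ => mul_nonneg (add_nonneg (log_C_nonneg c x i j) (log_C_nonneg c y i j))
      (abs_nonneg _)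
  have h3 : 0 ≤ ∑ j ∈ range κ, Real.log (c.lam j / c.lam κ) *
        (|c.M x i j - c.M x i (j + 1)| + |c.M y i j - c.M y i (j + 1)|) :=
    sum_nonneg fun j hj => mul_nonneg (log_lam_nonneg c (mem_range.mp hj).le) (by positivity)
  have h4 : 0 ≤ ∑ j ∈ range κ, c.β x i j / c.lam j :=
    sum_nonneg fun j _ => div_nonneg (c.β_nonneg x i j) (hlam j).le
  have h5 : 0 ≤ ∑ j ∈ range κ, c.β y i j / c.lam j :=
    sum_nonneg fun j _ => div_nonneg (c.β_nonneg y i j) (hlam j).le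
  have h6 : 0 ≤ |c.C x i κ - c.C y i κ| / c.lam κ := div_nonneg (abs_nonneg _) (hlam κ).le
  have h7 : 0 ≤ (2 + X * c.lam κ) := by
    have := (hlam κ).le
    positivity
  have h8 := mul_nonneg h7 (add_nonneg h4 h5)
  linarith

lemma E_le (c : Cfg p f) {κ : ℕ} (hκ : κ < c.K) {x y : V}
    (hρ : 1 ≤ c.lam κ * dd p f x y) (i : ι)
    (hM : ∀ j, κ < j → j ≤ c.K →
      |c.M x i j - c.M y i j| ≤ 7 * dd p f x y * min (c.tt x i j) (c.tt y i j)) :
    c.E κ (9 * dd p f x y) x y i ≤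
      3 * (∑ t ∈ Ico κ c.K, |c.β x i t - c.β y i t| / c.lam t) +
      (7 * dd p f x y * (∑ j ∈ Ico κ c.K,
          Real.log (c.C x i j / c.C x i (j + 1)) * c.tt x i (j + 1)) +
      (7 * dd p f x y * (∑ j ∈ Ico κ c.K,
          Real.log (c.C y i j / c.C y i (j + 1)) * c.tt y i (j + 1)) +
      ((∑ j ∈ range κ, Real.log (c.lam j / c.lam κ) * |c.M x i j - c.M x i (j + 1)|) +
      ((∑ j ∈ range κ, Real.log (c.lam j / c.lam κ) * |c.M y i j - c.M y i (j + 1)|) +
      (11 * (c.lam κ * dd p f x y) * (∑ j ∈ range κ, c.β x i j / c.lam j) +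
      11 * (c.lam κ * dd p f x y) * (∑ j ∈ range κ, c.β y i j / c.lam j)))))) := by
  have hlam := c.lam_pos
  have hρ0 : 0 ≤ dd p f x y := dd_nonneg p f x y
  unfold Cfg.E
  have h1 : ∑ j ∈ Ico κ c.K, |c.C x i j - c.C y i j| / c.lam j ≤
      2 * ∑ t ∈ Ico κ c.K, |c.β x i t - c.β y i t| / c.lam t :=
    tail_sum_le c.lam hlam (CleanFineAux.lam_succ_le c) (c.β x i) (c.β y i)
  have h2 : ∑ j ∈ Ico κ c.K, (Real.log (c.C x i j / c.C x i (j + 1)) +
        Real.log (c.C y i j / c.C y i (j + 1))) * |c.M x i (j + 1) - c.M y i (j + 1)| ≤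
      7 * dd p f x y * (∑ j ∈ Ico κ c.K,
          Real.log (c.C x i j / c.C x i (j + 1)) * c.tt x i (j + 1)) +
      7 * dd p f x y * (∑ j ∈ Ico κ c.K,
          Real.log (c.C y i j / c.C y i (j + 1)) * c.tt y i (j + 1)) := by
    rw [mul_sum, mul_sum, ← sum_add_distrib]
    refine sum_le_sum fun j hj => ?_
    rw [mem_Ico] at hj
    have h3 := hM (j + 1) (by omega) (by omega)
    have h4 : |c.M x i (j + 1) - c.M y i (j + 1)| ≤ 7 * dd p f x y * c.tt x i (j + 1) :=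
      h3.trans (mul_le_mul_of_nonneg_left (min_le_left _ _) (by positivity))
    have h5 : |c.M x i (j + 1) - c.M y i (j + 1)| ≤ 7 * dd p f x y * c.tt y i (j + 1) :=
      h3.trans (mul_le_mul_of_nonneg_left (min_le_right _ _) (by positivity))
    have h6 := mul_le_mul_of_nonneg_left h4 (log_C_nonneg c x i j)
    have h7 := mul_le_mul_of_nonneg_left h5 (log_C_nonneg c y i j)
    rw [add_mul]
    calc _ ≤ Real.log (c.C x i j / c.C x i (j + 1)) * (7 * dd p f x y * c.tt x i (j + 1)) +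
          Real.log (c.C y i j / c.C y i (j + 1)) * (7 * dd p f x y * c.tt y i (j + 1)) :=
          add_le_add h6 h7
      _ = _ := by ring
  have h3 : ∑ j ∈ range κ, Real.log (c.lam j / c.lam κ) *
        (|c.M x i j - c.M x i (j + 1)| + |c.M y i j - c.M y i (j + 1)|) =
      (∑ j ∈ range κ, Real.log (c.lam j / c.lam κ) * |c.M x i j - c.M x i (j + 1)|) +
      (∑ j ∈ range κ, Real.log (c.lam j / c.lam κ) * |c.M y i j - c.M y i (j + 1)|) := by
    rw [← sum_add_distrib]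
    exact sum_congr rfl fun j _ => by ring
  have hs1 : 0 ≤ ∑ j ∈ range κ, c.β x i j / c.lam j :=
    sum_nonneg fun j _ => div_nonneg (c.β_nonneg x i j) (hlam j).le
  have hs2 : 0 ≤ ∑ j ∈ range κ, c.β y i j / c.lam j :=
    sum_nonneg fun j _ => div_nonneg (c.β_nonneg y i j) (hlam j).le
  have h4 : (2 + 9 * dd p f x y * c.lam κ) *
      (∑ j ∈ range κ, c.β x i j / c.lam j + ∑ j ∈ range κ, c.β y i j / c.lam j) ≤
      11 * (c.lam κ * dd p f x y) * (∑ j ∈ range κ, c.β x i j / c.lam j) +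
      11 * (c.lam κ * dd p f x y) * (∑ j ∈ range κ, c.β y i j / c.lam j) := by
    rw [← mul_add]
    refine mul_le_mul_of_nonneg_right ?_ (add_nonneg hs1 hs2)
    nlinarith
  have h5 : |c.C x i κ - c.C y i κ| / c.lam κ ≤
      ∑ t ∈ Ico κ c.K, |c.β x i t - c.β y i t| / c.lam t := by
    have h6 : c.C x i κ - c.C y i κ = ∑ t ∈ Ico κ c.K, (c.β x i t - c.β y i t) := by
      unfold Cfg.C tail
      rw [sum_sub_distrib]
    rw [h6]
    have h7 := abs_sum_le_sum_abs (fun t => c.β x i t - c.β y i t) (Ico κ c.K)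
    have h8 : |∑ t ∈ Ico κ c.K, (c.β x i t - c.β y i t)| / c.lam κ ≤
        (∑ t ∈ Ico κ c.K, |c.β x i t - c.β y i t|) / c.lam κ :=
      div_le_div_of_nonneg_right h7 (hlam κ).le
    refine h8.trans ?_
    rw [sum_div]
    refine sum_le_sum fun t ht => ?_
    rw [mem_Ico] at ht
    exact div_le_div_of_nonneg_left (abs_nonneg _) (hlam t) (CleanFineAux.lam_anti c ht.1)
  rw [h3]
  linarith

end

lemma clean_key {B ε q R U Lq LL : ℝ} (hB : 0 ≤ B) (hε : 0 ≤ ε) (hq : 1 ≤ q) (hR : 0 ≤ R)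
    (hU : 0 ≤ U) (hL : 0 ≤ Lq) (hLL : 0 ≤ LL) (N σ : ℝ) (hN : 0 ≤ N) (hNB : N ≤ B)
    (hσ : 0 ≤ σ) :
    1200 * (1 + σ) + 600 * B * ε * (1 + R) +
        (14 * (U * Lq * N) + 28 * LL + 112 * U + 28 * (ε * B * q * R)) +
        (3 * U * Lq * (2 + N)) + 11 * (10 * U + 4 * ε * N * R) ≤
        5000 * (1 + σ + U * (1 + Lq) * (1 + N) + LL + ε * ((B + 1) * q) * (1 + R)) := by
  have k1 : 0 ≤ U * Lq * N := by positivity
  have k2 : 0 ≤ U * Lq := by positivity
  have k3 : 0 ≤ U * N := by positivity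
  have k4 : ε * N * R ≤ ε * B * R :=
    mul_le_mul_of_nonneg_right (mul_le_mul_of_nonneg_left hNB hε) hR
  have k5 : 0 ≤ ε * B * R := by positivity
  have k6 : ε * B * R ≤ ε * B * R * q := le_mul_of_one_le_right k5 hq
  have k7 : 0 ≤ ε * B := by positivity
  have k8 : ε * B ≤ ε * B * q := le_mul_of_one_le_right k7 hq
  have k9 : 0 ≤ ε * q := by positivity
  have k10 : 0 ≤ ε * q * R := by positivity
  have e1 : 1200 * (1 + σ) + 600 * B * ε * (1 + R) +
        (14 * (U * Lq * N) + 28 * LL + 112 * U + 28 * (ε * B * q * R)) +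
        (3 * U * Lq * (2 + N)) + 11 * (10 * U + 4 * ε * N * R) =
      1200 * (1 + σ) + 600 * (ε * B) + 600 * (ε * B * R) + 17 * (U * Lq * N) + 28 * LL +
        222 * U + 28 * (ε * B * R * q) + 6 * (U * Lq) + 44 * (ε * N * R) := by ring
  have e2 : 5000 * (1 + σ + U * (1 + Lq) * (1 + N) + LL + ε * ((B + 1) * q) * (1 + R)) =
      5000 * (1 + σ) + 5000 * U + 5000 * (U * Lq) + 5000 * (U * N) + 5000 * (U * Lq * N) +
        5000 * LL + 5000 * (ε * B * q) + 5000 * (ε * q) + 5000 * (ε * B * R * q) +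
        5000 * (ε * q * R) := by ring
  rw [e1, e2]
  linarith

end CleanAux

open CleanAux in
theorem clean_good {V ι : Type} [Fintype V] [Fintype ι] {p : ℝ} {f : V → ι → ℝ}
    (hp : 1 ≤ p) (c : Cfg p f) (hε1 : c.ε * (c.B + 1) ≤ 1)
    (hεQ : c.ε * c.Q ^ (c.B + 1) < 1) (hU : 0 < c.U) (hUR : c.U ≤ c.R) {x y : V} (hxy : x ≠ y)
    (hx : c.Clean x) (hy : c.Clean y) :
    c.Good x y (5000 * dd p f x y * (c.cst x + c.cst y)) := by
  obtain ⟨κ, hκ1, hκ, hgκ, hρ, hpat, hbad⟩ := exists_clean_kappa c hεQ hxy hx hy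
  have hεp := c.hε
  have hB0 : (0 : ℝ) ≤ c.B := Nat.cast_nonneg _
  have hε : c.ε ≤ 1 := by nlinarith
  have hgκy : c.g κ y = 1 := by rw [← hpat κ le_rfl hκ]; exact hgκ
  obtain ⟨hM, hMκ, hP4⟩ := clean_pair hp c hε hU.le hUR hx hy hκ1 hκ hgκ hρ hpat hbad
  have hlam := c.lam_pos
  have hρ0 : 0 ≤ dd p f x y := dd_nonneg p f x y
  refine ⟨κ, hκ, 9 * dd p f x y, by positivity, hMκ, ?_, ?_⟩
  · intro i j hj hjK
    refine ⟨7 * dd p f x y, (hM i j hj hjK.le).trans ?_⟩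
    exact mul_le_mul_of_nonneg_left (min_le_min (tt_le_C c x i hjK.le) (tt_le_C c y i hjK.le))
      (by positivity)
  · obtain ⟨hP1x, hP2x⟩ := clean_fine hp c hε hUR hx hκ hgκ
    obtain ⟨hP1y, hP2y⟩ := clean_fine hp c hε hUR hy hκ hgκy
    have hP3x := clean_fold hp c hε hU hUR hx hκ hgκ
    have hP3y := clean_fold hp c hε hU hUR hy hκ hgκy
    have h1 : nrm p (fun i => c.E κ (9 * dd p f x y) x y i) ≤ nrm p (fun i =>
      3 * (∑ t ∈ Ico κ c.K, |c.β x i t - c.β y i t| / c.lam t) +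
      (7 * dd p f x y * (∑ j ∈ Ico κ c.K,
          Real.log (c.C x i j / c.C x i (j + 1)) * c.tt x i (j + 1)) +
      (7 * dd p f x y * (∑ j ∈ Ico κ c.K,
          Real.log (c.C y i j / c.C y i (j + 1)) * c.tt y i (j + 1)) +
      ((∑ j ∈ range κ, Real.log (c.lam j / c.lam κ) * |c.M x i j - c.M x i (j + 1)|) +
      ((∑ j ∈ range κ, Real.log (c.lam j / c.lam κ) * |c.M y i j - c.M y i (j + 1)|) +
      (11 * (c.lam κ * dd p f x y) * (∑ j ∈ range κ, c.β x i j / c.lam j) +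
      11 * (c.lam κ * dd p f x y) * (∑ j ∈ range κ, c.β y i j / c.lam j))))))) := by
      refine nrm_mono hp fun i => ?_
      rw [abs_of_nonneg (E_nonneg c κ (by positivity) x y i)]
      exact (E_le c hκ hρ i (hM i)).trans (le_abs_self _)
    have a1 := nrm_add_le hp (fun i => 3 * (∑ t ∈ Ico κ c.K, |c.β x i t - c.β y i t| / c.lam t))
      (fun i => (7 * dd p f x y * (∑ j ∈ Ico κ c.K,
          Real.log (c.C x i j / c.C x i (j + 1)) * c.tt x i (j + 1)) +
      (7 * dd p f x y * (∑ j ∈ Ico κ c.K,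
          Real.log (c.C y i j / c.C y i (j + 1)) * c.tt y i (j + 1)) +
      ((∑ j ∈ range κ, Real.log (c.lam j / c.lam κ) * |c.M x i j - c.M x i (j + 1)|) +
      ((∑ j ∈ range κ, Real.log (c.lam j / c.lam κ) * |c.M y i j - c.M y i (j + 1)|) +
      (11 * (c.lam κ * dd p f x y) * (∑ j ∈ range κ, c.β x i j / c.lam j) +
      11 * (c.lam κ * dd p f x y) * (∑ j ∈ range κ, c.β y i j / c.lam j)))))))
    have a2 := nrm_add_le hp (fun i => 7 * dd p f x y * (∑ j ∈ Ico κ c.K,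
          Real.log (c.C x i j / c.C x i (j + 1)) * c.tt x i (j + 1)))
      (fun i => (7 * dd p f x y * (∑ j ∈ Ico κ c.K,
          Real.log (c.C y i j / c.C y i (j + 1)) * c.tt y i (j + 1)) +
      ((∑ j ∈ range κ, Real.log (c.lam j / c.lam κ) * |c.M x i j - c.M x i (j + 1)|) +
      ((∑ j ∈ range κ, Real.log (c.lam j / c.lam κ) * |c.M y i j - c.M y i (j + 1)|) +
      (11 * (c.lam κ * dd p f x y) * (∑ j ∈ range κ, c.β x i j / c.lam j) +
      11 * (c.lam κ * dd p f x y) * (∑ j ∈ range κ, c.β y i j / c.lam j))))))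
    have a3 := nrm_add_le hp (fun i => 7 * dd p f x y * (∑ j ∈ Ico κ c.K,
          Real.log (c.C y i j / c.C y i (j + 1)) * c.tt y i (j + 1)))
      (fun i => ((∑ j ∈ range κ, Real.log (c.lam j / c.lam κ) * |c.M x i j - c.M x i (j + 1)|) +
      ((∑ j ∈ range κ, Real.log (c.lam j / c.lam κ) * |c.M y i j - c.M y i (j + 1)|) +
      (11 * (c.lam κ * dd p f x y) * (∑ j ∈ range κ, c.β x i j / c.lam j) +
      11 * (c.lam κ * dd p f x y) * (∑ j ∈ range κ, c.β y i j / c.lam j)))))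
    have a4 := nrm_add_le hp (fun i => (∑ j ∈ range κ, Real.log (c.lam j / c.lam κ) *
        |c.M x i j - c.M x i (j + 1)|))
      (fun i => ((∑ j ∈ range κ, Real.log (c.lam j / c.lam κ) * |c.M y i j - c.M y i (j + 1)|) +
      (11 * (c.lam κ * dd p f x y) * (∑ j ∈ range κ, c.β x i j / c.lam j) +
      11 * (c.lam κ * dd p f x y) * (∑ j ∈ range κ, c.β y i j / c.lam j))))
    have a5 := nrm_add_le hp (fun i => (∑ j ∈ range κ, Real.log (c.lam j / c.lam κ) *
        |c.M y i j - c.M y i (j + 1)|))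
      (fun i => (11 * (c.lam κ * dd p f x y) * (∑ j ∈ range κ, c.β x i j / c.lam j) +
      11 * (c.lam κ * dd p f x y) * (∑ j ∈ range κ, c.β y i j / c.lam j)))
    have a6 := nrm_add_le hp (fun i => 11 * (c.lam κ * dd p f x y) *
        (∑ j ∈ range κ, c.β x i j / c.lam j))
      (fun i => 11 * (c.lam κ * dd p f x y) * (∑ j ∈ range κ, c.β y i j / c.lam j))
    have hlρ : 0 ≤ c.lam κ * dd p f x y := by linarith
    rw [nrm_const_mul hp, abs_of_nonneg (by norm_num : (0 : ℝ) ≤ 3)] at a1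
    rw [nrm_const_mul hp, abs_of_nonneg (by positivity : (0 : ℝ) ≤ 7 * dd p f x y)] at a2
    rw [nrm_const_mul hp, abs_of_nonneg (by positivity : (0 : ℝ) ≤ 7 * dd p f x y)] at a3
    rw [nrm_const_mul hp, abs_of_nonneg (by positivity : (0 : ℝ) ≤ 11 * (c.lam κ * dd p f x y)),
      nrm_const_mul hp, abs_of_nonneg (by positivity : (0 : ℝ) ≤ 11 * (c.lam κ * dd p f x y))] at a6
    -- abbreviations
    set ρ : ℝ := dd p f x y with hρdef
    have hinv : 1 / c.lam κ ≤ ρ := by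
      rw [div_le_iff₀ (hlam κ)]; linarith
    have hlogQ : 0 ≤ Real.log c.Q := Real.log_nonneg (by linarith [c.hQ])
    have hQ1 : 1 ≤ c.Q := by linarith [c.hQ]
    have hR0 : 0 ≤ c.R := hU.le.trans hUR
    have hNx : (c.N x : ℝ) ≤ c.B := by exact_mod_cast c.bad_card x
    have hNy : (c.N y : ℝ) ≤ c.B := by exact_mod_cast c.bad_card y
    have hNx0 : (0 : ℝ) ≤ c.N x := Nat.cast_nonneg _
    have hNy0 : (0 : ℝ) ≤ c.N y := Nat.cast_nonneg _
    have hsx : 0 ≤ c.sig x := sum_nonneg fun j _ => c.u_nonneg j x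
    have hsy : 0 ≤ c.sig y := sum_nonneg fun j _ => c.u_nonneg j y
    have hlogR : 0 ≤ Real.log (c.Q * c.R / c.U) := by
      refine Real.log_nonneg ?_
      rw [le_div_iff₀ hU]
      nlinarith
    have hUR' : 0 ≤ c.U ^ (1 - 1 / p) * c.R ^ (1 / p) :=
      mul_nonneg (Real.rpow_nonneg hU.le _) (Real.rpow_nonneg hR0 _)
    set LL : ℝ := Real.log (c.Q * c.R / c.U) * (c.U ^ (1 - 1 / p) * c.R ^ (1 / p)) with hLL
    have hLL0 : 0 ≤ LL := mul_nonneg hlogR hUR'
    set q : ℝ := c.Q ^ (c.B + 1) with hq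
    have hq1 : 1 ≤ q := one_le_pow₀ hQ1
    -- bounds
    have b1 : nrm p (fun i => ∑ j ∈ range κ, Real.log (c.lam j / c.lam κ) *
        |c.M x i j - c.M x i (j + 1)|) ≤ ρ * (3 * c.U * Real.log c.Q * (2 + c.N x)) := by
      refine hP1x.trans ?_
      rw [div_eq_mul_one_div, mul_comm]
      exact mul_le_mul_of_nonneg_right hinv (by positivity)
    have b2 : nrm p (fun i => ∑ j ∈ range κ, Real.log (c.lam j / c.lam κ) *
        |c.M y i j - c.M y i (j + 1)|) ≤ ρ * (3 * c.U * Real.log c.Q * (2 + c.N y)) := by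
      refine hP1y.trans ?_
      rw [div_eq_mul_one_div, mul_comm]
      exact mul_le_mul_of_nonneg_right hinv (by positivity)
    have b3 : 11 * (c.lam κ * ρ) * nrm p (fun i => ∑ j ∈ range κ, c.β x i j / c.lam j) ≤
        ρ * (11 * (10 * c.U + 4 * c.ε * c.N x * c.R)) := by
      have := mul_le_mul_of_nonneg_left hP2x (by positivity : 0 ≤ 11 * (c.lam κ * ρ))
      refine this.trans (le_of_eq ?_)
      have := (hlam κ).ne'
      field_simp
    have b4 : 11 * (c.lam κ * ρ) * nrm p (fun i => ∑ j ∈ range κ, c.β y i j / c.lam j) ≤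
        ρ * (11 * (10 * c.U + 4 * c.ε * c.N y * c.R)) := by
      have := mul_le_mul_of_nonneg_left hP2y (by positivity : 0 ≤ 11 * (c.lam κ * ρ))
      refine this.trans (le_of_eq ?_)
      have := (hlam κ).ne'
      field_simp
    have b5 := mul_le_mul_of_nonneg_left hP3x (by positivity : 0 ≤ 7 * ρ)
    have b6 := mul_le_mul_of_nonneg_left hP3y (by positivity : 0 ≤ 7 * ρ)
    have e3 : ∀ N : ℝ, 7 * ρ * (2 * c.U * Real.log c.Q * N
      + 4 * Real.log (c.Q * c.R / c.U) * (c.U ^ (1 - 1 / p) * c.R ^ (1 / p))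
      + 16 * c.U + 4 * c.ε * c.B * q * c.R) =
      ρ * (14 * (c.U * Real.log c.Q * N) + 28 * LL + 112 * c.U + 28 * (c.ε * c.B * q * c.R)) := by
      intro N
      rw [hLL]; ring
    rw [e3] at b5 b6
    have key := clean_key (B := (c.B : ℝ)) (ε := c.ε) (q := q) (R := c.R) (U := c.U)
      (Lq := Real.log c.Q) (LL := LL) hB0 hεp.le hq1 hR0 hU.le hlogQ hLL0
    have kx := mul_le_mul_of_nonneg_left (key (c.N x) (c.sig x) hNx0 hNx hsx) hρ0
    have ky := mul_le_mul_of_nonneg_left (key (c.N y) (c.sig y) hNy0 hNy hsy) hρ0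
    have ecx : c.cst x = 1 + c.sig x + c.U * (1 + Real.log c.Q) * (1 + c.N x) + LL +
          c.ε * ((c.B + 1) * q) * (1 + c.R) := rfl
    have ecy : c.cst y = 1 + c.sig y + c.U * (1 + Real.log c.Q) * (1 + c.N y) + LL +
          c.ε * ((c.B + 1) * q) * (1 + c.R) := rfl
    rw [← ecx] at kx
    rw [← ecy] at ky
    have efin : 5000 * ρ * (c.cst x + c.cst y) = ρ * (5000 * c.cst x) + ρ * (5000 * c.cst y) := by
      ring
    rw [efin]
    have esum : ρ * (1200 * (1 + c.sig x) + 600 * c.B * c.ε * (1 + c.R) +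
        (14 * (c.U * Real.log c.Q * c.N x) + 28 * LL + 112 * c.U + 28 * (c.ε * c.B * q * c.R)) +
        (3 * c.U * Real.log c.Q * (2 + c.N x)) + 11 * (10 * c.U + 4 * c.ε * c.N x * c.R)) +
      ρ * (1200 * (1 + c.sig y) + 600 * c.B * c.ε * (1 + c.R) +
        (14 * (c.U * Real.log c.Q * c.N y) + 28 * LL + 112 * c.U + 28 * (c.ε * c.B * q * c.R)) +
        (3 * c.U * Real.log c.Q * (2 + c.N y)) + 11 * (10 * c.U + 4 * c.ε * c.N y * c.R)) =
      3 * (ρ * (400 * (1 + c.sig x + c.sig y) + 400 * c.B * c.ε * (1 + c.R))) + ρ * 1200 +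
      ρ * (14 * (c.U * Real.log c.Q * c.N x) + 28 * LL + 112 * c.U + 28 * (c.ε * c.B * q * c.R)) +
      ρ * (14 * (c.U * Real.log c.Q * c.N y) + 28 * LL + 112 * c.U + 28 * (c.ε * c.B * q * c.R)) +
      ρ * (3 * c.U * Real.log c.Q * (2 + c.N x)) + ρ * (3 * c.U * Real.log c.Q * (2 + c.N y)) +
      ρ * (11 * (10 * c.U + 4 * c.ε * c.N x * c.R)) +
      ρ * (11 * (10 * c.U + 4 * c.ε * c.N y * c.R)) := by ring
    have h12 : 0 ≤ ρ * 1200 := by positivity
    linarith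

end Vale.Agent.P249
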