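import Vale.Agent.P249.Mix

/-! P249, all distortions: the mixed averages and the weights are Lipschitz on coarse scales. -/

open Finset

namespace Vale.Agent.P249

namespace MixLipAux

section
variable {K : ℕ} {lam g g' m m' e e' : ℕ → ℝ} {ρ ε : ℝ}

/-- the basic identity for the difference of two mixings -/
lemma mix_diff {t : ℕ} (ht : t < K) :
    mix K g m t - mix K g' m' t =
      (1 - g' t) * (mix K g m (t + 1) - mix K g' m' (t + 1))
        + ((g t - g' t) * (m t - mix K g m (t + 1)) + g' t * (m t - m' t)) := by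
  rw [mix_step ht, mix_step ht]; ring

/-- the error term is at most `7 ρ β_t` -/
lemma err_le {t : ℕ} (hρ : 0 ≤ ρ) (hε : 0 ≤ ε) (hlam : 0 < lam t) (hlr : lam t * ρ ≤ 1)
    (hg0 : 0 ≤ g t) (hg0' : 0 ≤ g' t) (he0 : 0 ≤ e t)
    (hg : |g t - g' t| ≤ ε * (lam t * ρ))
    (hm : |m t - m' t| ≤ 7 * (lam t * ρ) * e t) :
    |(g t - g' t) * (m t - mix K g m (t + 1)) + g' t * (m t - m' t)| ≤
      7 * ρ * bet K lam ε g m e t := by
  have hlρ : 0 ≤ lam t * ρ := by positivity
  have h1 : |(g t - g' t) * (m t - mix K g m (t + 1))| ≤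
      ε * (lam t * ρ) * |m t - mix K g m (t + 1)| := by
    rw [abs_mul]; exact mul_le_mul_of_nonneg_right hg (abs_nonneg _)
  have h2 : |g' t * (m t - m' t)| ≤ (g t + ε) * (7 * (lam t * ρ) * e t) := by
    rw [abs_mul, abs_of_nonneg hg0']
    refine mul_le_mul ?_ hm (abs_nonneg _) (by positivity)
    have h3 := abs_le.mp hg
    have h4 : ε * (lam t * ρ) ≤ ε * 1 := mul_le_mul_of_nonneg_left hlr hε
    linarith [h3.1]
  have h5 := abs_add_le ((g t - g' t) * (m t - mix K g m (t + 1))) (g' t * (m t - m' t))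
  have h6 : 0 ≤ lam t * ρ * |mix K g m t - mix K g m (t + 1)| := by positivity
  have h7 : 0 ≤ ε * (lam t * ρ) * |m t - mix K g m (t + 1)| := by positivity
  have h8 : 7 * ρ * bet K lam ε g m e t = 7 * (lam t * ρ * |mix K g m t - mix K g m (t + 1)|)
      + (g t + ε) * (7 * (lam t * ρ) * e t) + 7 * (ε * (lam t * ρ) * |m t - mix K g m (t + 1)|) := by
    unfold bet; ring
  rw [h8]
  linarith

/-- the difference of the weights -/
lemma bet_diff {t : ℕ} (hρ : 0 ≤ ρ) (hε : 0 ≤ ε) (hlam : 0 < lam t) (hlr : lam t * ρ ≤ 1)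
    (ht : t < K)
    (hg0 : 0 ≤ g t) (hg0' : 0 ≤ g' t) (he0 : 0 ≤ e t)
    (hg : |g t - g' t| ≤ ε * (lam t * ρ))
    (hm : |m t - m' t| ≤ 7 * (lam t * ρ) * e t)
    (he : |e t - e' t| ≤ 54 * (lam t * ρ) * e t) :
    |bet K lam ε g m e t - bet K lam ε g' m' e' t| / lam t ≤
      123 * ρ * bet K lam ε g m e t + g' t * |mix K g m (t + 1) - mix K g' m' (t + 1)|
        + ε * |mix K g m (t + 1) - mix K g' m' (t + 1)| := by
  have hlρ : 0 ≤ lam t * ρ := by positivity
  have hE := err_le (K := K) (lam := lam) (g := g) (g' := g') (m := m) (m' := m') (e := e)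
    hρ hε hlam hlr hg0 hg0' he0 hg hm
  have hd := mix_diff (K := K) (g := g) (g' := g') (m := m) (m' := m') ht
  -- lower bound of the weight
  have hβ : ρ * bet K lam ε g m e t = (lam t * ρ * |mix K g m t - mix K g m (t + 1)|)
      + (g t + ε) * ((lam t * ρ) * e t) + (ε * (lam t * ρ) * |m t - mix K g m (t + 1)|) := by
    unfold bet; ring
  have hb1 : 0 ≤ lam t * ρ * |mix K g m t - mix K g m (t + 1)| := by positivity
  have hb2 : 0 ≤ g t * ((lam t * ρ) * e t) := by positivity
  have hb3 : 0 ≤ ε * ((lam t * ρ) * e t) := by positivity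
  have hb4 : 0 ≤ ε * (lam t * ρ) * |m t - mix K g m (t + 1)| := by positivity
  -- first part
  have h1 : |(mix K g m t - mix K g m (t + 1)) - (mix K g' m' t - mix K g' m' (t + 1))| ≤
      7 * ρ * bet K lam ε g m e t + g' t * |mix K g m (t + 1) - mix K g' m' (t + 1)| := by
    have h2 : (mix K g m t - mix K g m (t + 1)) - (mix K g' m' t - mix K g' m' (t + 1)) =
        ((g t - g' t) * (m t - mix K g m (t + 1)) + g' t * (m t - m' t))
        - g' t * (mix K g m (t + 1) - mix K g' m' (t + 1)) := by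
      linarith
    rw [h2]
    have h3 := abs_sub ((g t - g' t) * (m t - mix K g m (t + 1)) + g' t * (m t - m' t))
      (g' t * (mix K g m (t + 1) - mix K g' m' (t + 1)))
    have h4 : |g' t * (mix K g m (t + 1) - mix K g' m' (t + 1))| =
        g' t * |mix K g m (t + 1) - mix K g' m' (t + 1)| := by
      rw [abs_mul, abs_of_nonneg hg0']
    rw [h4] at h3
    linarith
  -- second part
  have h5 : |(g t + ε) * e t - (g' t + ε) * e' t| ≤ 109 * ρ * bet K lam ε g m e t := by
    have h6 : (g t + ε) * e t - (g' t + ε) * e' t =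
        (g t - g' t) * e t + (g' t + ε) * (e t - e' t) := by ring
    have h7 : |(g t - g' t) * e t| ≤ ε * (lam t * ρ) * e t := by
      rw [abs_mul, abs_of_nonneg he0]; exact mul_le_mul_of_nonneg_right hg he0
    have h8 : |(g' t + ε) * (e t - e' t)| ≤ (g t + ε + ε) * (54 * (lam t * ρ) * e t) := by
      rw [abs_mul, abs_of_nonneg (by positivity : 0 ≤ g' t + ε)]
      refine mul_le_mul ?_ he (abs_nonneg _) (by positivity)
      have h3 := abs_le.mp hg
      have h4 : ε * (lam t * ρ) ≤ ε * 1 := mul_le_mul_of_nonneg_left hlr hε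
      linarith [h3.1]
    rw [h6]
    have h9 := abs_add_le ((g t - g' t) * e t) ((g' t + ε) * (e t - e' t))
    have h10 : 109 * ρ * bet K lam ε g m e t = 109 * (ρ * bet K lam ε g m e t) := by ring
    rw [h10, hβ]
    have h11 : (g t + ε + ε) * (54 * (lam t * ρ) * e t) = 54 * (g t * ((lam t * ρ) * e t))
        + 108 * (ε * ((lam t * ρ) * e t)) := by ring
    have h12 : ε * (lam t * ρ) * e t = ε * ((lam t * ρ) * e t) := by ring
    have h13 : (g t + ε) * ((lam t * ρ) * e t) = g t * ((lam t * ρ) * e t)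
        + ε * ((lam t * ρ) * e t) := by ring
    rw [h13]
    rw [h11] at h8
    rw [h12] at h7
    linarith
  -- third part
  have h14 : |(ε * |m t - mix K g m (t + 1)| - ε * |m' t - mix K g' m' (t + 1)|)| ≤
      7 * ρ * bet K lam ε g m e t + ε * |mix K g m (t + 1) - mix K g' m' (t + 1)| := by
    rw [← mul_sub, abs_mul, abs_of_nonneg hε]
    have h15 : |(|m t - mix K g m (t + 1)| - |m' t - mix K g' m' (t + 1)|)| ≤
        |m t - m' t| + |mix K g m (t + 1) - mix K g' m' (t + 1)| := by
      refine (abs_abs_sub_abs_le_abs_sub _ _).trans ?_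
      have h16 : (m t - mix K g m (t + 1)) - (m' t - mix K g' m' (t + 1)) =
          (m t - m' t) - (mix K g m (t + 1) - mix K g' m' (t + 1)) := by ring
      rw [h16]
      exact abs_sub _ _
    have h17 := mul_le_mul_of_nonneg_left (h15.trans (add_le_add_left hm _)) hε
    refine h17.trans ?_
    have h18 : 7 * ρ * bet K lam ε g m e t = 7 * (ρ * bet K lam ε g m e t) := by ring
    rw [h18, hβ]
    have h19 : (g t + ε) * ((lam t * ρ) * e t) = g t * ((lam t * ρ) * e t)
        + ε * ((lam t * ρ) * e t) := by ring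
    rw [h19]
    have h20 : ε * (7 * (lam t * ρ) * e t + |mix K g m (t + 1) - mix K g' m' (t + 1)|) =
        7 * (ε * ((lam t * ρ) * e t)) + ε * |mix K g m (t + 1) - mix K g' m' (t + 1)| := by ring
    rw [h20]
    linarith
  -- put together
  rw [div_le_iff₀ hlam]
  have h21 : bet K lam ε g m e t - bet K lam ε g' m' e' t =
      ((|mix K g m t - mix K g m (t + 1)| - |mix K g' m' t - mix K g' m' (t + 1)|)
        + ((g t + ε) * e t - (g' t + ε) * e' t)
        + (ε * |m t - mix K g m (t + 1)| - ε * |m' t - mix K g' m' (t + 1)|)) * lam t := by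
    unfold bet; ring
  rw [h21, abs_mul, abs_of_pos hlam]
  refine mul_le_mul_of_nonneg_right ?_ hlam.le
  have h22 := abs_add_le
    ((|mix K g m t - mix K g m (t + 1)| - |mix K g' m' t - mix K g' m' (t + 1)|)
        + ((g t + ε) * e t - (g' t + ε) * e' t))
    (ε * |m t - mix K g m (t + 1)| - ε * |m' t - mix K g' m' (t + 1)|)
  have h23 := abs_add_le
    (|mix K g m t - mix K g m (t + 1)| - |mix K g' m' t - mix K g' m' (t + 1)|)
    ((g t + ε) * e t - (g' t + ε) * e' t)
  have h24 := abs_abs_sub_abs_le_abs_sub (mix K g m t - mix K g m (t + 1))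
    (mix K g' m' t - mix K g' m' (t + 1))
  linarith

end

end MixLipAux

open MixLipAux in
theorem mix_lip {K κ : ℕ} {lam g g' m m' e e' : ℕ → ℝ} {ρ ε : ℝ} {B : ℕ}
    (hρ : 0 ≤ ρ) (hε : 0 ≤ ε) (hε1 : ε * (B + 1) ≤ 1) (hlam : ∀ j, 0 < lam j)
    (hlr : ∀ j, κ < j → lam j * ρ ≤ 1)
    (hg0 : ∀ j, 0 ≤ g j) (hg1 : ∀ j, g j ≤ 1) (hg0' : ∀ j, 0 ≤ g' j) (hg1' : ∀ j, g' j ≤ 1)
    (he0 : ∀ j, 0 ≤ e j) (he0' : ∀ j, 0 ≤ e' j)
    (hg : ∀ j, κ < j → j < K → |g j - g' j| ≤ ε * (lam j * ρ))
    (hm : ∀ j, κ < j → j < K → |m j - m' j| ≤ 7 * (lam j * ρ) * e j)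
    (he : ∀ j, κ < j → j < K → |e j - e' j| ≤ 54 * (lam j * ρ) * e j)
    (hmK : m K = m' K)
    (hB : ((range K).filter fun j => g' j ≠ 1).card ≤ B) :
    ∀ j, κ < j → j ≤ K →
      |mix K g m j - mix K g' m' j| ≤ 8 * ρ * tail K (bet K lam ε g m e) j ∧
      ∑ t ∈ Ico j K, |bet K lam ε g m e t - bet K lam ε g' m' e' t| / lam t ≤
        200 * ρ * tail K (bet K lam ε g m e) j := by
  have hβ0 : ∀ t, 0 ≤ bet K lam ε g m e t := fun t => bet_nonneg hlam hε hg0 he0 t
  have hC0 : ∀ t, 0 ≤ tail K (bet K lam ε g m e) t := fun t => tail_nonneg hβ0 t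
  set R : ℕ → ℝ := fun t => |mix K g m t - mix K g' m' t| with hR
  have hR0 : ∀ t, 0 ≤ R t := fun t => abs_nonneg _
  -- the combined recursion
  have key : ∀ j, j ≤ K → κ < j →
      R j + ∑ t ∈ Ico j K, g' t * R (t + 1) ≤ 7 * ρ * tail K (bet K lam ε g m e) j := by
    refine down_induction ?_ ?_
    · intro _
      have h1 : R K = 0 := by
        simp only [hR]; rw [mix_last, mix_last, hmK, sub_self, abs_zero]
      rw [h1, Ico_self, sum_empty, add_zero]
      have := hC0 K
      positivity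
    · intro j hj ih hκj
      have ih' := ih (by omega)
      have h1 : ∑ t ∈ Ico j K, g' t * R (t + 1) =
          g' j * R (j + 1) + ∑ t ∈ Ico (j + 1) K, g' t * R (t + 1) :=
        tail_succ (τ := fun t => g' t * R (t + 1)) hj
      have h2 : R j ≤ (1 - g' j) * R (j + 1) + 7 * ρ * bet K lam ε g m e j := by
        simp only [hR]
        rw [mix_diff hj]
        refine (abs_add_le _ _).trans ?_
        rw [abs_mul, abs_of_nonneg (sub_nonneg.mpr (hg1' j))]
        have h3 := err_le (K := K) (lam := lam) (g := g) (g' := g') (m := m) (m' := m') (e := e)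
          hρ hε (hlam j) (hlr j hκj) (hg0 j) (hg0' j) (he0 j) (hg j hκj hj) (hm j hκj hj)
        linarith
      rw [h1, tail_succ hj]
      linarith
  have hsumnn : ∀ j, 0 ≤ ∑ t ∈ Ico j K, g' t * R (t + 1) := fun j =>
    sum_nonneg (fun t _ => mul_nonneg (hg0' t) (hR0 _))
  intro j hκj hjK
  have hkj := key j hjK hκj
  refine ⟨?_, ?_⟩
  · have h1 := hsumnn j
    have h2 := hC0 j
    have h3 : 0 ≤ ρ * tail K (bet K lam ε g m e) j := by positivity
    show R j ≤ _
    linarith
  · set Cj := tail K (bet K lam ε g m e) j with hCj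
    have hCj0 : 0 ≤ Cj := hC0 j
    have hRle : ∀ t ∈ Ico j K, R (t + 1) ≤ 7 * ρ * Cj := by
      intro t ht
      rw [mem_Ico] at ht
      have h1 := key (t + 1) (by omega) (by omega)
      have h2 := hsumnn (t + 1)
      have h3 : tail K (bet K lam ε g m e) (t + 1) ≤ Cj := tail_anti hβ0 (by omega)
      have h4 : 7 * ρ * tail K (bet K lam ε g m e) (t + 1) ≤ 7 * ρ * Cj :=
        mul_le_mul_of_nonneg_left h3 (by positivity)
      linarith
    have hg'sum : ∑ t ∈ Ico j K, g' t * R (t + 1) ≤ 7 * ρ * Cj := by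
      have := hR0 j
      linarith
    -- sum of R
    have hRsum : ∑ t ∈ Ico j K, R (t + 1) ≤ (B + 1) * (7 * ρ * Cj) := by
      have h1 : ∑ t ∈ Ico j K, R (t + 1) ≤
          ∑ t ∈ Ico j K, (g' t * R (t + 1) + if g' t ≠ 1 then 7 * ρ * Cj else 0) := by
        refine sum_le_sum ?_
        intro t ht
        by_cases h : g' t = 1
        · rw [if_neg (by simpa using h), h]; linarith
        · rw [if_pos h]
          have h2 := hRle t ht
          have h3 := mul_nonneg (hg0' t) (hR0 (t + 1))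
          linarith
      have h4 : ∑ t ∈ Ico j K, (if g' t ≠ 1 then 7 * ρ * Cj else 0) ≤ B * (7 * ρ * Cj) := by
        rw [← sum_filter, sum_const, nsmul_eq_mul]
        refine mul_le_mul_of_nonneg_right ?_ (by positivity)
        have h5 : ((Ico j K).filter fun t => g' t ≠ 1).card ≤ B := by
          refine le_trans (card_le_card ?_) hB
          refine filter_subset_filter _ ?_
          intro t ht
          rw [mem_Ico] at ht
          exact mem_range.mpr ht.2
        exact_mod_cast h5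
      rw [sum_add_distrib] at h1
      linarith
    calc ∑ t ∈ Ico j K, |bet K lam ε g m e t - bet K lam ε g' m' e' t| / lam t
        ≤ ∑ t ∈ Ico j K, (123 * ρ * bet K lam ε g m e t + g' t * R (t + 1) + ε * R (t + 1)) := by
          refine sum_le_sum ?_
          intro t ht
          rw [mem_Ico] at ht
          exact bet_diff hρ hε (hlam t) (hlr t (by omega)) ht.2 (hg0 t) (hg0' t) (he0 t)
            (hg t (by omega) ht.2) (hm t (by omega) ht.2) (he t (by omega) ht.2)
      _ = 123 * ρ * Cj + ∑ t ∈ Ico j K, g' t * R (t + 1) + ε * ∑ t ∈ Ico j K, R (t + 1) := by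
          rw [sum_add_distrib, sum_add_distrib, ← mul_sum, ← mul_sum]
          rfl
      _ ≤ 123 * ρ * Cj + 7 * ρ * Cj + ε * ((B + 1) * (7 * ρ * Cj)) := by
          have := mul_le_mul_of_nonneg_left hRsum hε
          linarith
      _ ≤ 123 * ρ * Cj + 7 * ρ * Cj + 1 * (7 * ρ * Cj) := by
          rw [← mul_assoc]
          have h1 : 0 ≤ 7 * ρ * Cj := by positivity
          have := mul_le_mul_of_nonneg_right hε1 h1
          linarith
      _ ≤ 200 * ρ * Cj := by
          have h1 : 0 ≤ ρ * Cj := by positivity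
          linarith

end Vale.Agent.P249
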