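import Vale.Agent.P249.Mix

/-! P249 [C0]. -/

open Finset

namespace Vale.Agent.P249

section
variable {V ι : Type} [Fintype V] [Fintype ι] {p : ℝ} {f : V → ι → ℝ}

namespace NormC0Aux

lemma nrm_m' (c : Cfg p f) (x : V) {j : ℕ} (hj : j ≤ c.K) :
    nrm p (fun i => c.m j x i - f x i) ≤ c.u j x / c.lam j := by
  rw [le_div_iff₀ (c.lam_pos _), mul_comm]
  exact c.nrm_m _ x hj

lemma nrm_e' (c : Cfg p f) (x : V) {j : ℕ} (hj : j ≤ c.K) :
    nrm p (c.e j x) ≤ 2 * c.u j x / c.lam j := by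
  rw [le_div_iff₀ (c.lam_pos _), mul_comm]
  exact c.nrm_e _ x hj

end NormC0Aux

open NormC0Aux

/-- `nrm (M_j - f) ≤ mix (u / lam)_j` -/
theorem nrm_M_sub (hp : 1 ≤ p) (c : Cfg p f) (x : V) {j : ℕ} (hj : j ≤ c.K) :
    nrm p (fun i => c.M x i j - f x i) ≤
      mix c.K (fun j => c.g j x) (fun j => c.u j x / c.lam j) j := by
  have key : ∀ j, j ≤ c.K → nrm p (fun i => c.M x i j - f x i) ≤
      mix c.K (fun j => c.g j x) (fun j => c.u j x / c.lam j) j := by
    refine down_induction ?_ ?_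
    · rw [mix_last]
      have : (fun i => c.M x i c.K - f x i) = fun i => c.m c.K x i - f x i := by
        funext i; unfold Cfg.M; rw [mix_last]
      rw [this]
      exact nrm_m' c x le_rfl
    · intro j hj ih
      rw [mix_step hj]
      have h0 := c.g_nonneg j x
      have h1 := c.g_le_one j x
      have hM : (fun i => c.M x i j - f x i) = fun i =>
          (1 - c.g j x) * (c.M x i (j + 1) - f x i) + c.g j x * (c.m j x i - f x i) := by
        funext i; unfold Cfg.M; rw [mix_step hj]; ring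
      rw [hM]
      refine (nrm_add_le hp _ _).trans ?_
      rw [nrm_const_mul hp, nrm_const_mul hp, abs_of_nonneg h0,
        abs_of_nonneg (by linarith : (0:ℝ) ≤ 1 - c.g j x)]
      have h2 := nrm_m' c x hj.le
      have h3 : 0 ≤ 1 - c.g j x := by linarith
      have h4 := mul_le_mul_of_nonneg_left ih h3
      have h5 := mul_le_mul_of_nonneg_left h2 h0
      exact add_le_add h4 h5
  exact key j hj

namespace NormC0Aux

/-- pointwise bound of the weights -/
lemma β_le (c : Cfg p f) (hε : c.ε ≤ 1) (x : V) (i : ι) {j : ℕ} (hj : j < c.K) :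
    c.β x i j ≤ c.lam j * (2 * |c.m j x i - c.M x i (j + 1)| + 2 * c.e j x i) := by
  have hg0 := c.g_nonneg j x
  have hg1 := c.g_le_one j x
  have he := c.e_nonneg j x i
  have hε0 := c.hε.le
  unfold Cfg.β bet
  refine mul_le_mul_of_nonneg_left ?_ (c.lam_pos j).le
  have hM : mix c.K (fun j => c.g j x) (fun j => c.m j x i) j -
      mix c.K (fun j => c.g j x) (fun j => c.m j x i) (j + 1) =
      c.g j x * (c.m j x i - c.M x i (j + 1)) := by
    unfold Cfg.M; rw [mix_step hj]; ring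
  have hM2 : mix c.K (fun j => c.g j x) (fun j => c.m j x i) (j + 1) = c.M x i (j + 1) := rfl
  rw [hM, abs_mul, abs_of_nonneg hg0, hM2]
  have ha := abs_nonneg (c.m j x i - c.M x i (j + 1))
  nlinarith [mul_le_mul_of_nonneg_right hg1 ha, mul_le_mul_of_nonneg_right hε ha,
    mul_le_mul_of_nonneg_right hg1 he, mul_le_mul_of_nonneg_right hε he]

/-- `A j = lam j * mix (u / lam) j` -/
noncomputable def A (c : Cfg p f) (x : V) (j : ℕ) : ℝ :=
  c.lam j * mix c.K (fun j => c.g j x) (fun j => c.u j x / c.lam j) j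

lemma A_nonneg (c : Cfg p f) (x : V) {j : ℕ} (hj : j ≤ c.K) : 0 ≤ A c x j := by
  refine mul_nonneg (c.lam_pos j).le (mix_nonneg (fun j => c.g_nonneg j x)
    (fun j => c.g_le_one j x) (fun j => ?_) j hj)
  have := c.lam_pos j
  have := c.u_nonneg j x
  positivity

lemma A_last (c : Cfg p f) (x : V) : A c x c.K = c.u c.K x := by
  unfold A
  rw [mix_last]
  have := (c.lam_pos c.K).ne'
  field_simp

lemma A_step (c : Cfg p f) (x : V) {j : ℕ} (hj : j < c.K) :
    A c x j = (1 - c.g j x) * (c.Q * A c x (j + 1)) + c.g j x * c.u j x := by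
  unfold A
  rw [mix_step hj]
  have h1 := (c.lam_pos j).ne'
  have h2 := c.lam_succ j
  have h3 : c.lam j * ((1 - c.g j x) * mix c.K (fun j => c.g j x) (fun j => c.u j x / c.lam j)
      (j + 1) + c.g j x * (c.u j x / c.lam j)) =
      (1 - c.g j x) * (c.lam j * mix c.K (fun j => c.g j x) (fun j => c.u j x / c.lam j)
      (j + 1)) + c.g j x * c.u j x := by
    field_simp
  rw [h3]
  conv_lhs => rw [h2]
  ring

lemma nrm_β (hp : 1 ≤ p) (c : Cfg p f) (hε : c.ε ≤ 1) (x : V) {j : ℕ} (hj : j < c.K) :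
    nrm p (fun i => c.β x i j) ≤ 6 * c.u j x + 2 * c.Q * A c x (j + 1) := by
  have hl := c.lam_pos j
  have h1 : nrm p (fun i => c.β x i j) ≤
      nrm p (fun i => 2 * c.lam j * |c.m j x i - c.M x i (j + 1)| + 2 * c.lam j * c.e j x i) := by
    refine nrm_mono hp fun i => ?_
    have h2 := β_le c hε x i hj
    have he := c.e_nonneg j x i
    rw [abs_of_nonneg (c.β_nonneg x i j), abs_of_nonneg (by positivity)]
    linarith
  have h3 : nrm p (fun i => 2 * c.lam j * |c.m j x i - c.M x i (j + 1)|) =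
      2 * c.lam j * nrm p (fun i => c.m j x i - c.M x i (j + 1)) := by
    rw [nrm_const_mul hp, abs_of_nonneg (by positivity)]
    congr 1
    unfold nrm
    simp only [abs_abs]
  have h4 : nrm p (fun i => 2 * c.lam j * c.e j x i) = 2 * c.lam j * nrm p (c.e j x) := by
    rw [nrm_const_mul hp, abs_of_nonneg (by positivity)]
  have h5 := nrm_triangle hp (fun i => c.m j x i) (fun i => f x i) (fun i => c.M x i (j + 1))
  have h6 := nrm_m' c x hj.le
  have h7 := nrm_M_sub hp c x (show j + 1 ≤ c.K from hj)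
  rw [nrm_sub_comm] at h7
  have h8 := nrm_e' c x hj.le
  have h9 : c.lam j * (c.u j x / c.lam j) = c.u j x := by field_simp
  have h10 : c.lam j * (2 * c.u j x / c.lam j) = 2 * c.u j x := by field_simp
  have h11 : c.lam j * mix c.K (fun j => c.g j x) (fun j => c.u j x / c.lam j) (j + 1) =
      c.Q * A c x (j + 1) := by
    unfold A; conv_lhs => rw [c.lam_succ j]
    ring
  calc nrm p (fun i => c.β x i j) ≤ _ := h1
    _ ≤ _ := nrm_add_le hp _ _
    _ = 2 * (c.lam j * nrm p (fun i => c.m j x i - c.M x i (j + 1))) +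
        2 * (c.lam j * nrm p (c.e j x)) := by rw [h3, h4]; ring
    _ ≤ 2 * (c.lam j * (c.u j x / c.lam j +
          mix c.K (fun j => c.g j x) (fun j => c.u j x / c.lam j) (j + 1))) +
        2 * (c.lam j * (2 * c.u j x / c.lam j)) := by
        gcongr
        exact h5.trans (add_le_add h6 h7)
    _ = _ := by rw [mul_add, h9, h10, h11]; ring

/-- number of bad scales from `j` on -/
noncomputable def nb (c : Cfg p f) (x : V) (j : ℕ) : ℕ :=
  ((Ico j c.K).filter fun s => c.g s x ≠ 1).card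

lemma nb_le (c : Cfg p f) (x : V) (j : ℕ) : nb c x j ≤ c.B := by
  refine le_trans (card_le_card ?_) (c.bad_card x)
  intro s hs
  rw [mem_filter, mem_Ico] at hs
  rw [mem_filter, mem_range]
  exact ⟨hs.1.2, hs.2⟩

lemma A_le (c : Cfg p f) (x : V) : ∀ j, j ≤ c.K →
    A c x j ≤ c.Q ^ (nb c x j) * ∑ s ∈ Ico j (c.K + 1), c.u s x := by
  have hQ1 : 1 ≤ c.Q := by linarith [c.hQ]
  refine down_induction ?_ ?_
  · rw [A_last]
    have : nb c x c.K = 0 := by unfold nb; simp
    rw [this, pow_zero, one_mul]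
    have h := sum_nonneg (s := Ico (c.K + 1) (c.K + 1)) (fun s _ => c.u_nonneg s x)
    rw [Finset.sum_Ico_succ_top (le_refl _)]
    simp
  · intro j hj ih
    have hu := c.u_nonneg j x
    have hS : 0 ≤ ∑ s ∈ Ico (j + 1) (c.K + 1), c.u s x := sum_nonneg fun s _ => c.u_nonneg s x
    have hsplit : ∑ s ∈ Ico j (c.K + 1), c.u s x =
        c.u j x + ∑ s ∈ Ico (j + 1) (c.K + 1), c.u s x :=
      sum_eq_sum_Ico_succ_bot (by omega) _
    have hA := A_nonneg c x (show j + 1 ≤ c.K from hj)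
    rw [A_step c x hj, hsplit]
    by_cases hg : c.g j x = 1
    · rw [hg]
      have h1 : 1 ≤ c.Q ^ (nb c x j) := one_le_pow₀ hQ1
      nlinarith
    · have hnb : nb c x j = nb c x (j + 1) + 1 := by
        unfold nb
        rw [← Finset.insert_Ico_add_one_left_eq_Ico hj, filter_insert, if_pos hg,
          card_insert_of_notMem (by simp)]
      rw [hnb]
      have hg0 := c.g_nonneg j x
      have hg1 := c.g_le_one j x
      have h2 : (1 - c.g j x) * (c.Q * A c x (j + 1)) ≤ 1 * (c.Q * A c x (j + 1)) := by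
        apply mul_le_mul_of_nonneg_right (by linarith)
        positivity
      have h3 : c.g j x * c.u j x ≤ 1 * c.u j x := mul_le_mul_of_nonneg_right hg1 hu
      have h4 : c.Q * A c x (j + 1) ≤
          c.Q * (c.Q ^ nb c x (j + 1) * ∑ s ∈ Ico (j + 1) (c.K + 1), c.u s x) := by gcongr
      have h5 : 1 ≤ c.Q ^ (nb c x (j + 1) + 1) := one_le_pow₀ hQ1
      have h6 : c.u j x ≤ c.Q ^ (nb c x (j + 1) + 1) * c.u j x := le_mul_of_one_le_left hu h5
      have h7 : c.Q * (c.Q ^ nb c x (j + 1) * ∑ s ∈ Ico (j + 1) (c.K + 1), c.u s x) =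
          c.Q ^ (nb c x (j + 1) + 1) * ∑ s ∈ Ico (j + 1) (c.K + 1), c.u s x := by
        rw [pow_succ]; ring
      rw [mul_add]
      linarith

lemma R_nonneg (c : Cfg p f) (x : V) : 0 ≤ c.R :=
  (sum_nonneg fun s _ => c.u_nonneg s x).trans (c.u_sum x)

lemma A_le' (c : Cfg p f) (x : V) {j : ℕ} (hj : j ≤ c.K) : A c x j ≤ c.Q ^ c.B * c.R := by
  have hQ1 : 1 ≤ c.Q := by linarith [c.hQ]
  refine (A_le c x j hj).trans ?_
  have h1 : ∑ s ∈ Ico j (c.K + 1), c.u s x ≤ c.R := by
    refine le_trans (sum_le_sum_of_subset_of_nonneg ?_ fun s _ _ => c.u_nonneg s x) (c.u_sum x)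
    intro s hs
    rw [mem_Ico] at hs
    exact mem_range.2 hs.2
  have h2 : c.Q ^ (nb c x j) ≤ c.Q ^ c.B := pow_le_pow_right₀ hQ1 (nb_le c x j)
  exact mul_le_mul h2 h1 (sum_nonneg fun s _ => c.u_nonneg s x) (by positivity)

lemma sum_A (c : Cfg p f) (x : V) :
    ∑ j ∈ Ico 1 (c.K + 1), A c x j ≤ c.R + c.B * (c.Q ^ c.B * c.R) := by
  have hQ : 0 < c.Q := by linarith [c.hQ]
  have hR := R_nonneg c x
  have h1 : ∀ j ∈ Ico 1 (c.K + 1), A c x j ≤ c.u j x +
      if (j < c.K ∧ c.g j x ≠ 1) then c.Q ^ c.B * c.R else 0 := by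
    intro j hj
    rw [mem_Ico] at hj
    by_cases h : j < c.K ∧ c.g j x ≠ 1
    · rw [if_pos h]
      have := A_le' c x h.1.le
      have := c.u_nonneg j x
      linarith
    · rw [if_neg h, add_zero]
      rcases Nat.lt_or_ge j c.K with h2 | h2
      · have h3 : c.g j x = 1 := by
          by_contra h4; exact h ⟨h2, h4⟩
        rw [A_step c x h2, h3]
        linarith
      · have h3 : j = c.K := by omega
        rw [h3, A_last]
  refine (sum_le_sum h1).trans ?_
  rw [sum_add_distrib]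
  refine add_le_add ?_ ?_
  · refine le_trans (sum_le_sum_of_subset_of_nonneg ?_ fun s _ _ => c.u_nonneg s x) (c.u_sum x)
    intro s hs
    rw [mem_Ico] at hs
    exact mem_range.2 hs.2
  · rw [← sum_filter, sum_const, nsmul_eq_mul]
    have h2 : ((((Ico 1 (c.K + 1)).filter fun j => j < c.K ∧ c.g j x ≠ 1).card : ℕ) : ℝ) ≤ c.B := by
      have : ((Ico 1 (c.K + 1)).filter fun j => j < c.K ∧ c.g j x ≠ 1).card ≤ c.B := by
        refine le_trans (card_le_card ?_) (c.bad_card x)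
        intro s hs
        rw [mem_filter] at hs
        rw [mem_filter, mem_range]
        exact hs.2
      exact_mod_cast this
    apply mul_le_mul_of_nonneg_right h2
    positivity

end NormC0Aux

open NormC0Aux

theorem nrm_C0 (hp : 1 ≤ p) (c : Cfg p f) (hε : c.ε ≤ 1) (x : V) :
    nrm p (fun i => c.C x i 0) ≤ 10 * (c.B + 1) * c.Q ^ (c.B + 1) * c.R := by
  have hQ := c.hQ
  have hR := R_nonneg c x
  have h1 : nrm p (fun i => c.C x i 0) ≤ ∑ j ∈ Ico 0 c.K, nrm p (fun i => c.β x i j) := by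
    have : (fun i => c.C x i 0) = fun i => ∑ j ∈ Ico 0 c.K, c.β x i j := rfl
    rw [this]
    exact nrm_sum_le hp _ _
  have h2 : ∑ j ∈ Ico 0 c.K, nrm p (fun i => c.β x i j) ≤
      ∑ j ∈ Ico 0 c.K, (6 * c.u j x + 2 * c.Q * A c x (j + 1)) :=
    sum_le_sum fun j hj => nrm_β hp c hε x (mem_Ico.1 hj).2
  have h3 : ∑ j ∈ Ico 0 c.K, c.u j x ≤ c.R := by
    refine le_trans (sum_le_sum_of_subset_of_nonneg ?_ fun s _ _ => c.u_nonneg s x) (c.u_sum x)
    intro s hs
    rw [mem_Ico] at hs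
    exact mem_range.2 (by omega)
  have h4 : ∑ j ∈ Ico 0 c.K, A c x (j + 1) = ∑ j ∈ Ico 1 (c.K + 1), A c x j := by
    rw [Finset.sum_Ico_add' (fun j => A c x j) 0 c.K 1]
  have h5 := sum_A c x
  have h6 : (1:ℝ) ≤ c.Q ^ c.B := one_le_pow₀ (by linarith)
  have h7 : 0 ≤ c.Q ^ c.B * c.R := by positivity
  have h8 : c.R ≤ c.Q ^ c.B * c.R := le_mul_of_one_le_left hR h6
  have hB : (0:ℝ) ≤ c.B := Nat.cast_nonneg _
  calc nrm p (fun i => c.C x i 0) ≤ _ := h1.trans h2
    _ = 6 * ∑ j ∈ Ico 0 c.K, c.u j x + 2 * c.Q * ∑ j ∈ Ico 0 c.K, A c x (j + 1) := by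
        rw [sum_add_distrib, mul_sum, mul_sum]
    _ ≤ 6 * c.R + 2 * c.Q * (c.R + c.B * (c.Q ^ c.B * c.R)) := by
        rw [h4]; gcongr
    _ ≤ 3 * c.Q * (c.Q ^ c.B * c.R) + 2 * c.Q * (c.Q ^ c.B * c.R +
          c.B * (c.Q ^ c.B * c.R)) := by
        have h9 : 6 * c.R ≤ 3 * c.Q * (c.Q ^ c.B * c.R) := by nlinarith
        gcongr
    _ ≤ 10 * (c.B + 1) * c.Q ^ (c.B + 1) * c.R := by
        rw [pow_succ]
        have h10 : 0 ≤ c.Q * (c.Q ^ c.B * c.R) := by positivity
        nlinarith [mul_nonneg hB h10]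

end

end Vale.Agent.P249
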