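import Vale.Agent.P249.Mix

/-! P249, all distortions: the main scalar lemma. -/

open Finset

namespace Vale.Agent.P249

namespace ScalarMainAux

variable {a : ℕ → ℝ → ℝ} {s : Finset ℕ} {ω : ℝ}

lemma lip_mul (hω : 0 ≤ ω)
    (ha : ∀ C C' : ℝ, 0 < C' → C' ≤ C → ∑ l ∈ s, |a l C - a l C'| ≤ ω * Real.log (C / C'))
    {C C' d r : ℝ} (h0 : 0 ≤ C') (h : C' ≤ C) (hr : 0 ≤ r) (hd : |d| ≤ C' * r) :
    ∑ l ∈ s, |(a l C - a l C') * d| ≤ ω * ((C - C') * r) := by
  rcases h0.eq_or_lt with h0 | h0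
  · have h1 : d = 0 := by
      rw [← h0, zero_mul] at hd
      exact abs_nonpos_iff.mp hd
    simp only [h1, mul_zero, abs_zero, sum_const_zero]
    have : 0 ≤ C - C' := sub_nonneg.mpr h
    positivity
  · have h1 := ha C C' h0 h
    have h2 : Real.log (C / C') ≤ (C - C') / C' := by
      have h3 := Real.log_le_sub_one_of_pos (show 0 < C / C' by
        exact div_pos (lt_of_lt_of_le h0 h) h0)
      have h4 : C / C' - 1 = (C - C') / C' := by field_simp
      rwa [h4] at h3
    have h5 : 0 ≤ (C - C') / C' := div_nonneg (sub_nonneg.mpr h) h0.le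
    simp only [abs_mul]
    rw [← sum_mul]
    calc (∑ l ∈ s, |a l C - a l C'|) * |d| ≤ (ω * ((C - C') / C')) * |d| := by
          apply mul_le_mul_of_nonneg_right _ (abs_nonneg _)
          exact h1.trans (mul_le_mul_of_nonneg_left h2 hω)
      _ ≤ (ω * ((C - C') / C')) * (C' * r) := by
          apply mul_le_mul_of_nonneg_left hd
          positivity
      _ = ω * ((C - C') * r) := by field_simp

/-- symmetrisation at the larger class -/
lemma sym_step (hω : 0 ≤ ω)
    (ha : ∀ C C' : ℝ, 0 < C' → C' ≤ C → ∑ l ∈ s, |a l C - a l C'| ≤ ω * Real.log (C / C'))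
    {C C' d d' lm : ℝ} (hC : 0 ≤ C) (hC' : 0 ≤ C') (hl : 0 < lm) (hd : |d| ≤ C / lm)
    (hd' : |d'| ≤ C' / lm) :
    ∑ l ∈ s, |a l C * d - a l C' * d' - a l (max C C') * (d - d')| ≤ ω * (|C - C'| / lm) := by
  rcases le_total C C' with h | h
  · rw [max_eq_right h]
    have h1 := lip_mul hω ha (C := C') (C' := C) (d := d) (r := 1 / lm) hC h (by positivity)
      (by rw [mul_one_div]; exact hd)
    rw [abs_sub_comm C C', abs_of_nonneg (sub_nonneg.mpr h)]
    refine le_trans (le_of_eq ?_) (h1.trans (le_of_eq (by rw [mul_one_div])))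
    refine sum_congr rfl fun l _ => ?_
    rw [← abs_neg]
    congr 1; ring
  · rw [max_eq_left h]
    have h1 := lip_mul hω ha (C := C) (C' := C') (d := d') (r := 1 / lm) hC' h (by positivity)
      (by rw [mul_one_div]; exact hd')
    rw [abs_of_nonneg (sub_nonneg.mpr h)]
    refine le_trans (le_of_eq ?_) (h1.trans (le_of_eq (by rw [mul_one_div])))
    refine sum_congr rfl fun l _ => ?_
    congr 1; ring

lemma lam_le {lam : ℕ → ℝ} (hlam : ∀ j, 0 < lam j) (hlam2 : ∀ j, 2 * lam (j + 1) ≤ lam j) {i j : ℕ}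
    (h : i ≤ j) : lam j ≤ lam i := by
  induction h with
  | refl => exact le_rfl
  | step _ ih => have := hlam2 ‹_›; have := hlam (‹ℕ› + 1); linarith

lemma geo_sum {lam : ℕ → ℝ} (hlam : ∀ j, 0 < lam j) (hlam2 : ∀ j, 2 * lam (j + 1) ≤ lam j) (κ : ℕ) :
    ∑ j ∈ range κ, lam κ / lam j ≤ 1 := by
  induction κ with
  | zero => simp
  | succ k ih =>
    rw [sum_range_succ]
    have h1 : ∑ j ∈ range k, lam (k + 1) / lam j ≤ 1 / 2 * ∑ j ∈ range k, lam k / lam j := by
      rw [mul_sum]
      refine sum_le_sum fun j _ => ?_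
      rw [div_le_iff₀ (hlam j)]
      have := hlam2 k
      have h3 : 1 / 2 * (lam k / lam j) * lam j = lam k / 2 := by
        have := (hlam j).ne'
        field_simp
      rw [h3]; linarith
    have h2 : lam (k + 1) / lam k ≤ 1 / 2 := by
      rw [div_le_iff₀ (hlam k)]
      have := hlam2 k
      linarith
    linarith

/-- the fine part of one point -/
lemma fine {K κ : ℕ} (hκ : κ < K) (hω : 0 ≤ ω)
    (ha : ∀ C C' : ℝ, 0 < C' → C' ≤ C → ∑ l ∈ s, |a l C - a l C'| ≤ ω * Real.log (C / C'))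
    {lam : ℕ → ℝ} (hlam : ∀ j, 0 < lam j) (hlam2 : ∀ j, 2 * lam (j + 1) ≤ lam j)
    {β P : ℕ → ℝ} (hβ : ∀ j, 0 ≤ β j) (hD : ∀ j, j < K → |P j - P (j + 1)| ≤ β j / lam j)
    {Δ : ℝ} (hΔ : Δ = ∑ j ∈ range κ, β j / lam j) :
    ∑ l ∈ s, |(∑ j ∈ range κ, a l (tail K β j) * (P j - P (j + 1)))
        - a l (tail K β κ + lam κ * Δ) * (P 0 - P κ)| ≤
      ω * (∑ j ∈ range κ, Real.log (lam j / lam κ) * |P j - P (j + 1)| + Δ) := by
  have hΔ0 : 0 ≤ Δ := by
    rw [hΔ]; exact sum_nonneg fun j _ => div_nonneg (hβ j) (hlam j).le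
  have hC0 : 0 ≤ tail K β κ := tail_nonneg hβ κ
  obtain ⟨Cs, hCs⟩ : ∃ Cs, Cs = tail K β κ + lam κ * Δ := ⟨_, rfl⟩
  have hlκ := hlam κ
  have hCs0 : 0 ≤ Cs := by rw [hCs]; positivity
  rw [← hCs]
  -- upper bound on the classes
  have hup : ∀ j, j < κ → tail K β j ≤ lam j / lam κ * Cs := by
    intro j hj
    have h1 : tail K β j = ∑ t ∈ Ico j κ, β t + tail K β κ := by
      unfold tail
      rw [sum_Ico_consecutive _ hj.le hκ.le]
    have h2 : ∑ t ∈ Ico j κ, β t ≤ lam j * Δ := by
      rw [hΔ, mul_sum]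
      calc ∑ t ∈ Ico j κ, β t ≤ ∑ t ∈ Ico j κ, lam j * (β t / lam t) := by
            refine sum_le_sum fun t ht => ?_
            rw [mem_Ico] at ht
            have h3 := lam_le hlam hlam2 ht.1
            have h4 := hβ t
            rw [mul_div_assoc', le_div_iff₀ (hlam t)]
            nlinarith
        _ ≤ ∑ t ∈ range κ, lam j * (β t / lam t) := by
            apply sum_le_sum_of_subset_of_nonneg
            · intro t ht
              rw [mem_Ico] at ht; rw [mem_range]; exact ht.2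
            · intro t _ _
              exact mul_nonneg (hlam j).le (div_nonneg (hβ t) (hlam t).le)
    have h3 : 1 ≤ lam j / lam κ := by
      rw [le_div_iff₀ hlκ, one_mul]; exact lam_le hlam hlam2 hj.le
    have h4 : lam j / lam κ * Cs = lam j / lam κ * tail K β κ + lam j * Δ := by
      rw [hCs]; field_simp
    rw [h1, h4]
    have := mul_le_mul_of_nonneg_right h3 hC0
    linarith
  have hlow : ∀ j, j < κ → tail K β κ ≤ tail K β j := fun j hj => tail_anti hβ hj.le
  have hDC : ∀ j, j < κ → |P j - P (j + 1)| ≤ tail K β j * (1 / lam j) := by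
    intro j hj
    refine (hD j (by omega)).trans ?_
    rw [mul_one_div]
    exact div_le_div_of_nonneg_right (le_tail hβ (by omega)) (hlam j).le
  have hterm : ∀ j ∈ range κ, ∑ l ∈ s, |(a l (tail K β j) - a l Cs) * (P j - P (j + 1))| ≤
      ω * (Real.log (lam j / lam κ) * |P j - P (j + 1)| + lam κ / lam j * Δ) := by
    intro j hj
    rw [mem_range] at hj
    have hlj := hlam j
    have hr1 : 1 ≤ lam j / lam κ := by
      rw [le_div_iff₀ hlκ, one_mul]; exact lam_le hlam hlam2 hj.le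
    have hlog : 0 ≤ Real.log (lam j / lam κ) := Real.log_nonneg hr1
    have hq : 0 ≤ lam κ / lam j * Δ := by positivity
    rcases le_total Cs (tail K β j) with h | h
    · rcases hCs0.eq_or_lt with h0 | h0
      · have h1 := hup j hj
        rw [← h0, mul_zero] at h1
        have h2 := hDC j hj
        have h3 : tail K β j = 0 := le_antisymm h1 (tail_nonneg hβ j)
        rw [h3, zero_mul] at h2
        have h4 : P j - P (j + 1) = 0 := abs_nonpos_iff.mp h2
        simp only [h4, mul_zero, abs_zero, sum_const_zero]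
        positivity
      · have h1 := ha _ _ h0 h
        have h2 : Real.log (tail K β j / Cs) ≤ Real.log (lam j / lam κ) := by
          apply Real.log_le_log (div_pos (lt_of_lt_of_le h0 h) h0)
          rw [div_le_iff₀ h0]
          exact hup j hj
        simp only [abs_mul]
        rw [← sum_mul]
        calc (∑ l ∈ s, |a l (tail K β j) - a l Cs|) * |P j - P (j + 1)|
            ≤ (ω * Real.log (lam j / lam κ)) * |P j - P (j + 1)| := by
              apply mul_le_mul_of_nonneg_right _ (abs_nonneg _)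
              exact h1.trans (mul_le_mul_of_nonneg_left h2 hω)
          _ ≤ ω * (Real.log (lam j / lam κ) * |P j - P (j + 1)| + lam κ / lam j * Δ) := by
              rw [mul_assoc, mul_add]
              have := mul_nonneg hω hq
              linarith
    · have h1 := lip_mul hω ha (tail_nonneg hβ j) h (show 0 ≤ 1 / lam j by positivity) (hDC j hj)
      have h2 : ∑ l ∈ s, |(a l (tail K β j) - a l Cs) * (P j - P (j + 1))| =
          ∑ l ∈ s, |(a l Cs - a l (tail K β j)) * (P j - P (j + 1))| := by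
        refine sum_congr rfl fun l _ => ?_
        rw [← abs_neg]; congr 1; ring
      rw [h2]
      refine h1.trans (mul_le_mul_of_nonneg_left ?_ hω)
      have h3 : Cs - tail K β j ≤ lam κ * Δ := by
        have := hlow j hj
        rw [hCs]; linarith
      have h4 : (Cs - tail K β j) * (1 / lam j) ≤ lam κ / lam j * Δ := by
        calc (Cs - tail K β j) * (1 / lam j) ≤ (lam κ * Δ) * (1 / lam j) :=
              mul_le_mul_of_nonneg_right h3 (by positivity)
          _ = lam κ / lam j * Δ := by ring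
      have h5 : 0 ≤ Real.log (lam j / lam κ) * |P j - P (j + 1)| :=
        mul_nonneg hlog (abs_nonneg _)
      linarith
  calc ∑ l ∈ s, |(∑ j ∈ range κ, a l (tail K β j) * (P j - P (j + 1))) - a l Cs * (P 0 - P κ)|
      = ∑ l ∈ s, |∑ j ∈ range κ, (a l (tail K β j) - a l Cs) * (P j - P (j + 1))| := by
        refine sum_congr rfl fun l _ => ?_
        congr 1
        rw [← sum_range_sub' P κ, mul_sum, ← sum_sub_distrib]
        refine sum_congr rfl fun j _ => ?_
        ring
    _ ≤ ∑ l ∈ s, ∑ j ∈ range κ, |(a l (tail K β j) - a l Cs) * (P j - P (j + 1))| :=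
        sum_le_sum fun l _ => abs_sum_le_sum_abs _ _
    _ = ∑ j ∈ range κ, ∑ l ∈ s, |(a l (tail K β j) - a l Cs) * (P j - P (j + 1))| := sum_comm
    _ ≤ ∑ j ∈ range κ, ω * (Real.log (lam j / lam κ) * |P j - P (j + 1)| + lam κ / lam j * Δ) :=
        sum_le_sum hterm
    _ = ω * (∑ j ∈ range κ, Real.log (lam j / lam κ) * |P j - P (j + 1)| +
          (∑ j ∈ range κ, lam κ / lam j) * Δ) := by
        rw [← mul_sum, sum_add_distrib, sum_mul]
    _ ≤ _ := by
        apply mul_le_mul_of_nonneg_left _ hω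
        have := mul_le_mul_of_nonneg_right (geo_sum hlam hlam2 κ) hΔ0
        linarith

end ScalarMainAux

open ScalarMainAux

theorem tail_sum_le {K κ : ℕ} (lam : ℕ → ℝ) (hlam : ∀ j, 0 < lam j)
    (hlam2 : ∀ j, 2 * lam (j + 1) ≤ lam j) (β β' : ℕ → ℝ) :
    ∑ j ∈ Ico κ K, |tail K β j - tail K β' j| / lam j ≤
      2 * ∑ t ∈ Ico κ K, |β t - β' t| / lam t := by
  have h1 : ∀ j, |tail K β j - tail K β' j| ≤ ∑ t ∈ Ico j K, |β t - β' t| := by
    intro j
    unfold tail
    rw [← sum_sub_distrib]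
    exact abs_sum_le_sum_abs _ _
  calc ∑ j ∈ Ico κ K, |tail K β j - tail K β' j| / lam j
      ≤ ∑ j ∈ Ico κ K, ∑ t ∈ Ico j K, |β t - β' t| / lam j := by
        refine sum_le_sum fun j _ => ?_
        rw [← sum_div]
        exact div_le_div_of_nonneg_right (h1 j) (hlam j).le
    _ = ∑ t ∈ Ico κ K, ∑ j ∈ Ico κ (t + 1), |β t - β' t| / lam j := by
        apply sum_comm'
        intro i j
        simp only [mem_Ico]
        omega
    _ ≤ ∑ t ∈ Ico κ K, 2 * (|β t - β' t| / lam t) := by
        refine sum_le_sum fun t ht => ?_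
        rw [mem_Ico] at ht
        have h2 : ∑ j ∈ Ico κ (t + 1), 1 / lam j ≤ 2 / lam t := by
          have h3 : ∑ j ∈ Ico κ (t + 1), 1 / lam j ≤ ∑ j ∈ range (t + 1), 1 / lam j := by
            apply sum_le_sum_of_subset_of_nonneg
            · intro j hj
              rw [mem_Ico] at hj; rw [mem_range]; exact hj.2
            · intro j _ _
              exact (one_div_pos.mpr (hlam j)).le
          have h4 := geo_sum hlam hlam2 t
          have h5 : ∑ j ∈ range t, 1 / lam j = (∑ j ∈ range t, lam t / lam j) / lam t := by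
            rw [sum_div]
            refine sum_congr rfl fun j _ => ?_
            have := (hlam t).ne'
            field_simp
          rw [sum_range_succ, h5] at h3
          have h6 : (∑ j ∈ range t, lam t / lam j) / lam t ≤ 1 / lam t :=
            div_le_div_of_nonneg_right h4 (hlam t).le
          have h7 : 2 / lam t = 1 / lam t + 1 / lam t := by ring
          linarith
        calc ∑ j ∈ Ico κ (t + 1), |β t - β' t| / lam j
            = |β t - β' t| * ∑ j ∈ Ico κ (t + 1), 1 / lam j := by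
              rw [mul_sum]
              refine sum_congr rfl fun j _ => ?_
              ring
          _ ≤ |β t - β' t| * (2 / lam t) := mul_le_mul_of_nonneg_left h2 (abs_nonneg _)
          _ = _ := by ring
    _ = _ := by rw [mul_sum]

theorem scalar_main {K κ : ℕ} (hκ : κ < K) (a : ℕ → ℝ → ℝ) (s : Finset ℕ) (ω : ℝ) (hω : 0 ≤ ω)
    (ha : ∀ C C' : ℝ, 0 < C' → C' ≤ C → ∑ l ∈ s, |a l C - a l C'| ≤ ω * Real.log (C / C'))
    (lam : ℕ → ℝ) (hlam : ∀ j, 0 < lam j) (hlam2 : ∀ j, 2 * lam (j + 1) ≤ lam j)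
    (β β' P P' : ℕ → ℝ) (hβ : ∀ j, 0 ≤ β j) (hβ' : ∀ j, 0 ≤ β' j)
    (hD : ∀ j, j < K → |P j - P (j + 1)| ≤ β j / lam j)
    (hD' : ∀ j, j < K → |P' j - P' (j + 1)| ≤ β' j / lam j)
    (hPK : P K = P' K) (X : ℝ) (hX : 0 ≤ X)
    (hκδ : |P κ - P' κ| ≤ X * max (tail K β κ) (tail K β' κ))
    (hδ : ∀ j, κ < j → j < K → ∃ Y, |P j - P' j| ≤ Y * min (tail K β j) (tail K β' j)) :
    ∃ Ch : ℝ, ∑ l ∈ s, |(∑ j ∈ range K, a l (tail K β j) * (P j - P (j + 1)))
        - (∑ j ∈ range K, a l (tail K β' j) * (P' j - P' (j + 1))) - a l Ch * (P 0 - P' 0)| ≤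
      ω * (∑ j ∈ Ico κ K, |tail K β j - tail K β' j| / lam j
        + ∑ j ∈ Ico κ K, (Real.log (tail K β j / tail K β (j + 1)) +
            Real.log (tail K β' j / tail K β' (j + 1))) * |P (j + 1) - P' (j + 1)|
        + ∑ j ∈ range κ, Real.log (lam j / lam κ) * (|P j - P (j + 1)| + |P' j - P' (j + 1)|)
        + (2 + X * lam κ) * (∑ j ∈ range κ, β j / lam j + ∑ j ∈ range κ, β' j / lam j)
        + |tail K β κ - tail K β' κ| / lam κ) := by
  obtain ⟨Δ, hΔ⟩ : ∃ Δ, Δ = ∑ j ∈ range κ, β j / lam j := ⟨_, rfl⟩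
  obtain ⟨Δ', hΔ'⟩ : ∃ Δ', Δ' = ∑ j ∈ range κ, β' j / lam j := ⟨_, rfl⟩
  have hΔ0 : 0 ≤ Δ := by
    rw [hΔ]; exact sum_nonneg fun j _ => div_nonneg (hβ j) (hlam j).le
  have hΔ0' : 0 ≤ Δ' := by
    rw [hΔ']; exact sum_nonneg fun j _ => div_nonneg (hβ' j) (hlam j).le
  obtain ⟨C, hC⟩ : ∃ C : ℕ → ℝ, C = fun j => tail K β j := ⟨_, rfl⟩
  obtain ⟨C', hC'⟩ : ∃ C' : ℕ → ℝ, C' = fun j => tail K β' j := ⟨_, rfl⟩
  have hCj : ∀ j, tail K β j = C j := fun j => by rw [hC]
  have hCj' : ∀ j, tail K β' j = C' j := fun j => by rw [hC']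
  have hC0 : ∀ j, 0 ≤ C j := fun j => by rw [← hCj]; exact tail_nonneg hβ j
  have hC0' : ∀ j, 0 ≤ C' j := fun j => by rw [← hCj']; exact tail_nonneg hβ' j
  have hCanti : ∀ j, C (j + 1) ≤ C j := fun j => by
    rw [← hCj, ← hCj]; exact tail_anti hβ (Nat.le_succ j)
  have hCanti' : ∀ j, C' (j + 1) ≤ C' j := fun j => by
    rw [← hCj', ← hCj']; exact tail_anti hβ' (Nat.le_succ j)
  have hfx := fine hκ hω ha hlam hlam2 hβ hD hΔ
  have hfy := fine hκ hω ha hlam hlam2 hβ' hD' hΔ'
  rw [← hΔ, ← hΔ']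
  simp only [hCj, hCj'] at hfx hfy hκδ hδ ⊢
  have hlκ := hlam κ
  obtain ⟨M, hM⟩ : ∃ M : ℕ → ℝ, M = fun j => max (C j) (C' j) := ⟨_, rfl⟩
  have hMj : ∀ j, max (C j) (C' j) = M j := fun j => by rw [hM]
  rw [hMj] at hκδ
  have hM0 : ∀ j, 0 ≤ M j := fun j => by rw [← hMj]; exact (hC0 j).trans (le_max_left _ _)
  obtain ⟨Ch, hCh⟩ : ∃ Ch, Ch = M κ + lam κ * (Δ + Δ') := ⟨_, rfl⟩
  refine ⟨Ch, ?_⟩
  have hPκ : |P 0 - P κ| ≤ Δ := by
    rw [← sum_range_sub' P κ, hΔ]
    refine (abs_sum_le_sum_abs _ _).trans (sum_le_sum fun j hj => hD j ?_)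
    rw [mem_range] at hj; omega
  have hPκ' : |P' 0 - P' κ| ≤ Δ' := by
    rw [← sum_range_sub' P' κ, hΔ']
    refine (abs_sum_le_sum_abs _ _).trans (sum_le_sum fun j hj => hD' j ?_)
    rw [mem_range] at hj; omega
  -- (1)
  have e1 : ∑ l ∈ s, |∑ j ∈ Ico κ K, (a l (C j) * (P j - P (j + 1)) -
      a l (C' j) * (P' j - P' (j + 1)) - a l (M j) * ((P j - P (j + 1)) - (P' j - P' (j + 1))))| ≤
      ω * ∑ j ∈ Ico κ K, |C j - C' j| / lam j := by
    calc _ ≤ ∑ l ∈ s, ∑ j ∈ Ico κ K, |a l (C j) * (P j - P (j + 1)) -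
            a l (C' j) * (P' j - P' (j + 1)) -
            a l (M j) * ((P j - P (j + 1)) - (P' j - P' (j + 1)))| :=
          sum_le_sum fun l _ => abs_sum_le_sum_abs _ _
      _ = ∑ j ∈ Ico κ K, ∑ l ∈ s, |a l (C j) * (P j - P (j + 1)) -
            a l (C' j) * (P' j - P' (j + 1)) -
            a l (M j) * ((P j - P (j + 1)) - (P' j - P' (j + 1)))| :=
          sum_comm
      _ ≤ ∑ j ∈ Ico κ K, ω * (|C j - C' j| / lam j) := by
          refine sum_le_sum fun j hj => ?_
          rw [mem_Ico] at hj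
          rw [← hMj]
          refine sym_step hω ha (hC0 j) (hC0' j) (hlam j) ?_ ?_
          · refine (hD j hj.2).trans (div_le_div_of_nonneg_right ?_ (hlam j).le)
            rw [← hCj]; exact le_tail hβ hj.2
          · refine (hD' j hj.2).trans (div_le_div_of_nonneg_right ?_ (hlam j).le)
            rw [← hCj']; exact le_tail hβ' hj.2
      _ = _ := by rw [mul_sum]
  -- (2)
  have hlogs : ∀ j, C (j + 1) ≤ C j → 0 ≤ C (j + 1) → 0 ≤ Real.log (C j / C (j + 1)) := by
    intro j h1 h2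
    rcases h2.eq_or_lt with h2 | h2
    · rw [← h2, div_zero, Real.log_zero]
    · exact Real.log_nonneg (by rw [le_div_iff₀ h2, one_mul]; exact h1)
  have hlogs' : ∀ j, C' (j + 1) ≤ C' j → 0 ≤ C' (j + 1) → 0 ≤ Real.log (C' j / C' (j + 1)) := by
    intro j h1 h2
    rcases h2.eq_or_lt with h2 | h2
    · rw [← h2, div_zero, Real.log_zero]
    · exact Real.log_nonneg (by rw [le_div_iff₀ h2, one_mul]; exact h1)
  have e2 : ∑ l ∈ s, |∑ j ∈ Ico κ K, (a l (M j) - a l (M (j + 1))) * (P (j + 1) - P' (j + 1))| ≤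
      ω * ∑ j ∈ Ico κ K, (Real.log (C j / C (j + 1)) + Real.log (C' j / C' (j + 1))) *
        |P (j + 1) - P' (j + 1)| := by
    calc _ ≤ ∑ l ∈ s, ∑ j ∈ Ico κ K, |(a l (M j) - a l (M (j + 1))) * (P (j + 1) - P' (j + 1))| :=
          sum_le_sum fun l _ => abs_sum_le_sum_abs _ _
      _ = ∑ j ∈ Ico κ K, ∑ l ∈ s, |(a l (M j) - a l (M (j + 1))) * (P (j + 1) - P' (j + 1))| :=
          sum_comm
      _ ≤ ∑ j ∈ Ico κ K, ω * ((Real.log (C j / C (j + 1)) + Real.log (C' j / C' (j + 1))) *
            |P (j + 1) - P' (j + 1)|) := by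
          refine sum_le_sum fun j hj => ?_
          rw [mem_Ico] at hj
          have hl1 := hlogs j (hCanti j) (hC0 _)
          have hl2 := hlogs' j (hCanti' j) (hC0' _)
          have hz : P (j + 1) - P' (j + 1) = 0 →
              ∑ l ∈ s, |(a l (M j) - a l (M (j + 1))) * (P (j + 1) - P' (j + 1))| ≤
              ω * ((Real.log (C j / C (j + 1)) + Real.log (C' j / C' (j + 1))) *
            |P (j + 1) - P' (j + 1)|) := by
            intro h
            simp only [h, mul_zero, abs_zero, sum_const_zero, le_refl]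
          rcases Nat.lt_or_ge (j + 1) K with h | h
          · obtain ⟨Y, hY⟩ := hδ (j + 1) (by omega) h
            by_cases hmin : min (C (j + 1)) (C' (j + 1)) = 0
            · rw [hmin, mul_zero] at hY
              exact hz (abs_nonpos_iff.mp hY)
            · have hminpos : 0 < min (C (j + 1)) (C' (j + 1)) :=
                lt_of_le_of_ne (le_min (hC0 _) (hC0' _)) (Ne.symm hmin)
              have p1 : 0 < C (j + 1) := lt_of_lt_of_le hminpos (min_le_left _ _)
              have p2 : 0 < C' (j + 1) := lt_of_lt_of_le hminpos (min_le_right _ _)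
              have p3 : 0 < M (j + 1) := by
                rw [← hMj]; exact lt_of_lt_of_le p1 (le_max_left _ _)
              have p4 : M (j + 1) ≤ M j := by
                rw [← hMj, ← hMj]; exact max_le_max (hCanti j) (hCanti' j)
              have h1 := ha _ _ p3 p4
              have h2 : Real.log (M j / M (j + 1)) ≤
                  Real.log (C j / C (j + 1)) + Real.log (C' j / C' (j + 1)) := by
                rcases le_total (C j) (C' j) with hh | hh
                · have h3 : M j / M (j + 1) ≤ C' j / C' (j + 1) := by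
                    rw [← hMj, ← hMj, max_eq_right hh]
                    apply div_le_div_of_nonneg_left (hC0' j) p2 (le_max_right _ _)
                  have h4 := Real.log_le_log (div_pos (lt_of_lt_of_le p3 p4) p3) h3
                  linarith
                · have h3 : M j / M (j + 1) ≤ C j / C (j + 1) := by
                    rw [← hMj, ← hMj, max_eq_left hh]
                    apply div_le_div_of_nonneg_left (hC0 j) p1 (le_max_left _ _)
                  have h4 := Real.log_le_log (div_pos (lt_of_lt_of_le p3 p4) p3) h3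
                  linarith
              simp only [abs_mul]
              rw [← sum_mul, ← mul_assoc]
              exact mul_le_mul_of_nonneg_right (h1.trans (mul_le_mul_of_nonneg_left h2 hω))
                (abs_nonneg _)
          · have : j + 1 = K := by omega
            apply hz
            rw [this, hPK, sub_self]
      _ = _ := by rw [mul_sum]
  -- (4)
  have e5 : ∑ l ∈ s, |(a l Ch - a l (C κ + lam κ * Δ)) * (P 0 - P κ)| ≤
      ω * ((M κ - C κ) / lam κ + Δ') := by
    have hle : C κ + lam κ * Δ ≤ Ch := by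
      rw [hCh, ← hMj]
      have := le_max_left (C κ) (C' κ)
      nlinarith
    have h1 := lip_mul hω ha (d := P 0 - P κ) (r := 1 / lam κ)
      (show 0 ≤ C κ + lam κ * Δ by have := hC0 κ; positivity) hle (by positivity) (by
        refine hPκ.trans ?_
        rw [mul_one_div, le_div_iff₀ hlκ]
        have := hC0 κ
        linarith)
    refine h1.trans (le_of_eq ?_)
    rw [hCh]
    field_simp
    ring
  have e6 : ∑ l ∈ s, |(a l Ch - a l (C' κ + lam κ * Δ')) * (P' 0 - P' κ)| ≤
      ω * ((M κ - C' κ) / lam κ + Δ) := by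
    have hle : C' κ + lam κ * Δ' ≤ Ch := by
      rw [hCh, ← hMj]
      have := le_max_right (C κ) (C' κ)
      nlinarith
    have h1 := lip_mul hω ha (d := P' 0 - P' κ) (r := 1 / lam κ)
      (show 0 ≤ C' κ + lam κ * Δ' by have := hC0' κ; positivity) hle (by positivity) (by
        refine hPκ'.trans ?_
        rw [mul_one_div, le_div_iff₀ hlκ]
        have := hC0' κ
        linarith)
    refine h1.trans (le_of_eq ?_)
    rw [hCh]
    field_simp
    ring
  have e7 : ∑ l ∈ s, |(a l Ch - a l (M κ)) * (P κ - P' κ)| ≤ ω * (X * lam κ * (Δ + Δ')) := by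
    have hle : M κ ≤ Ch := by
      rw [hCh]
      have : 0 ≤ lam κ * (Δ + Δ') := by positivity
      linarith
    have h1 := lip_mul hω ha (d := P κ - P' κ) (r := X) (hM0 κ) hle hX (by
        rw [mul_comm]; exact hκδ)
    refine h1.trans (le_of_eq ?_)
    rw [hCh]
    ring
  have hmm : (M κ - C κ) / lam κ + (M κ - C' κ) / lam κ = |C κ - C' κ| / lam κ := by
    rw [← add_div]
    congr 1
    rw [← hMj]
    rcases le_total (C κ) (C' κ) with h | h
    · rw [max_eq_right h, abs_sub_comm, abs_of_nonneg (sub_nonneg.mpr h)]; ring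
    · rw [max_eq_left h, abs_of_nonneg (sub_nonneg.mpr h)]; ring
  -- decomposition
  have hdec : ∀ l, (∑ j ∈ range K, a l (C j) * (P j - P (j + 1)))
        - (∑ j ∈ range K, a l (C' j) * (P' j - P' (j + 1))) - a l Ch * (P 0 - P' 0) =
      (∑ j ∈ Ico κ K, (a l (C j) * (P j - P (j + 1)) -
      a l (C' j) * (P' j - P' (j + 1)) - a l (M j) * ((P j - P (j + 1)) - (P' j - P' (j + 1)))))
      - (∑ j ∈ Ico κ K, (a l (M j) - a l (M (j + 1))) * (P (j + 1) - P' (j + 1)))
      + ((∑ j ∈ range κ, a l (C j) * (P j - P (j + 1))) - a l (C κ + lam κ * Δ) * (P 0 - P κ))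
      - ((∑ j ∈ range κ, a l (C' j) * (P' j - P' (j + 1))) -
          a l (C' κ + lam κ * Δ') * (P' 0 - P' κ))
      - (a l Ch - a l (C κ + lam κ * Δ)) * (P 0 - P κ)
      + (a l Ch - a l (C' κ + lam κ * Δ')) * (P' 0 - P' κ)
      - (a l Ch - a l (M κ)) * (P κ - P' κ) := by
    intro l
    have h1 : ∑ j ∈ range K, a l (C j) * (P j - P (j + 1)) =
        ∑ j ∈ range κ, a l (C j) * (P j - P (j + 1)) +
        ∑ j ∈ Ico κ K, a l (C j) * (P j - P (j + 1)) :=
      (sum_range_add_sum_Ico _ hκ.le).symm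
    have h2 : ∑ j ∈ range K, a l (C' j) * (P' j - P' (j + 1)) =
        ∑ j ∈ range κ, a l (C' j) * (P' j - P' (j + 1)) +
        ∑ j ∈ Ico κ K, a l (C' j) * (P' j - P' (j + 1)) :=
      (sum_range_add_sum_Ico _ hκ.le).symm
    have h3 : ∑ j ∈ Ico κ K, a l (M j) * ((P j - P (j + 1)) - (P' j - P' (j + 1))) =
        a l (M κ) * (P κ - P' κ) -
        ∑ j ∈ Ico κ K, (a l (M j) - a l (M (j + 1))) * (P (j + 1) - P' (j + 1)) := by
      have h4 : ∑ j ∈ Ico κ K, (a l (M j) * (P j - P' j) -
          a l (M (j + 1)) * (P (j + 1) - P' (j + 1))) =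
          a l (M κ) * (P κ - P' κ) - a l (M K) * (P K - P' K) := by
        have := sum_Ico_sub (fun j => a l (M j) * (P j - P' j)) hκ.le
        rw [← neg_inj, ← sum_neg_distrib]
        calc _ = ∑ j ∈ Ico κ K, (a l (M (j + 1)) * (P (j + 1) - P' (j + 1)) -
              a l (M j) * (P j - P' j)) := sum_congr rfl fun j _ => by ring
          _ = _ := by rw [this]; ring
      rw [hPK, sub_self, mul_zero, sub_zero] at h4
      rw [← h4, ← sum_sub_distrib]
      refine sum_congr rfl fun j _ => ?_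
      ring
    rw [h1, h2, sum_sub_distrib, sum_sub_distrib, h3]
    ring
  have habs : ∀ l, |(∑ j ∈ range K, a l (C j) * (P j - P (j + 1)))
        - (∑ j ∈ range K, a l (C' j) * (P' j - P' (j + 1))) - a l Ch * (P 0 - P' 0)| ≤
      |∑ j ∈ Ico κ K, (a l (C j) * (P j - P (j + 1)) -
      a l (C' j) * (P' j - P' (j + 1)) - a l (M j) * ((P j - P (j + 1)) - (P' j - P' (j + 1))))|
      + |∑ j ∈ Ico κ K, (a l (M j) - a l (M (j + 1))) * (P (j + 1) - P' (j + 1))|
      + |(∑ j ∈ range κ, a l (C j) * (P j - P (j + 1))) - a l (C κ + lam κ * Δ) * (P 0 - P κ)|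
      + |(∑ j ∈ range κ, a l (C' j) * (P' j - P' (j + 1))) -
          a l (C' κ + lam κ * Δ') * (P' 0 - P' κ)|
      + |(a l Ch - a l (C κ + lam κ * Δ)) * (P 0 - P κ)|
      + |(a l Ch - a l (C' κ + lam κ * Δ')) * (P' 0 - P' κ)|
      + |(a l Ch - a l (M κ)) * (P κ - P' κ)| := by
    intro l
    rw [hdec l]
    refine (abs_sub _ _).trans (add_le_add_left ?_ _)
    refine (abs_add_le _ _).trans (add_le_add_left ?_ _)
    refine (abs_sub _ _).trans (add_le_add_left ?_ _)
    refine (abs_sub _ _).trans (add_le_add_left ?_ _)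
    refine (abs_add_le _ _).trans (add_le_add_left ?_ _)
    exact abs_sub _ _
  refine (sum_le_sum fun l _ => habs l).trans ?_
  simp only [sum_add_distrib]
  have hT3 : ∑ j ∈ range κ, Real.log (lam j / lam κ) *
      (|P j - P (j + 1)| + |P' j - P' (j + 1)|) =
      ∑ j ∈ range κ, Real.log (lam j / lam κ) * |P j - P (j + 1)| +
      ∑ j ∈ range κ, Real.log (lam j / lam κ) * |P' j - P' (j + 1)| := by
    rw [← sum_add_distrib]
    exact sum_congr rfl fun j _ => by ring
  rw [hT3, ← hmm]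
  nlinarith [e1, e2, hfx, hfy, e5, e6, e7]

end Vale.Agent.P249
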