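import Vale.Agent.P249.Mix
import Vale.Agent.P249.MixLip
import Vale.Agent.P249.NormC0
import Vale.Agent.P249.ScalarMain

/-! P249, all distortions: the crude estimate for arbitrary pairs. -/

open Finset

namespace Vale.Agent.P249

section

variable {V ι : Type} [Fintype V] [Fintype ι] {p : ℝ} {f : V → ι → ℝ}

namespace CrudeAux

lemma lam_succ_le (c : Cfg p f) (j : ℕ) : c.lam (j + 1) ≤ c.lam j := by
  have h1 := c.lam_succ j
  have h2 := c.lam_pos (j + 1)
  have h3 := c.hQ
  nlinarith

lemma lam_anti (c : Cfg p f) {i j : ℕ} (h : i ≤ j) : c.lam j ≤ c.lam i := by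
  induction j, h using Nat.le_induction with
  | base => exact le_refl _
  | succ j _ ih => exact (lam_succ_le c j).trans ih

lemma lam_two (c : Cfg p f) (j : ℕ) : 2 * c.lam (j + 1) ≤ c.lam j := by
  have h1 := c.lam_succ j
  have h2 := c.lam_pos (j + 1)
  have h3 := c.hQ
  nlinarith

lemma exp_le_lin {a t : ℝ} (h0 : 0 ≤ t) (h1 : t ≤ 1) :
    Real.exp (a * t) - 1 ≤ (Real.exp a - 1) * t := by
  have h := convexOn_exp.2 (Set.mem_univ (0:ℝ)) (Set.mem_univ a) (sub_nonneg.mpr h1) h0
    (by ring)
  simp only [smul_eq_mul, mul_zero, zero_add, Real.exp_zero, mul_one] at h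
  rw [mul_comm a t]
  linarith

lemma exp_two_le : Real.exp 2 - 1 ≤ 7 := by
  have h1 := Real.exp_one_lt_d9
  have h2 : Real.exp 2 = Real.exp 1 * Real.exp 1 := by rw [← Real.exp_add]; norm_num
  have h3 := Real.exp_pos 1
  rw [h2]
  nlinarith

lemma exp_four_le : Real.exp 4 - 1 ≤ 54 := by
  have h1 := Real.exp_one_lt_d9
  have h3 := Real.exp_pos 1
  have h2 : Real.exp 4 = Real.exp 2 * Real.exp 2 := by rw [← Real.exp_add]; norm_num
  have h5 : Real.exp 2 = Real.exp 1 * Real.exp 1 := by rw [← Real.exp_add]; norm_num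
  have h6 : Real.exp 2 ≤ 7.3891 := by rw [h5]; nlinarith
  have h7 := Real.exp_pos 2
  rw [h2]
  nlinarith

/-- one direction of `cfg_mix_lip` -/
lemma one_dir (c : Cfg p f) (hε1 : c.ε * (c.B + 1) ≤ 1) {x y : V} {κ : ℕ}
    (hκ : ∀ j, κ < j → c.lam j * dd p f x y ≤ 1) (i : ι) :
    ∀ j, κ < j → j ≤ c.K →
      |c.M x i j - c.M y i j| ≤ 8 * dd p f x y * c.C x i j ∧
      ∑ t ∈ Ico j c.K, |c.β x i t - c.β y i t| / c.lam t ≤
        200 * dd p f x y * c.C x i j := by
  have hd := dd_nonneg p f x y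
  exact mix_lip (K := c.K) (κ := κ) (lam := c.lam) (g := fun j => c.g j x)
    (g' := fun j => c.g j y) (m := fun j => c.m j x i) (m' := fun j => c.m j y i)
    (e := fun j => c.e j x i) (e' := fun j => c.e j y i) (ρ := dd p f x y) (ε := c.ε) (B := c.B)
    hd c.hε.le hε1 c.lam_pos hκ (fun j => c.g_nonneg j x) (fun j => c.g_le_one j x)
    (fun j => c.g_nonneg j y) (fun j => c.g_le_one j y) (fun j => c.e_nonneg j x i)
    (fun j => c.e_nonneg j y i) (fun j _ hj => c.g_diff j x y hj)
    (by
      intro j hj hjK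
      have h1 := c.m_diff j x y i (by omega) hjK.le
      have h0 : 0 ≤ c.lam j * dd p f x y := mul_nonneg (c.lam_pos j).le hd
      have h2 := exp_le_lin (a := 2) h0 (hκ j hj)
      have h3 := exp_two_le
      refine h1.trans (mul_le_mul_of_nonneg_right ?_ (c.e_nonneg j x i))
      exact h2.trans (mul_le_mul_of_nonneg_right h3 h0))
    (by
      intro j hj hjK
      have h1 := c.e_diff j x y i (by omega) hjK.le
      have h0 : 0 ≤ c.lam j * dd p f x y := mul_nonneg (c.lam_pos j).le hd
      have h2 := exp_le_lin (a := 4) h0 (hκ j hj)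
      have h3 := exp_four_le
      refine h1.trans (mul_le_mul_of_nonneg_right ?_ (c.e_nonneg j x i))
      exact h2.trans (mul_le_mul_of_nonneg_right h3 h0))
    (c.m_last x y i) (c.bad_card y)

/-- `log (C / C') * C' ≤ C - C'` -/
lemma log_mul_le {C C' : ℝ} (h' : 0 ≤ C') (h : C' ≤ C) : Real.log (C / C') * C' ≤ C - C' := by
  rcases h'.eq_or_lt with h0 | h0
  · rw [← h0]; simp; linarith
  · have hC : 0 < C := h0.trans_le h
    have h1 : Real.log (C / C') ≤ C / C' - 1 := Real.log_le_sub_one_of_pos (by positivity)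
    calc Real.log (C / C') * C' ≤ (C / C' - 1) * C' := mul_le_mul_of_nonneg_right h1 h0.le
      _ = C - C' := by field_simp

end CrudeAux

open CrudeAux

theorem exists_kappa (c : Cfg p f) {x y : V} (hxy : x ≠ y) :
    ∃ κ : ℕ, 1 ≤ κ ∧ κ < c.K ∧ 1 ≤ c.lam κ * dd p f x y ∧ c.lam κ * dd p f x y ≤ c.Q ∧
      ∀ j, κ < j → c.lam j * dd p f x y ≤ 1 := by
  classical
  have hd := dd_nonneg p f x y
  have hex : ∃ j, 1 ≤ j ∧ c.lam j * dd p f x y < 1 :=
    ⟨c.K, c.hK.le, c.near x y⟩
  obtain ⟨h1, h2⟩ := Nat.find_spec hex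
  set j0 := Nat.find hex with hj0
  have h3 : j0 ≤ c.K := Nat.find_min' hex ⟨c.hK.le, c.near x y⟩
  have hfar := c.far x y hxy
  have h4 : j0 ≠ 1 := by
    intro h
    rw [h] at h2
    linarith
  have h5 : 1 ≤ c.lam (j0 - 1) * dd p f x y := by
    by_contra hc
    push Not at hc
    exact Nat.find_min hex (m := j0 - 1) (by omega) ⟨by omega, hc⟩
  refine ⟨j0 - 1, by omega, by omega, h5, ?_, ?_⟩
  · have h6 := c.lam_succ (j0 - 1)
    have h7 : j0 - 1 + 1 = j0 := by omega
    rw [h7] at h6
    rw [h6, mul_assoc]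
    have h8 := c.hQ
    nlinarith
  · intro j hj
    have h9 := lam_anti c (show j0 ≤ j by omega)
    exact (mul_le_mul_of_nonneg_right h9 hd).trans h2.le

/-- `mix_lip` for configurations, symmetrised -/
theorem cfg_mix_lip (c : Cfg p f) (hε1 : c.ε * (c.B + 1) ≤ 1) {x y : V} {κ : ℕ}
    (hκ : ∀ j, κ < j → c.lam j * dd p f x y ≤ 1) (i : ι) :
    ∀ j, κ < j → j ≤ c.K →
      |c.M x i j - c.M y i j| ≤ 8 * dd p f x y * min (c.C x i j) (c.C y i j) ∧
      ∑ t ∈ Ico j c.K, |c.β x i t - c.β y i t| / c.lam t ≤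
        200 * dd p f x y * min (c.C x i j) (c.C y i j) := by
  intro j hj hjK
  have h1 := one_dir c hε1 hκ i j hj hjK
  have hκ' : ∀ j, κ < j → c.lam j * dd p f y x ≤ 1 := by
    intro j hj
    rw [dd_comm]
    exact hκ j hj
  have h2 := one_dir c hε1 hκ' i j hj hjK
  rw [dd_comm p f y x] at h2
  rw [abs_sub_comm] at h2
  simp only [abs_sub_comm (c.β y i _)] at h2
  rcases min_choice (c.C x i j) (c.C y i j) with h | h
  · rw [h]; exact h1
  · rw [h]; exact h2

theorem crude_good (hp : 1 ≤ p) (c : Cfg p f) (hε1 : c.ε * (c.B + 1) ≤ 1)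
    {x y : V} (hxy : x ≠ y) :
    c.Good x y (5000 * dd p f x y * ((c.B + 1) * c.Q ^ (c.B + 2) * c.R)) := by
  obtain ⟨κ, hκ1, hκK, hκ2, hκQ, hκ3⟩ := exists_kappa c hxy
  have hd := dd_nonneg p f x y
  set ρ := dd p f x y with hρ
  have hmix := fun i => cfg_mix_lip c hε1 (x := x) (y := y) hκ3 i
  have hQ := c.hQ
  have hlκ := c.lam_pos κ
  -- 1 / lam κ ≤ ρ
  have hinv : ∀ t : ℝ, 0 ≤ t → t / c.lam κ ≤ ρ * t := by
    intro t ht
    rw [div_le_iff₀ hlκ]
    nlinarith
  have hCn := c.C_nonneg
  have hβn := c.β_nonneg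
  have hCanti : ∀ (z : V) (i : ι) {s t : ℕ}, s ≤ t → c.C z i t ≤ c.C z i s :=
    fun z i s t h => tail_anti (c.β_nonneg z i) h
  have hCs : ∀ (z : V) (i : ι) (s : ℕ), s < c.K → c.C z i s = c.β z i s + c.C z i (s + 1) :=
    fun z i s h => tail_succ h
  have hδ : ∀ i j, κ < j → j ≤ c.K →
      |c.M x i j - c.M y i j| ≤ 8 * ρ * min (c.C x i j) (c.C y i j) :=
    fun i j h1 h2 => (hmix i j h1 h2).1
  refine ⟨κ, hκK, 10 * ρ, by positivity, ?_, ?_, ?_⟩
  · intro i
    have h1 := c.M_diff_le x i κ
    have h2 := c.M_diff_le y i κ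
    have h3 := hδ i (κ + 1) (by omega) (by omega)
    have h4 := hinv _ (hβn x i κ)
    have h5 := hinv _ (hβn y i κ)
    have h6 := hCs x i κ hκK
    have h7 := hCs y i κ hκK
    have h8 := hCn x i (κ + 1)
    have h9 := hCn y i (κ + 1)
    have h10 : c.M x i κ - c.M y i κ = (c.M x i κ - c.M x i (κ + 1))
        - (c.M y i κ - c.M y i (κ + 1)) + (c.M x i (κ + 1) - c.M y i (κ + 1)) := by ring
    have h11 : |c.M x i κ - c.M y i κ| ≤ |c.M x i κ - c.M x i (κ + 1)|
        + |c.M y i κ - c.M y i (κ + 1)| + |c.M x i (κ + 1) - c.M y i (κ + 1)| := by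
      rw [h10]
      refine (abs_add_le _ _).trans (add_le_add_left ?_ _)
      exact abs_sub _ _
    have h12 : c.β x i κ ≤ max (c.C x i κ) (c.C y i κ) := le_trans (by linarith) (le_max_left _ _)
    have h13 : c.β y i κ ≤ max (c.C x i κ) (c.C y i κ) := le_trans (by linarith) (le_max_right _ _)
    have h14 : min (c.C x i (κ + 1)) (c.C y i (κ + 1)) ≤ max (c.C x i κ) (c.C y i κ) :=
      (min_le_left _ _).trans ((hCanti x i (Nat.le_succ κ)).trans (le_max_left _ _))
    have h15 := mul_le_mul_of_nonneg_left h12 hd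
    have h16 := mul_le_mul_of_nonneg_left h13 hd
    have h17 := mul_le_mul_of_nonneg_left h14 hd
    linarith
  · intro i j h1 h2
    exact ⟨8 * ρ, hδ i j h1 h2.le⟩
  · -- pointwise bound
    have key : ∀ i, c.E κ (10 * ρ) x y i ≤ 117 * c.Q * ρ * (c.C x i 0 + c.C y i 0) := by
      intro i
      have hs0 : ∀ z : V, ∑ j ∈ range κ, c.β z i j ≤ c.C z i 0 := by
        intro z
        unfold Cfg.C tail
        rw [← Nat.Ico_zero_eq_range]
        exact sum_le_sum_of_subset_of_nonneg (Ico_subset_Ico (le_refl _) hκK.le)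
          (fun j _ _ => hβn z i j)
      have hCκ : ∀ z : V, c.C z i κ ≤ c.C z i 0 := fun z => hCanti z i (Nat.zero_le _)
      have hCκ1 : ∀ z : V, c.C z i (κ + 1) ≤ c.C z i 0 := fun z => hCanti z i (Nat.zero_le _)
      have hβκ : ∀ z : V, c.β z i κ ≤ c.C z i 0 := fun z => by
        have h1 := hCs z i κ hκK
        have h2 := hCn z i (κ + 1)
        have h3 := hCκ z
        linarith
      have hC0x := hCn x i 0
      have hC0y := hCn y i 0
      -- T1
      have hT1 : ∑ j ∈ Ico κ c.K, |c.C x i j - c.C y i j| / c.lam j ≤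
          202 * ρ * (c.C x i 0 + c.C y i 0) := by
        have h1 := tail_sum_le (K := c.K) (κ := κ) c.lam c.lam_pos (lam_two c) (c.β x i) (c.β y i)
        have h2 : ∑ t ∈ Ico κ c.K, |c.β x i t - c.β y i t| / c.lam t =
            |c.β x i κ - c.β y i κ| / c.lam κ
              + ∑ t ∈ Ico (κ + 1) c.K, |c.β x i t - c.β y i t| / c.lam t := by
          rw [← Finset.sum_Ioo_add_eq_sum_Ico hκK, add_comm]
          congr 1
        have h3 := (hmix i (κ + 1) (by omega) (by omega)).2
        have h4 : |c.β x i κ - c.β y i κ| / c.lam κ ≤ ρ * (c.β x i κ + c.β y i κ) := by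
          refine le_trans (div_le_div_of_nonneg_right (abs_sub _ _) hlκ.le) ?_
          rw [abs_of_nonneg (hβn x i κ), abs_of_nonneg (hβn y i κ)]
          exact hinv _ (add_nonneg (hβn x i κ) (hβn y i κ))
        have h5 : min (c.C x i (κ + 1)) (c.C y i (κ + 1)) ≤ (c.C x i 0 + c.C y i 0) / 2 := by
          have h6 := min_le_left (c.C x i (κ + 1)) (c.C y i (κ + 1))
          have h7 := min_le_right (c.C x i (κ + 1)) (c.C y i (κ + 1))
          have h8 := hCκ1 x
          have h9 := hCκ1 y
          linarith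
        have h6 := mul_le_mul_of_nonneg_left h5 hd
        have h7 := mul_le_mul_of_nonneg_left (hβκ x) hd
        have h8 := mul_le_mul_of_nonneg_left (hβκ y) hd
        have h9 : ∑ j ∈ Ico κ c.K, |c.C x i j - c.C y i j| / c.lam j ≤
            2 * ∑ t ∈ Ico κ c.K, |c.β x i t - c.β y i t| / c.lam t := h1
        rw [h2] at h9
        linarith
      -- T2
      have hT2 : ∑ j ∈ Ico κ c.K, (Real.log (c.C x i j / c.C x i (j + 1)) +
          Real.log (c.C y i j / c.C y i (j + 1))) * |c.M x i (j + 1) - c.M y i (j + 1)| ≤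
          8 * ρ * (c.C x i 0 + c.C y i 0) := by
        have h1 : ∀ j ∈ Ico κ c.K, (Real.log (c.C x i j / c.C x i (j + 1)) +
            Real.log (c.C y i j / c.C y i (j + 1))) * |c.M x i (j + 1) - c.M y i (j + 1)| ≤
            8 * ρ * (c.β x i j + c.β y i j) := by
          intro j hj
          rw [mem_Ico] at hj
          have h2 := hδ i (j + 1) (by omega) (by omega)
          have hlog : ∀ z : V, 0 ≤ Real.log (c.C z i j / c.C z i (j + 1)) := by
            intro z
            rcases (hCn z i (j + 1)).eq_or_lt with h0 | h0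
            · rw [← h0]; simp
            · apply Real.log_nonneg
              rw [le_div_iff₀ h0, one_mul]
              exact hCanti z i (Nat.le_succ j)
          have h3 : ∀ z : V, |c.M x i (j + 1) - c.M y i (j + 1)| ≤ 8 * ρ * c.C z i (j + 1) →
              Real.log (c.C z i j / c.C z i (j + 1)) * |c.M x i (j + 1) - c.M y i (j + 1)| ≤
                8 * ρ * c.β z i j := by
            intro z hz
            have h4 := mul_le_mul_of_nonneg_left hz (hlog z)
            have h5 := log_mul_le (hCn z i (j + 1)) (hCanti z i (Nat.le_succ j))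
            have h6 := hCs z i j hj.2
            have h7 := mul_le_mul_of_nonneg_left h5 (show 0 ≤ 8 * ρ by positivity)
            have h8 : 8 * ρ * (c.C z i j - c.C z i (j + 1)) = 8 * ρ * c.β z i j := by
              rw [h6]; ring
            nlinarith
          have h8r : 0 ≤ 8 * ρ := by positivity
          have h4 := h3 x (h2.trans (mul_le_mul_of_nonneg_left (min_le_left _ _) h8r))
          have h5 := h3 y (h2.trans (mul_le_mul_of_nonneg_left (min_le_right _ _) h8r))
          linarith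
        refine (sum_le_sum h1).trans ?_
        rw [← mul_sum, sum_add_distrib]
        refine mul_le_mul_of_nonneg_left (add_le_add (hCκ x) (hCκ y)) (by positivity)
      -- T3
      have hT3 : ∑ j ∈ range κ, Real.log (c.lam j / c.lam κ) *
          (|c.M x i j - c.M x i (j + 1)| + |c.M y i j - c.M y i (j + 1)|) ≤
          ρ * (c.C x i 0 + c.C y i 0) := by
        have h1 : ∀ j ∈ range κ, Real.log (c.lam j / c.lam κ) *
            (|c.M x i j - c.M x i (j + 1)| + |c.M y i j - c.M y i (j + 1)|) ≤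
            ρ * (c.β x i j + c.β y i j) := by
          intro j hj
          rw [mem_range] at hj
          have hlj := c.lam_pos j
          have h2 : Real.log (c.lam j / c.lam κ) ≤ c.lam j / c.lam κ := by
            have := Real.log_le_sub_one_of_pos (show 0 < c.lam j / c.lam κ by positivity)
            linarith
          have h3 := add_le_add (c.M_diff_le x i j) (c.M_diff_le y i j)
          have h4 : 0 ≤ |c.M x i j - c.M x i (j + 1)| + |c.M y i j - c.M y i (j + 1)| := by
            positivity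
          calc _ ≤ c.lam j / c.lam κ *
                (|c.M x i j - c.M x i (j + 1)| + |c.M y i j - c.M y i (j + 1)|) :=
                mul_le_mul_of_nonneg_right h2 h4
            _ ≤ c.lam j / c.lam κ * (c.β x i j / c.lam j + c.β y i j / c.lam j) :=
                mul_le_mul_of_nonneg_left h3 (by positivity)
            _ = (c.β x i j + c.β y i j) / c.lam κ := by field_simp
            _ ≤ _ := hinv _ (add_nonneg (hβn x i j) (hβn y i j))
        refine (sum_le_sum h1).trans ?_
        rw [← mul_sum, sum_add_distrib]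
        exact mul_le_mul_of_nonneg_left (add_le_add (hs0 x) (hs0 y)) hd
      -- T4
      have hT4 : (2 + 10 * ρ * c.lam κ) * (∑ j ∈ range κ, c.β x i j / c.lam j
          + ∑ j ∈ range κ, c.β y i j / c.lam j) ≤
          (2 + 10 * c.Q) * (ρ * (c.C x i 0 + c.C y i 0)) := by
        have h1 : ∀ z : V, ∑ j ∈ range κ, c.β z i j / c.lam j ≤ ρ * c.C z i 0 := by
          intro z
          have h2 : ∀ j ∈ range κ, c.β z i j / c.lam j ≤ ρ * c.β z i j := by
            intro j hj
            rw [mem_range] at hj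
            refine le_trans ?_ (hinv _ (hβn z i j))
            exact div_le_div_of_nonneg_left (hβn z i j) hlκ (lam_anti c hj.le)
          refine (sum_le_sum h2).trans ?_
          rw [← mul_sum]
          exact mul_le_mul_of_nonneg_left (hs0 z) hd
        have h3 := add_le_add (h1 x) (h1 y)
        have h4 : 0 ≤ ∑ j ∈ range κ, c.β x i j / c.lam j
            + ∑ j ∈ range κ, c.β y i j / c.lam j := by
          refine add_nonneg ?_ ?_ <;>
            exact sum_nonneg (fun j _ => div_nonneg (hβn _ i j) (c.lam_pos j).le)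
        have h5 : 2 + 10 * ρ * c.lam κ ≤ 2 + 10 * c.Q := by nlinarith
        calc _ ≤ (2 + 10 * c.Q) * (∑ j ∈ range κ, c.β x i j / c.lam j
              + ∑ j ∈ range κ, c.β y i j / c.lam j) := mul_le_mul_of_nonneg_right h5 h4
          _ ≤ (2 + 10 * c.Q) * (ρ * (c.C x i 0 + c.C y i 0)) := by
              refine mul_le_mul_of_nonneg_left ?_ (by linarith)
              linarith
      -- T5
      have hT5 : |c.C x i κ - c.C y i κ| / c.lam κ ≤ ρ * (c.C x i 0 + c.C y i 0) := by
        refine le_trans (div_le_div_of_nonneg_right (abs_sub _ _) hlκ.le) ?_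
        rw [abs_of_nonneg (hCn x i κ), abs_of_nonneg (hCn y i κ)]
        refine (hinv _ (add_nonneg (hCn x i κ) (hCn y i κ))).trans ?_
        exact mul_le_mul_of_nonneg_left (add_le_add (hCκ x) (hCκ y)) hd
      have hS : 0 ≤ ρ * (c.C x i 0 + c.C y i 0) := mul_nonneg hd (add_nonneg hC0x hC0y)
      have hfin : (214 + 10 * c.Q) * (ρ * (c.C x i 0 + c.C y i 0)) ≤
          117 * c.Q * ρ * (c.C x i 0 + c.C y i 0) := by
        have h1 : 214 + 10 * c.Q ≤ 117 * c.Q := by linarith
        calc _ ≤ 117 * c.Q * (ρ * (c.C x i 0 + c.C y i 0)) := mul_le_mul_of_nonneg_right h1 hS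
          _ = _ := by ring
      unfold Cfg.E
      linarith
    have hE0 : ∀ i, 0 ≤ c.E κ (10 * ρ) x y i := by
      intro i
      have hlog : ∀ (z : V) (j : ℕ), 0 ≤ Real.log (c.C z i j / c.C z i (j + 1)) := by
        intro z j
        rcases (hCn z i (j + 1)).eq_or_lt with h0 | h0
        · rw [← h0]; simp
        · apply Real.log_nonneg
          rw [le_div_iff₀ h0, one_mul]
          exact hCanti z i (Nat.le_succ j)
      unfold Cfg.E
      refine add_nonneg (add_nonneg (add_nonneg (add_nonneg ?_ ?_) ?_) ?_) ?_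
      · exact sum_nonneg (fun j _ => div_nonneg (abs_nonneg _) (c.lam_pos j).le)
      · exact sum_nonneg (fun j _ => mul_nonneg (add_nonneg (hlog x j) (hlog y j)) (abs_nonneg _))
      · refine sum_nonneg (fun j hj => mul_nonneg ?_ (by positivity))
        rw [mem_range] at hj
        apply Real.log_nonneg
        rw [le_div_iff₀ hlκ, one_mul]
        exact lam_anti c hj.le
      · refine mul_nonneg (by positivity) (add_nonneg ?_ ?_) <;>
          exact sum_nonneg (fun j _ => div_nonneg (hβn _ i j) (c.lam_pos j).le)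
      · exact div_nonneg (abs_nonneg _) hlκ.le
    have hε : c.ε ≤ 1 := by
      have h1 : (0:ℝ) ≤ c.B := Nat.cast_nonneg _
      have h2 := c.hε
      nlinarith
    have hx := nrm_C0 hp c hε x
    have hy := nrm_C0 hp c hε y
    have hR : 0 ≤ c.R := le_trans (sum_nonneg (fun j _ => c.u_nonneg j x)) (c.u_sum x)
    have h1 : nrm p (fun i => c.E κ (10 * ρ) x y i) ≤
        nrm p (fun i => 117 * c.Q * ρ * (c.C x i 0 + c.C y i 0)) := by
      apply nrm_mono hp
      intro i
      rw [abs_of_nonneg (hE0 i)]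
      exact (key i).trans (le_abs_self _)
    have h2 : nrm p (fun i => 117 * c.Q * ρ * (c.C x i 0 + c.C y i 0)) =
        117 * c.Q * ρ * nrm p (fun i => c.C x i 0 + c.C y i 0) := by
      rw [nrm_const_mul hp, abs_of_nonneg (by positivity)]
    have h3 := nrm_add_le hp (fun i => c.C x i 0) (fun i => c.C y i 0)
    have h4 : 117 * c.Q * ρ * nrm p (fun i => c.C x i 0 + c.C y i 0) ≤
        117 * c.Q * ρ * (2 * (10 * (c.B + 1) * c.Q ^ (c.B + 1) * c.R)) := by
      refine mul_le_mul_of_nonneg_left ?_ (by positivity)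
      linarith
    have h5 : 117 * c.Q * ρ * (2 * (10 * (c.B + 1) * c.Q ^ (c.B + 1) * c.R)) =
        2340 * (ρ * ((c.B + 1) * c.Q ^ (c.B + 2) * c.R)) := by
      rw [pow_succ c.Q (c.B + 1)]
      ring
    have h6 : 0 ≤ ρ * ((c.B + 1) * c.Q ^ (c.B + 2) * c.R) := by
      have hB : (0:ℝ) ≤ c.B := Nat.cast_nonneg _
      positivity
    calc nrm p (fun i => c.E κ (10 * ρ) x y i) ≤ _ := h1
      _ = _ := h2
      _ ≤ _ := h4
      _ = _ := h5
      _ ≤ 5000 * (ρ * ((c.B + 1) * c.Q ^ (c.B + 2) * c.R)) := by linarith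
      _ = _ := by ring

end

end Vale.Agent.P249
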