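import Vale.Agent.P249.Mix

/-! P249, all distortions: Lipschitz bound for one level. -/

open Finset

namespace Vale.Agent.P249

namespace ScalarLip2Aux

lemma lam_anti {lam : ℕ → ℝ} (hlam : ∀ j, 0 < lam j) (hlam2 : ∀ j, 2 * lam (j + 1) ≤ lam j) :
    Antitone lam := by
  refine antitone_nat_of_succ_le ?_
  intro j
  have h1 := hlam (j + 1)
  have h2 := hlam2 j
  linarith

/-- the fine part of one point -/
lemma fine {K κ : ℕ} (hκ : κ < K) {a : ℝ → ℝ} {Θ Cm ρ : ℝ} (hΘ : 0 ≤ Θ) (hρ : 0 < ρ)
    (ha0 : ∀ C, 0 ≤ a C) (ha1 : ∀ C, a C ≤ 1)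
    (haΘ : ∀ C, 0 < C → C ≤ Cm → a C ≠ 0 → C ≤ Θ)
    {lam : ℕ → ℝ} (hlam : ∀ j, 0 < lam j) (hlam2 : ∀ j, 2 * lam (j + 1) ≤ lam j)
    (hκ1 : 1 ≤ lam κ * ρ) {β P : ℕ → ℝ} (hβ : ∀ j, 0 ≤ β j) (hβm : tail K β 0 ≤ Cm)
    (hD : ∀ j, j < K → |P j - P (j + 1)| ≤ β j / lam j) :
    |∑ j ∈ range (κ + 1), a (tail K β j) * (P j - P (j + 1))| ≤ ρ * Θ := by
  have hanti := lam_anti hlam hlam2
  calc |∑ j ∈ range (κ + 1), a (tail K β j) * (P j - P (j + 1))|
      ≤ ∑ j ∈ range (κ + 1), |a (tail K β j) * (P j - P (j + 1))| := abs_sum_le_sum_abs _ _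
    _ ≤ ∑ j ∈ range (κ + 1), ρ * (a (tail K β j) * β j) := by
        refine sum_le_sum ?_
        intro j hj
        rw [mem_range] at hj
        rw [abs_mul, abs_of_nonneg (ha0 _)]
        have h1 : |P j - P (j + 1)| ≤ ρ * β j := by
          refine (hD j (by omega)).trans ?_
          rw [div_le_iff₀ (hlam j)]
          have h2 : lam κ * ρ ≤ lam j * ρ := mul_le_mul_of_nonneg_right (hanti (by omega)) hρ.le
          have h3 : 1 * β j ≤ lam j * ρ * β j :=
            mul_le_mul_of_nonneg_right (hκ1.trans h2) (hβ j)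
          linarith
        calc a (tail K β j) * |P j - P (j + 1)| ≤ a (tail K β j) * (ρ * β j) :=
              mul_le_mul_of_nonneg_left h1 (ha0 _)
          _ = _ := by ring
    _ ≤ ∑ j ∈ range K, ρ * (a (tail K β j) * β j) := by
        refine sum_le_sum_of_subset_of_nonneg ?_ ?_
        · exact range_subset_range.mpr hκ
        · intro j _ _
          have h1 := ha0 (tail K β j)
          have h2 := hβ j
          positivity
    _ ≤ ρ * Θ := by
        rw [← mul_sum]
        refine mul_le_mul_of_nonneg_left ?_ hρ.le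
        rw [Finset.range_eq_Ico]
        refine weighted hΘ hβ (fun s => ha0 _) (fun s => ha1 _) ?_
        intro s _ _ hne
        rcases eq_or_lt_of_le (tail_nonneg (T := K) hβ s) with h | h
        · rw [← h]; exact hΘ
        · exact haΘ _ h ((tail_anti hβ (Nat.zero_le s)).trans hβm) hne

end ScalarLip2Aux

open ScalarLip2Aux in
theorem scalar_lip2 {K κ : ℕ} (hκ : κ < K) (a : ℝ → ℝ) (Θ Cm ρ ω X : ℝ) (hΘ : 0 ≤ Θ) (hρ : 0 < ρ)
    (hω : 0 ≤ ω) (hX : 0 ≤ X) (ha0 : ∀ C, 0 ≤ a C) (ha1 : ∀ C, a C ≤ 1)
    (haΘ : ∀ C, 0 < C → C ≤ Cm → a C ≠ 0 → C ≤ Θ)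
    (ha : ∀ C C' : ℝ, 0 < C' → C' ≤ C → |a C - a C'| ≤ ω * Real.log (C / C'))
    (lam : ℕ → ℝ) (hlam : ∀ j, 0 < lam j) (hlam2 : ∀ j, 2 * lam (j + 1) ≤ lam j)
    (hκ1 : 1 ≤ lam κ * ρ) (hκ2 : ∀ j, κ < j → lam j * ρ ≤ 1)
    (β β' P P' : ℕ → ℝ) (hβ : ∀ j, 0 ≤ β j) (hβ' : ∀ j, 0 ≤ β' j)
    (hβm : tail K β 0 ≤ Cm) (hβm' : tail K β' 0 ≤ Cm)
    (hD : ∀ j, j < K → |P j - P (j + 1)| ≤ β j / lam j)
    (hD' : ∀ j, j < K → |P' j - P' (j + 1)| ≤ β' j / lam j)
    (hPK : P K = P' K)
    (hP : ∀ j, κ < j → j ≤ K → |P j - P' j| ≤ X * ρ * min (tail K β j) (tail K β' j))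
    (hC : ∀ j, κ < j → j ≤ K →
      |tail K β j - tail K β' j| ≤ X * ρ * lam j * min (tail K β j) (tail K β' j)) :
    |(∑ j ∈ range K, a (tail K β j) * (P j - P (j + 1)))
      - ∑ j ∈ range K, a (tail K β' j) * (P' j - P' (j + 1))| ≤
      (2 + (2 + ω) * X + ω * X * (1 + X)) * ρ * Θ := by
  classical
  have hXρ : 0 ≤ X * ρ := by positivity
  have hC0 : ∀ j, 0 ≤ tail K β j := fun j => tail_nonneg hβ j
  have hC0' : ∀ j, 0 ≤ tail K β' j := fun j => tail_nonneg hβ' j
  have hCm : ∀ j, tail K β j ≤ Cm := fun j => (tail_anti hβ (Nat.zero_le j)).trans hβm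
  have hCm' : ∀ j, tail K β' j ≤ Cm := fun j => (tail_anti hβ' (Nat.zero_le j)).trans hβm'
  have hzero : ∀ j, Θ < tail K β j → a (tail K β j) = 0 := by
    intro j h
    by_contra hne
    have := haΘ _ (lt_of_le_of_lt hΘ h) (hCm j) hne
    linarith
  have hzero' : ∀ j, Θ < tail K β' j → a (tail K β' j) = 0 := by
    intro j h
    by_contra hne
    have := haΘ _ (lt_of_le_of_lt hΘ h) (hCm' j) hne
    linarith
  -- logarithm versus difference
  have hlogd : ∀ C C' : ℝ, 0 < C' → C' ≤ C → |a C - a C'| * C' ≤ ω * (C - C') := by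
    intro C C' h1 h2
    have h0 : 0 < C := lt_of_lt_of_le h1 h2
    have h3 : Real.log (C / C') ≤ C / C' - 1 := Real.log_le_sub_one_of_pos (by positivity)
    have h4 : |a C - a C'| ≤ ω * (C / C' - 1) :=
      (ha C C' h1 h2).trans (mul_le_mul_of_nonneg_left h3 hω)
    calc |a C - a C'| * C' ≤ ω * (C / C' - 1) * C' := mul_le_mul_of_nonneg_right h4 h1.le
      _ = ω * (C - C') := by field_simp
  -- splitting
  have hsplit : (∑ j ∈ range K, a (tail K β j) * (P j - P (j + 1)))
      - ∑ j ∈ range K, a (tail K β' j) * (P' j - P' (j + 1)) =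
      (∑ j ∈ range (κ + 1), a (tail K β j) * (P j - P (j + 1)))
      - (∑ j ∈ range (κ + 1), a (tail K β' j) * (P' j - P' (j + 1)))
      + (∑ j ∈ Ico (κ + 1) K, a (tail K β j) * ((P j - P' j) - (P (j + 1) - P' (j + 1)))
        + ∑ j ∈ Ico (κ + 1) K, (a (tail K β j) - a (tail K β' j)) * (P' j - P' (j + 1))) := by
    have h1 := (Finset.sum_range_add_sum_Ico (fun j => a (tail K β j) * (P j - P (j + 1)))
      (show κ + 1 ≤ K from hκ))
    have h2 := (Finset.sum_range_add_sum_Ico (fun j => a (tail K β' j) * (P' j - P' (j + 1)))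
      (show κ + 1 ≤ K from hκ))
    rw [← h1, ← h2]
    have h3 : ∑ j ∈ Ico (κ + 1) K, a (tail K β j) * (P j - P (j + 1))
        - ∑ j ∈ Ico (κ + 1) K, a (tail K β' j) * (P' j - P' (j + 1)) =
        ∑ j ∈ Ico (κ + 1) K, a (tail K β j) * ((P j - P' j) - (P (j + 1) - P' (j + 1)))
        + ∑ j ∈ Ico (κ + 1) K, (a (tail K β j) - a (tail K β' j)) * (P' j - P' (j + 1)) := by
      rw [← sum_sub_distrib, ← sum_add_distrib]
      refine sum_congr rfl ?_
      intro j _
      ring
    rw [← h3]
    ring
  have hf := fine hκ hΘ hρ ha0 ha1 haΘ hlam hlam2 hκ1 hβ hβm hD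
  have hf' := fine hκ hΘ hρ ha0 ha1 haΘ hlam hlam2 hκ1 hβ' hβm' hD'
  -- first coarse part
  have hfirst : ∀ j, j ≤ K → κ < j →
      |∑ t ∈ Ico j K, a (tail K β t) * ((P t - P' t) - (P (t + 1) - P' (t + 1)))
        - a (tail K β j) * (P j - P' j)| ≤
      X * ρ * Θ * (1 - if tail K β j ≤ Θ then 1 else 0) + ω * X * ρ * min (tail K β j) Θ := by
    refine down_induction ?_ ?_
    · intro _
      rw [Ico_self, sum_empty, hPK, sub_self, mul_zero, sub_self, abs_zero]
      have h1 : 0 ≤ min (tail K β K) Θ := le_min (hC0 K) hΘ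
      have h2 : (0:ℝ) ≤ 1 - if tail K β K ≤ Θ then 1 else 0 := by split_ifs <;> norm_num
      positivity
    · intro j hj ih hκj
      have ih' := ih (by omega)
      have h1 : ∑ t ∈ Ico j K, a (tail K β t) * ((P t - P' t) - (P (t + 1) - P' (t + 1))) =
          a (tail K β j) * ((P j - P' j) - (P (j + 1) - P' (j + 1)))
          + ∑ t ∈ Ico (j + 1) K, a (tail K β t) * ((P t - P' t) - (P (t + 1) - P' (t + 1))) :=
        tail_succ (τ := fun t => a (tail K β t) * ((P t - P' t) - (P (t + 1) - P' (t + 1)))) hj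
      have h2 : ∑ t ∈ Ico j K, a (tail K β t) * ((P t - P' t) - (P (t + 1) - P' (t + 1)))
          - a (tail K β j) * (P j - P' j) =
          (a (tail K β (j + 1)) - a (tail K β j)) * (P (j + 1) - P' (j + 1))
          + (∑ t ∈ Ico (j + 1) K, a (tail K β t) * ((P t - P' t) - (P (t + 1) - P' (t + 1)))
            - a (tail K β (j + 1)) * (P (j + 1) - P' (j + 1))) := by
        rw [h1]; ring
      rw [h2]
      refine (abs_add_le _ _).trans ?_
      -- one step
      have hCC : tail K β (j + 1) ≤ tail K β j := tail_anti hβ (Nat.le_succ j)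
      have hδ : |P (j + 1) - P' (j + 1)| ≤ X * ρ * tail K β (j + 1) :=
        (hP (j + 1) (by omega) (by omega)).trans
          (mul_le_mul_of_nonneg_left (min_le_left _ _) hXρ)
      have hstep : |(a (tail K β (j + 1)) - a (tail K β j)) * (P (j + 1) - P' (j + 1))| ≤
          X * ρ * Θ * ((if tail K β (j + 1) ≤ Θ then 1 else 0) - if tail K β j ≤ Θ then 1 else 0)
          + ω * X * ρ * (min (tail K β j) Θ - min (tail K β (j + 1)) Θ) := by
        by_cases hc1 : tail K β (j + 1) ≤ Θ
        · by_cases hc2 : tail K β j ≤ Θ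
          · rw [if_pos hc1, if_pos hc2, min_eq_left hc1, min_eq_left hc2, sub_self, mul_zero,
              zero_add, abs_mul, abs_sub_comm]
            rcases eq_or_lt_of_le (hC0 (j + 1)) with hz | hz
            · have h3 : |P (j + 1) - P' (j + 1)| = 0 := by
                refine le_antisymm ?_ (abs_nonneg _)
                rw [← hz, mul_zero] at hδ
                exact hδ
              rw [h3, mul_zero]
              have : 0 ≤ tail K β j - tail K β (j + 1) := by linarith
              positivity
            · have h4 := hlogd _ _ hz hCC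
              calc |a (tail K β j) - a (tail K β (j + 1))| * |P (j + 1) - P' (j + 1)|
                  ≤ |a (tail K β j) - a (tail K β (j + 1))| * (X * ρ * tail K β (j + 1)) :=
                    mul_le_mul_of_nonneg_left hδ (abs_nonneg _)
                _ = X * ρ * (|a (tail K β j) - a (tail K β (j + 1))| * tail K β (j + 1)) := by ring
                _ ≤ X * ρ * (ω * (tail K β j - tail K β (j + 1))) :=
                    mul_le_mul_of_nonneg_left h4 hXρ
                _ = _ := by ring
          · rw [if_pos hc1, if_neg hc2, hzero j (not_le.mp hc2), sub_zero, sub_zero, mul_one,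
              min_eq_left hc1, min_eq_right (not_le.mp hc2).le, abs_mul, abs_of_nonneg (ha0 _)]
            have h3 : a (tail K β (j + 1)) * |P (j + 1) - P' (j + 1)| ≤ 1 * (X * ρ * Θ) := by
              refine mul_le_mul (ha1 _) (hδ.trans ?_) (abs_nonneg _) zero_le_one
              exact mul_le_mul_of_nonneg_left hc1 hXρ
            have h4 : 0 ≤ ω * X * ρ * (Θ - tail K β (j + 1)) := by
              have : 0 ≤ Θ - tail K β (j + 1) := by linarith
              positivity
            linarith
        · have hc2 : ¬ tail K β j ≤ Θ := fun h => hc1 (hCC.trans h)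
          rw [if_neg hc1, if_neg hc2, hzero j (not_le.mp hc2), hzero (j + 1) (not_le.mp hc1),
            min_eq_right (not_le.mp hc1).le, min_eq_right (not_le.mp hc2).le]
          simp
      have h5 : X * ρ * Θ * (1 - if tail K β j ≤ Θ then (1:ℝ) else 0)
          + ω * X * ρ * min (tail K β j) Θ =
          (X * ρ * Θ * ((if tail K β (j + 1) ≤ Θ then 1 else 0) - if tail K β j ≤ Θ then 1 else 0)
          + ω * X * ρ * (min (tail K β j) Θ - min (tail K β (j + 1)) Θ))
          + (X * ρ * Θ * (1 - if tail K β (j + 1) ≤ Θ then (1:ℝ) else 0)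
          + ω * X * ρ * min (tail K β (j + 1)) Θ) := by ring
      rw [h5]
      exact add_le_add hstep ih'
  have hA : |∑ t ∈ Ico (κ + 1) K, a (tail K β t) * ((P t - P' t) - (P (t + 1) - P' (t + 1)))| ≤
      (2 + ω) * X * ρ * Θ := by
    have h1 := hfirst (κ + 1) hκ (Nat.lt_succ_self κ)
    have h2 : |a (tail K β (κ + 1)) * (P (κ + 1) - P' (κ + 1))| ≤ X * ρ * Θ := by
      rw [abs_mul, abs_of_nonneg (ha0 _)]
      by_cases hc : tail K β (κ + 1) ≤ Θ
      · have hδ : |P (κ + 1) - P' (κ + 1)| ≤ X * ρ * Θ :=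
          (hP (κ + 1) (Nat.lt_succ_self κ) hκ).trans
            (mul_le_mul_of_nonneg_left ((min_le_left _ _).trans hc) hXρ)
        calc a (tail K β (κ + 1)) * |P (κ + 1) - P' (κ + 1)| ≤ 1 * (X * ρ * Θ) :=
              mul_le_mul (ha1 _) hδ (abs_nonneg _) zero_le_one
          _ = _ := one_mul _
      · rw [hzero _ (not_le.mp hc), zero_mul]
        positivity
    have h3 : X * ρ * Θ * (1 - if tail K β (κ + 1) ≤ Θ then (1:ℝ) else 0) ≤ X * ρ * Θ * 1 := by
      refine mul_le_mul_of_nonneg_left ?_ (by positivity)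
      split_ifs <;> norm_num
    have h4 : ω * X * ρ * min (tail K β (κ + 1)) Θ ≤ ω * X * ρ * Θ :=
      mul_le_mul_of_nonneg_left (min_le_right _ _) (by positivity)
    have h5 := abs_add_le (∑ t ∈ Ico (κ + 1) K,
      a (tail K β t) * ((P t - P' t) - (P (t + 1) - P' (t + 1)))
      - a (tail K β (κ + 1)) * (P (κ + 1) - P' (κ + 1)))
      (a (tail K β (κ + 1)) * (P (κ + 1) - P' (κ + 1)))
    rw [sub_add_cancel] at h5
    calc _ ≤ _ := h5
      _ ≤ (X * ρ * Θ * 1 + ω * X * ρ * Θ) + X * ρ * Θ := by linarith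
      _ = _ := by ring
  -- second coarse part
  have hB : |∑ j ∈ Ico (κ + 1) K, (a (tail K β j) - a (tail K β' j)) * (P' j - P' (j + 1))| ≤
      ω * X * ρ * ((1 + X) * Θ) := by
    set g : ℕ → ℝ := fun j => if a (tail K β j) = a (tail K β' j) then 0 else 1 with hg
    have h4 : ∀ j ∈ Ico (κ + 1) K, |(a (tail K β j) - a (tail K β' j)) * (P' j - P' (j + 1))| ≤
        ω * X * ρ * (g j * β' j) := by
      intro j hj
      rw [mem_Ico] at hj
      by_cases heq : a (tail K β j) = a (tail K β' j)
      · have : g j = 0 := by simp only [hg]; rw [if_pos heq]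
        rw [this, heq]; simp
      · have hg1 : g j = 1 := by simp only [hg]; rw [if_neg heq]
        rw [hg1, one_mul, abs_mul]
        have hl := hlam j
        have hCj := hC j (by omega) hj.2.le
        have hmin0 : 0 ≤ min (tail K β j) (tail K β' j) := le_min (hC0 j) (hC0' j)
        -- both classes are positive
        have hmin : 0 < min (tail K β j) (tail K β' j) := by
          rcases eq_or_lt_of_le hmin0 with h | h
          · exfalso
            rw [← h, mul_zero] at hCj
            have h6 : tail K β j - tail K β' j = 0 := by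
              rw [← abs_nonpos_iff]; exact hCj
            apply heq
            have h7 : tail K β j = tail K β' j := by linarith
            rw [h7]
          · exact h
        have h5 : |a (tail K β j) - a (tail K β' j)| ≤ ω * (X * ρ * lam j) := by
          rcases le_total (tail K β j) (tail K β' j) with hle | hle
          · rw [min_eq_left hle] at hmin hCj
            have h6 := hlogd _ _ hmin hle
            rw [abs_sub_comm] at h6
            have h7 : tail K β' j - tail K β j ≤ X * ρ * lam j * tail K β j := by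
              have := neg_abs_le (tail K β j - tail K β' j); linarith
            have h8 : |a (tail K β j) - a (tail K β' j)| * tail K β j ≤
                ω * (X * ρ * lam j) * tail K β j := by
              refine h6.trans ?_
              have := mul_le_mul_of_nonneg_left h7 hω
              linarith
            exact le_of_mul_le_mul_right h8 hmin
          · rw [min_eq_right hle] at hmin hCj
            have h6 := hlogd _ _ hmin hle
            have h7 : tail K β j - tail K β' j ≤ X * ρ * lam j * tail K β' j :=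
              (le_abs_self _).trans hCj
            have h8 : |a (tail K β j) - a (tail K β' j)| * tail K β' j ≤
                ω * (X * ρ * lam j) * tail K β' j := by
              refine h6.trans ?_
              have := mul_le_mul_of_nonneg_left h7 hω
              linarith
            exact le_of_mul_le_mul_right h8 hmin
        calc |a (tail K β j) - a (tail K β' j)| * |P' j - P' (j + 1)|
            ≤ (ω * (X * ρ * lam j)) * (β' j / lam j) :=
              mul_le_mul h5 (hD' j hj.2) (abs_nonneg _) (by positivity)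
          _ = ω * X * ρ * β' j := by field_simp
    calc _ ≤ ∑ j ∈ Ico (κ + 1) K, |(a (tail K β j) - a (tail K β' j)) * (P' j - P' (j + 1))| :=
          abs_sum_le_sum_abs _ _
      _ ≤ ∑ j ∈ Ico (κ + 1) K, ω * X * ρ * (g j * β' j) := sum_le_sum h4
      _ = ω * X * ρ * ∑ j ∈ Ico (κ + 1) K, g j * β' j := by rw [mul_sum]
      _ ≤ _ := by
          refine mul_le_mul_of_nonneg_left ?_ (by positivity)
          refine weighted (by positivity) hβ' ?_ ?_ ?_
          · intro s; simp only [hg]; split_ifs <;> norm_num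
          · intro s; simp only [hg]; split_ifs <;> norm_num
          · intro s hks hsT hne
            have hne' : a (tail K β s) ≠ a (tail K β' s) := by
              intro h; apply hne; simp only [hg]; rw [if_pos h]
            have hCs := hC s (by omega) hsT.le
            have hmin : min (tail K β s) (tail K β' s) ≤ Θ := by
              by_contra hcon
              push Not at hcon
              apply hne'
              rw [hzero s (lt_of_lt_of_le hcon (min_le_left _ _)),
                hzero' s (lt_of_lt_of_le hcon (min_le_right _ _))]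
            have hmin0 : 0 ≤ min (tail K β s) (tail K β' s) := le_min (hC0 s) (hC0' s)
            have h6 : X * ρ * lam s * min (tail K β s) (tail K β' s) ≤ X * Θ := by
              calc X * ρ * lam s * min (tail K β s) (tail K β' s)
                  = X * (lam s * ρ) * min (tail K β s) (tail K β' s) := by ring
                _ ≤ X * 1 * Θ := by
                    refine mul_le_mul ?_ hmin hmin0 (by positivity)
                    exact mul_le_mul_of_nonneg_left (hκ2 s (by omega)) hX
                _ = X * Θ := by ring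
            have h7 : tail K β' s ≤ min (tail K β s) (tail K β' s)
                + |tail K β s - tail K β' s| := by
              rcases le_total (tail K β s) (tail K β' s) with hle | hle
              · rw [min_eq_left hle]
                have := neg_abs_le (tail K β s - tail K β' s); linarith
              · rw [min_eq_right hle]
                have := abs_nonneg (tail K β s - tail K β' s); linarith
            linarith
  rw [hsplit]
  have h5 := abs_add_le ((∑ j ∈ range (κ + 1), a (tail K β j) * (P j - P (j + 1)))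
      - (∑ j ∈ range (κ + 1), a (tail K β' j) * (P' j - P' (j + 1))))
    (∑ j ∈ Ico (κ + 1) K, a (tail K β j) * ((P j - P' j) - (P (j + 1) - P' (j + 1)))
        + ∑ j ∈ Ico (κ + 1) K, (a (tail K β j) - a (tail K β' j)) * (P' j - P' (j + 1)))
  have h6 := abs_sub (∑ j ∈ range (κ + 1), a (tail K β j) * (P j - P (j + 1)))
    (∑ j ∈ range (κ + 1), a (tail K β' j) * (P' j - P' (j + 1)))
  have h7 := abs_add_le
    (∑ j ∈ Ico (κ + 1) K, a (tail K β j) * ((P j - P' j) - (P (j + 1) - P' (j + 1))))
    (∑ j ∈ Ico (κ + 1) K, (a (tail K β j) - a (tail K β' j)) * (P' j - P' (j + 1)))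
  have h8 : (2 + (2 + ω) * X + ω * X * (1 + X)) * ρ * Θ =
    ρ * Θ + ρ * Θ + ((2 + ω) * X * ρ * Θ + ω * X * ρ * ((1 + X) * Θ)) := by ring
  rw [h8]
  linarith

end Vale.Agent.P249
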