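import Vale.Agent.P249.LevelFn
import Vale.Agent.P249.ScalarMain
import Vale.Agent.P249.ScalarLip2
import Vale.Agent.P249.NormC0
import Vale.Agent.P249.Crude
import Vale.Agent.P249.Clean

/-! P249, all distortions: the level maps of one configuration: energy, Lipschitz bound, support. -/

open Finset MeasureTheory

namespace Vale.Agent.P249

section
variable {V ι : Type} [Fintype V] [Fintype ι] {p : ℝ} {f : V → ι → ℝ}

namespace CfgMainAux

lemma dd_pos (c : Cfg p f) {x y : V} (hxy : x ≠ y) : 0 < dd p f x y := by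
  have h1 := c.far x y hxy
  have h2 := c.lam_pos 1
  by_contra h
  push Not at h
  have h3 : c.lam 1 * dd p f x y ≤ c.lam 1 * 0 := mul_le_mul_of_nonneg_left h h2.le
  linarith

lemma lam_two (c : Cfg p f) (j : ℕ) : 2 * c.lam (j + 1) ≤ c.lam j := by
  rw [c.lam_succ j]
  exact mul_le_mul_of_nonneg_right c.hQ (c.lam_pos _).le

lemma lam_anti (c : Cfg p f) : Antitone c.lam := by
  refine antitone_nat_of_succ_le ?_
  intro j
  have h1 := lam_two c j
  have h2 := c.lam_pos (j + 1)
  linarith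

lemma eps_le_one (c : Cfg p f) (hε1 : c.ε * (c.B + 1) ≤ 1) : c.ε ≤ 1 := by
  have h1 := c.hε
  have h2 : c.ε * 1 ≤ c.ε * ((c.B : ℝ) + 1) := by
    refine mul_le_mul_of_nonneg_left ?_ h1.le
    have : (0:ℝ) ≤ c.B := Nat.cast_nonneg _
    linarith
  linarith

lemma sig_nonneg (c : Cfg p f) (x : V) : 0 ≤ c.sig x :=
  sum_nonneg (fun j _ => c.u_nonneg j x)

lemma R_nonneg (c : Cfg p f) (x : V) : 0 ≤ c.R := (sig_nonneg c x).trans (c.u_sum x)

lemma cst_nonneg (c : Cfg p f) (hU : 0 < c.U) (hUR : c.U ≤ c.R) (x : V) : 0 ≤ c.cst x := by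
  unfold Cfg.cst
  have h1 := sig_nonneg c x
  have hR : 0 < c.R := lt_of_lt_of_le hU hUR
  have hQ := c.hQ
  have h2 : 0 ≤ Real.log c.Q := Real.log_nonneg (by linarith)
  have h3 : 0 ≤ Real.log (c.Q * c.R / c.U) := by
    refine Real.log_nonneg ?_
    rw [le_div_iff₀ hU, one_mul]
    have : 1 * c.R ≤ c.Q * c.R := mul_le_mul_of_nonneg_right (by linarith) hR.le
    linarith
  have h4 := c.hε
  have h5 : (0:ℝ) < c.Q ^ (c.B + 1) := by positivity
  have h6 : 0 ≤ c.U ^ (1 - 1 / p) * c.R ^ (1 / p) := by positivity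
  have h7 : (0:ℝ) ≤ c.N x := Nat.cast_nonneg _
  positivity

lemma cost_nonneg (c : Cfg p f) (hU : 0 < c.U) (hUR : c.U ≤ c.R) (x : V) : 0 ≤ c.cost x := by
  unfold Cfg.cost
  have hR : 0 < c.R := lt_of_lt_of_le hU hUR
  have hQ := c.hQ
  split_ifs
  · exact cst_nonneg c hU hUR x
  · positivity

lemma good (hp : 1 ≤ p) (c : Cfg p f) (hε1 : c.ε * (c.B + 1) ≤ 1)
    (hεQ : c.ε * c.Q ^ (c.B + 1) < 1) (hU : 0 < c.U) (hUR : c.U ≤ c.R) {x y : V} (hxy : x ≠ y) :
    c.Good x y (5000 * dd p f x y * (c.cost x + c.cost y)) := by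
  classical
  have hmono : ∀ Z Z' : ℝ, Z ≤ Z' → c.Good x y Z → c.Good x y Z' := by
    rintro Z Z' h ⟨κ, h1, X, h2, h3, h4, h5⟩
    exact ⟨κ, h1, X, h2, h3, h4, h5.trans h⟩
  have hd := dd_nonneg p f x y
  by_cases hx : c.Clean x
  · by_cases hy : c.Clean y
    · have h := clean_good hp c hε1 hεQ hU hUR hxy hx hy
      have h1 : c.cost x = c.cst x := by unfold Cfg.cost; rw [if_pos hx]
      have h2 : c.cost y = c.cst y := by unfold Cfg.cost; rw [if_pos hy]
      rw [h1, h2]
      exact h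
    · refine hmono _ _ ?_ (crude_good hp c hε1 hxy)
      have h1 : c.cost y = (c.B + 1) * c.Q ^ (c.B + 2) * c.R := by
        unfold Cfg.cost; rw [if_neg hy]
      rw [h1]
      refine mul_le_mul_of_nonneg_left ?_ (by positivity)
      have := cost_nonneg c hU hUR x
      linarith
  · refine hmono _ _ ?_ (crude_good hp c hε1 hxy)
    have h1 : c.cost x = (c.B + 1) * c.Q ^ (c.B + 2) * c.R := by
      unfold Cfg.cost; rw [if_neg hx]
    rw [h1]
    refine mul_le_mul_of_nonneg_left ?_ (by positivity)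
    have := cost_nonneg c hU hUR y
    linarith

/-- comparison of the total energy over levels and coordinates -/
lemma energy_compare (hp : 1 ≤ p) {n : ℕ} (G : ℕ → ι → ℝ) (A : ℕ → ι → ℝ) (F E : ι → ℝ) {ω : ℝ}
    (hω : 0 ≤ ω)
    (hA0 : ∀ l i, 0 ≤ A l i) (hA : ∀ i, ∑ l ∈ range n, A l i ^ p = 1)
    (h : ∀ i, ∑ l ∈ range n, |G l i - A l i * F i| ≤ ω * E i) :
    |(∑ l ∈ range n, nrm p (G l) ^ p) ^ (1 / p) - nrm p F| ≤ ω * nrm p E := by
  have hp0 : 0 < p := by linarith
  have hp1 : 0 ≤ 1 / p := by positivity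
  set g : Fin n × ι → ℝ := fun q => G q.1 q.2 with hg
  set h' : Fin n × ι → ℝ := fun q => A q.1 q.2 * F q.2 with hh
  have h1 : (∑ l ∈ range n, nrm p (G l) ^ p) ^ (1 / p) = nrm p g := by
    unfold nrm
    congr 1
    rw [Fintype.sum_prod_type, ← Fin.sum_univ_eq_sum_range (fun l =>
      ((∑ i, |G l i| ^ p) ^ (1 / p)) ^ p)]
    refine sum_congr rfl ?_
    intro l _
    have h2 : 0 ≤ ∑ i, |G l i| ^ p := sum_nonneg (fun _ _ => by positivity)
    rw [← Real.rpow_mul h2, one_div_mul_cancel hp0.ne', Real.rpow_one]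
  have h2 : nrm p F = nrm p h' := by
    unfold nrm
    congr 1
    rw [Fintype.sum_prod_type_right]
    refine sum_congr rfl ?_
    intro i _
    have h3 : ∀ l : Fin n, |h' (l, i)| ^ p = A l i ^ p * |F i| ^ p := by
      intro l
      simp only [hh]
      rw [abs_mul, abs_of_nonneg (hA0 _ _), Real.mul_rpow (hA0 _ _) (abs_nonneg _)]
    rw [sum_congr rfl (fun l _ => h3 l), ← sum_mul, Fin.sum_univ_eq_sum_range (fun l => A l i ^ p),
      hA, one_mul]
  have h3 : |nrm p g - nrm p h'| ≤ nrm p (fun q => g q - h' q) := by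
    have key : ∀ s s' : Fin n × ι → ℝ, nrm p s - nrm p s' ≤ nrm p (fun q => s q - s' q) := by
      intro s s'
      have h4 := nrm_add_le hp (fun q => s q - s' q) s'
      simp only [sub_add_cancel] at h4
      linarith
    rw [abs_le]
    constructor
    · have h6 := key h' g
      rw [nrm_sub_comm] at h6
      linarith
    · exact key g h'
  have h4 : nrm p (fun q => g q - h' q) ≤ nrm p (fun i => ω * E i) := by
    unfold nrm
    refine Real.rpow_le_rpow (sum_nonneg (fun _ _ => by positivity)) ?_ hp1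
    rw [Fintype.sum_prod_type_right]
    refine sum_le_sum ?_
    intro i _
    have h5 : ∑ l : Fin n, |g (l, i) - h' (l, i)| ≤ ω * E i := by
      have := h i
      rw [← Fin.sum_univ_eq_sum_range (fun l => |G l i - A l i * F i|)] at this
      exact this
    have h6 := LevelFnAux.sum_rpow_le univ (fun l : Fin n => |g (l, i) - h' (l, i)|)
      (fun _ _ => abs_nonneg _) hp
    refine h6.trans ?_
    refine Real.rpow_le_rpow (sum_nonneg (fun _ _ => abs_nonneg _)) ?_ hp0.le
    exact h5.trans (le_abs_self _)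
  rw [h1, h2]
  refine h3.trans (h4.trans ?_)
  rw [nrm_const_mul hp, abs_of_nonneg hω]

end CfgMainAux

open CfgMainAux

theorem cfg_energy (hp : 1 ≤ p) (c : Cfg p f) (hε1 : c.ε * (c.B + 1) ≤ 1)
    (hεQ : c.ε * c.Q ^ (c.B + 1) < 1) (hU : 0 < c.U) (hUR : c.U ≤ c.R) {W : ℝ} (hW : 0 < W)
    {L0 : ℕ} (lv : Lev p W L0) (x y : V) :
    |(∑ l ∈ range (L0 + 2), nrm p (fun i => c.phi lv.a l x i - c.phi lv.a l y i) ^ p) ^ (1 / p)
      - dd p f x y| ≤ 60000 / W * dd p f x y * (c.cost x + c.cost y) := by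
  have hp0 : 0 < p := by linarith
  by_cases hxy : x = y
  · subst hxy
    rw [dd_self hp]
    simp only [sub_self, nrm_zero hp]
    rw [Real.zero_rpow hp0.ne', sum_const_zero, Real.zero_rpow (by positivity)]
    simp
  · obtain ⟨κ, hκ, X, hX, hX1, hX2, hE⟩ := good hp c hε1 hεQ hU hUR hxy
    have hω : 0 ≤ 12 / W := by positivity
    have hsc : ∀ i, ∃ Ch : ℝ, ∑ l ∈ range (L0 + 2),
        |(c.phi lv.a l x i - c.phi lv.a l y i) - lv.a l Ch * (f x i - f y i)| ≤
          12 / W * c.E κ X x y i := by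
      intro i
      obtain ⟨Ch, hCh⟩ := scalar_main hκ lv.a (range (L0 + 2)) (12 / W) hω lv.a_lip c.lam c.lam_pos
        (lam_two c) (c.β x i) (c.β y i) (c.M x i) (c.M y i) (c.β_nonneg x i) (c.β_nonneg y i)
        (fun j _ => c.M_diff_le x i j) (fun j _ => c.M_diff_le y i j) (c.M_last x y i) X hX (hX1 i)
        (hX2 i)
      refine ⟨Ch, ?_⟩
      rw [c.M_zero, c.M_zero] at hCh
      exact hCh
    choose Ch hCh using hsc
    have h := energy_compare hp (n := L0 + 2)
      (fun l i => c.phi lv.a l x i - c.phi lv.a l y i) (fun l i => lv.a l (Ch i))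
      (fun i => f x i - f y i) (fun i => c.E κ X x y i) hω (fun l i => lv.a_nonneg l _)
      (fun i => lv.a_sum (Ch i)) hCh
    refine h.trans ?_
    calc 12 / W * nrm p (fun i => c.E κ X x y i)
        ≤ 12 / W * (5000 * dd p f x y * (c.cost x + c.cost y)) :=
          mul_le_mul_of_nonneg_left hE hω
      _ = 60000 / W * dd p f x y * (c.cost x + c.cost y) := by ring

theorem cfg_lip (hp : 1 ≤ p) (c : Cfg p f) (hε1 : c.ε * (c.B + 1) ≤ 1) {W : ℝ} (hW : 12 ≤ W)
    (hR : 10 * (c.B + 1) * c.Q ^ (c.B + 1) * c.R ≤ Real.exp W)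
    {L0 : ℕ} (lv : Lev p W L0) (l : ℕ) (hl : l ∈ range (L0 + 2)) (x y : V) (i : ι) :
    |c.phi lv.a l x i - c.phi lv.a l y i| ≤
      50000 * dd p f x y * Real.exp (((l : ℝ) + 1 - L0) * W) := by
  by_cases hxy : x = y
  · subst hxy
    rw [dd_self hp, sub_self, abs_zero]
    simp
  · have hρ := dd_pos c hxy
    set ρ := dd p f x y with hρd
    obtain ⟨κ, hκ1, hκ, hκ2, _, hκ3⟩ := exists_kappa c hxy
    have hml := cfg_mix_lip c hε1 hκ3 i
    have hW0 : 0 < W := by linarith
    have hCm : ∀ z, c.C z i 0 ≤ Real.exp W := by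
      intro z
      have h1 := abs_le_nrm hp (fun i => c.C z i 0) i
      have h2 := nrm_C0 hp c (eps_le_one c hε1) z
      exact ((le_abs_self _).trans h1).trans (h2.trans hR)
    have hω1 : 12 / W ≤ 1 := by rw [div_le_one hW0]; exact hW
    have hω0 : 0 ≤ 12 / W := by positivity
    have hal : ∀ C C' : ℝ, 0 < C' → C' ≤ C → |lv.a l C - lv.a l C'| ≤ 12 / W * Real.log (C / C') := by
      intro C C' h1 h2
      refine le_trans ?_ (lv.a_lip C C' h1 h2)
      exact single_le_sum (f := fun l => |lv.a l C - lv.a l C'|) (fun _ _ => abs_nonneg _) hl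
    have hmin0 : ∀ j, 0 ≤ min (c.C x i j) (c.C y i j) := fun j =>
      le_min (c.C_nonneg x i j) (c.C_nonneg y i j)
    have hmain := scalar_lip2 hκ (lv.a l) (Real.exp (((l : ℝ) + 1 - L0) * W)) (Real.exp W) ρ
      (12 / W) 200 (Real.exp_pos _).le hρ hω0 (by norm_num) (lv.a_nonneg l) (lv.a_le_one l)
      (fun C h1 h2 h3 => lv.a_up l C h1 h2 h3) hal c.lam c.lam_pos (lam_two c) hκ2 hκ3
      (c.β x i) (c.β y i) (c.M x i) (c.M y i) (c.β_nonneg x i) (c.β_nonneg y i)
      (hCm x) (hCm y) (fun j _ => c.M_diff_le x i j) (fun j _ => c.M_diff_le y i j)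
      (c.M_last x y i)
      (by
        intro j h1 h2
        refine (hml j h1 h2).1.trans ?_
        refine mul_le_mul_of_nonneg_right ?_ (hmin0 j)
        linarith)
      (by
        intro j h1 h2
        have h3 : |tail c.K (c.β x i) j - tail c.K (c.β y i) j| ≤
            c.lam j * ∑ t ∈ Ico j c.K, |c.β x i t - c.β y i t| / c.lam t := by
          unfold tail
          rw [← sum_sub_distrib, mul_sum]
          refine (abs_sum_le_sum_abs _ _).trans (sum_le_sum ?_)
          intro t ht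
          rw [mem_Ico] at ht
          have h4 := c.lam_pos t
          have h5 := lam_anti c ht.1
          rw [← mul_div_assoc, le_div_iff₀ h4, mul_comm]
          exact mul_le_mul_of_nonneg_right h5 (abs_nonneg _)
        refine h3.trans ?_
        have h4 := mul_le_mul_of_nonneg_left (hml j h1 h2).2 (c.lam_pos j).le
        refine h4.trans (le_of_eq ?_)
        show c.lam j * (200 * ρ * min (c.C x i j) (c.C y i j)) =
          200 * ρ * c.lam j * min (c.C x i j) (c.C y i j)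
        ring)
    have hexp := Real.exp_pos (((l : ℝ) + 1 - L0) * W)
    show |(∑ j ∈ range c.K, lv.a l (tail c.K (c.β x i) j) * (c.M x i j - c.M x i (j + 1)))
      - ∑ j ∈ range c.K, lv.a l (tail c.K (c.β y i) j) * (c.M y i j - c.M y i (j + 1))| ≤ _
    refine hmain.trans ?_
    refine mul_le_mul_of_nonneg_right (mul_le_mul_of_nonneg_right ?_ hρ.le) hexp.le
    nlinarith

theorem cfg_supp (hp : 1 ≤ p) (c : Cfg p f) (hε1 : c.ε * (c.B + 1) ≤ 1) {W : ℝ} (hW : 0 < W)
    {L0 : ℕ} (lv : Lev p W L0) (l : ℕ) (hl : 1 ≤ l) (x : V) :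
    (((univ.filter fun i => c.phi lv.a l x i ≠ 0).card : ℕ) : ℝ) ≤
      (2 * (10 * (c.B + 1) * c.Q ^ (c.B + 1) * c.R) / Real.exp (((l : ℝ) - 1 - L0) * W)) ^ p := by
  classical
  have hp0 : 0 < p := by linarith
  set T := Real.exp (((l : ℝ) - 1 - L0) * W) with hT
  have hTpos : 0 < T := Real.exp_pos _
  have hsub : (univ.filter fun i => c.phi lv.a l x i ≠ 0) ⊆
      univ.filter fun i => T / 2 < |c.C x i 0| := by
    intro i hi
    rw [mem_filter] at hi ⊢
    refine ⟨mem_univ _, ?_⟩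
    have hne := hi.2
    obtain ⟨j, hj, hjne⟩ := exists_ne_zero_of_sum_ne_zero hne
    rw [mem_range] at hj
    have ha : lv.a l (c.C x i j) ≠ 0 := left_ne_zero_of_mul hjne
    have hD : c.M x i j - c.M x i (j + 1) ≠ 0 := right_ne_zero_of_mul hjne
    have hβ : 0 < c.β x i j := by
      have h1 := c.M_diff_le x i j
      have h2 : 0 < |c.M x i j - c.M x i (j + 1)| := abs_pos.mpr hD
      have h3 := c.lam_pos j
      have h4 : 0 < c.β x i j / c.lam j := lt_of_lt_of_le h2 h1
      exact (div_pos_iff_of_pos_right h3).mp h4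
    have hCj : c.β x i j ≤ c.C x i j := le_tail (c.β_nonneg x i) hj
    have hCpos : 0 < c.C x i j := lt_of_lt_of_le hβ hCj
    have h5 := lv.a_low l (c.C x i j) hl hCpos ha
    have h6 : c.C x i j ≤ c.C x i 0 := tail_anti (c.β_nonneg x i) (Nat.zero_le j)
    have h7 : c.C x i 0 ≤ |c.C x i 0| := le_abs_self _
    have h8 : T ≤ c.C x i j := h5
    linarith
  have hcard : (((univ.filter fun i => c.phi lv.a l x i ≠ 0).card : ℕ) : ℝ) ≤
      (((univ.filter fun i => T / 2 < |c.C x i 0|).card : ℕ) : ℝ) := by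
    exact_mod_cast card_le_card hsub
  refine hcard.trans ((nrm_markov hp (v := fun i => c.C x i 0) (by positivity)).trans ?_)
  refine Real.rpow_le_rpow (div_nonneg (nrm_nonneg _) (by positivity)) ?_ hp0.le
  have h1 := nrm_C0 hp c (eps_le_one c hε1) x
  rw [div_le_div_iff₀ (by positivity) hTpos]
  have h2 := mul_le_mul_of_nonneg_right h1 hTpos.le
  calc nrm p (fun i => c.C x i 0) * T ≤ 10 * (c.B + 1) * c.Q ^ (c.B + 1) * c.R * T := h2
    _ = 2 * (10 * (c.B + 1) * c.Q ^ (c.B + 1) * c.R) * (T / 2) := by ring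

end

end Vale.Agent.P249
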