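import Vale.Agent.P249.Smooth

open MeasureTheory Metric Set ProbabilityTheory
open scoped NNReal ENNReal ContDiff

namespace Vale.Agent.P249

variable {E : Type*} [NormedAddCommGroup E] [InnerProductSpace ℝ E] [FiniteDimensional ℝ E]
  [MeasurableSpace E] [BorelSpace E]

/-- exponential moment of a dual vector under the standard Gaussian -/
lemma lintegral_exp_dual (L : StrongDual ℝ E) (t : ℝ) :
    ∫⁻ x, ENNReal.ofReal (Real.exp (t * L x)) ∂(stdGaussian E) =
      ENNReal.ofReal (Real.exp (t ^ 2 * ‖L‖ ^ 2 / 2)) := by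
  have h1 : (stdGaussian E).map L = gaussianReal 0 (‖L‖ ^ 2).toNNReal := by
    rw [IsGaussian.map_eq_gaussianReal L, variance_dual_stdGaussian, integral_strongDual_stdGaussian]
  have h2 : Integrable (fun x => Real.exp (t * x)) (gaussianReal 0 (‖L‖ ^ 2).toNNReal) :=
    integrable_exp_mul_gaussianReal t
  have h3 : ∫ x, Real.exp (t * x) ∂(gaussianReal 0 (‖L‖ ^ 2).toNNReal) =
      Real.exp (t ^ 2 * ‖L‖ ^ 2 / 2) := by
    have := mgf_id_gaussianReal (μ := 0) (v := (‖L‖ ^ 2).toNNReal)
    have h4 := congrFun this t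
    simp only [mgf, id_eq, zero_mul, zero_add] at h4
    rw [h4, Real.coe_toNNReal _ (by positivity)]
    congr 1
    ring
  rw [← h3, ofReal_integral_eq_lintegral_ofReal h2 (Filter.Eventually.of_forall fun _ => (Real.exp_pos _).le),
    ← h1, lintegral_map (by fun_prop) L.continuous.measurable]

lemma jensen_exp (h : ℝ → ℝ) (hc : Continuous h) :
    Real.exp (∫ θ in (0:ℝ)..(Real.pi / 2), h θ) ≤
      (2 / Real.pi) * ∫ θ in (0:ℝ)..(Real.pi / 2), Real.exp (Real.pi / 2 * h θ) := by
  have hpi : 0 < Real.pi / 2 := by positivity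
  have hc1 : Continuous (fun θ => Real.pi / 2 * h θ) := continuous_const.mul hc
  have hi1 : IntegrableOn (fun θ => Real.pi / 2 * h θ) (Ioc (0:ℝ) (Real.pi / 2)) volume :=
    (hc1.intervalIntegrable 0 (Real.pi / 2)).1
  have hc2 : Continuous (fun θ => Real.exp (Real.pi / 2 * h θ)) := Real.continuous_exp.comp hc1
  have hi2 : IntegrableOn (fun θ => Real.exp (Real.pi / 2 * h θ)) (Ioc (0:ℝ) (Real.pi / 2)) volume :=
    (hc2.intervalIntegrable 0 (Real.pi / 2)).1
  have : NeZero (volume.restrict (Ioc (0:ℝ) (Real.pi / 2))) := by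
    constructor
    rw [Ne, Measure.restrict_eq_zero, Real.volume_Ioc]
    simpa using hpi
  have h1 := convexOn_exp.map_average_le (μ := volume.restrict (Ioc (0:ℝ) (Real.pi / 2)))
    (f := fun θ => Real.pi / 2 * h θ) Real.continuous_exp.continuousOn isClosed_univ
    (Filter.Eventually.of_forall fun _ => mem_univ _) hi1 hi2
  rw [average_eq, average_eq] at h1
  simp only [measureReal_restrict_apply MeasurableSet.univ, univ_inter, Real.volume_real_Ioc,
    sub_zero, smul_eq_mul] at h1
  rw [← intervalIntegral.integral_of_le hpi.le, ← intervalIntegral.integral_of_le hpi.le,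
    intervalIntegral.integral_const_mul, max_eq_left hpi.le] at h1
  have e1 : (Real.pi / 2)⁻¹ * (Real.pi / 2 * ∫ θ in (0:ℝ)..(Real.pi / 2), h θ) =
      ∫ θ in (0:ℝ)..(Real.pi / 2), h θ := by
    field_simp
  have e2 : (Real.pi / 2)⁻¹ = 2 / Real.pi := by rw [inv_div]
  rw [e1, e2] at h1
  exact h1

/-- Maurey–Pisier: exponential concentration for smooth Lipschitz functions -/
lemma conc_smooth (F : E → ℝ) (hF : ContDiff ℝ 1 F) (hL : LipschitzWith 1 F) :
    ∫⁻ z, ENNReal.ofReal (Real.exp (F z.2 - F z.1)) ∂((stdGaussian E).prod (stdGaussian E)) ≤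
      ENNReal.ofReal (Real.exp (Real.pi ^ 2 / 8)) := by
  set γ := stdGaussian E
  -- the integrand along the rotation
  obtain ⟨G, hG⟩ : ∃ G : ℝ → E × E → ℝ, G = fun θ z =>
    fderiv ℝ F (ContinuousLinearMap.rotation θ z).1 (ContinuousLinearMap.rotation θ z).2 :=
    ⟨_, rfl⟩
  have hfd : Continuous (fderiv ℝ F) := hF.continuous_fderiv (by norm_num)
  have hrot : Continuous (fun q : ℝ × (E × E) => ContinuousLinearMap.rotation q.1 q.2) := by
    simp only [ContinuousLinearMap.rotation_apply]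
    fun_prop
  have hGc : Continuous (fun q : ℝ × (E × E) => G q.1 q.2) := by
    rw [hG]
    exact (hfd.comp (continuous_fst.comp hrot)).clm_apply (continuous_snd.comp hrot)
  have hpi : 0 < Real.pi / 2 := by positivity
  -- FTC
  have hftc : ∀ z : E × E, ∫ θ in (0:ℝ)..(Real.pi / 2), G θ z = F z.2 - F z.1 := by
    intro z
    have hd : ∀ θ : ℝ, HasDerivAt (fun θ => F (Real.cos θ • z.1 + Real.sin θ • z.2)) (G θ z) θ := by
      intro θ
      have h1 : HasDerivAt (fun θ => Real.cos θ • z.1 + Real.sin θ • z.2)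
          (-Real.sin θ • z.1 + Real.cos θ • z.2) θ :=
        ((Real.hasDerivAt_cos θ).smul_const z.1).add ((Real.hasDerivAt_sin θ).smul_const z.2)
      have h2 := (hF.differentiable (by norm_num)
        (Real.cos θ • z.1 + Real.sin θ • z.2)).hasFDerivAt.comp_hasDerivAt θ h1
      rw [hG]
      exact h2
    have h3 := intervalIntegral.integral_eq_sub_of_hasDerivAt (a := 0) (b := Real.pi / 2)
      (fun θ _ => hd θ) ((hGc.comp (continuous_id.prodMk continuous_const)).intervalIntegrable _ _)
    rw [h3]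
    simp
  -- Jensen
  have hjensen : ∀ z : E × E, Real.exp (F z.2 - F z.1) ≤
      (2 / Real.pi) * ∫ θ in (0:ℝ)..(Real.pi / 2), Real.exp (Real.pi / 2 * G θ z) := by
    intro z
    have hc : Continuous (fun θ => G θ z) := hGc.comp (continuous_id.prodMk continuous_const)
    rw [← hftc z]
    exact jensen_exp _ hc
  -- integrate
  have hmeas : Measurable (fun q : (E × E) × ℝ => ENNReal.ofReal (Real.exp (Real.pi / 2 * G q.2 q.1))) := by
    have : Continuous (fun q : (E × E) × ℝ => Real.exp (Real.pi / 2 * G q.2 q.1)) :=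
      Real.continuous_exp.comp ((hGc.comp (continuous_snd.prodMk continuous_fst)).const_mul _)
    exact this.measurable.ennreal_ofReal
  have hstep : ∀ θ : ℝ, ∫⁻ z, ENNReal.ofReal (Real.exp (Real.pi / 2 * G θ z)) ∂(γ.prod γ) ≤
      ENNReal.ofReal (Real.exp (Real.pi ^ 2 / 8)) := by
    intro θ
    have hrm : Measurable (ContinuousLinearMap.rotation (E := E) θ) :=
      (ContinuousLinearMap.rotation θ).continuous.measurable
    have hmg : Measurable (fun z : E × E => ENNReal.ofReal
        (Real.exp (Real.pi / 2 * fderiv ℝ F z.1 z.2))) := by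
      have : Continuous (fun z : E × E => Real.exp (Real.pi / 2 * fderiv ℝ F z.1 z.2)) :=
        Real.continuous_exp.comp (((hfd.comp continuous_fst).clm_apply continuous_snd).const_mul _)
      exact this.measurable.ennreal_ofReal
    have h1 : ∫⁻ z, ENNReal.ofReal (Real.exp (Real.pi / 2 * G θ z)) ∂(γ.prod γ) =
        ∫⁻ z, ENNReal.ofReal (Real.exp (Real.pi / 2 * fderiv ℝ F z.1 z.2)) ∂(γ.prod γ) := by
      have hmap : (γ.prod γ).map (ContinuousLinearMap.rotation θ) = γ.prod γ :=
        IsGaussian.map_rotation_eq_self (by simp [γ]) θ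
      conv_rhs => rw [← hmap]
      rw [lintegral_map hmg hrm, hG]
    rw [h1, lintegral_prod _ hmg.aemeasurable]
    calc ∫⁻ x, ∫⁻ y, ENNReal.ofReal (Real.exp (Real.pi / 2 * fderiv ℝ F x y)) ∂γ ∂γ
        ≤ ∫⁻ _, ENNReal.ofReal (Real.exp (Real.pi ^ 2 / 8)) ∂γ := by
          apply lintegral_mono
          intro x
          simp only
          rw [lintegral_exp_dual]
          apply ENNReal.ofReal_le_ofReal
          apply Real.exp_le_exp.mpr
          have h2 : ‖fderiv ℝ F x‖ ≤ 1 := by
            have := norm_fderiv_le_of_lipschitz ℝ hL (x₀ := x)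
            simpa using this
          have h3 : ‖fderiv ℝ F x‖ ^ 2 ≤ 1 := pow_le_one₀ (norm_nonneg _) h2
          have h4 : (Real.pi / 2) ^ 2 * ‖fderiv ℝ F x‖ ^ 2 ≤ (Real.pi / 2) ^ 2 * 1 :=
            mul_le_mul_of_nonneg_left h3 (by positivity)
          linarith
      _ = ENNReal.ofReal (Real.exp (Real.pi ^ 2 / 8)) := by simp [γ]
  calc ∫⁻ z, ENNReal.ofReal (Real.exp (F z.2 - F z.1)) ∂(γ.prod γ)
      ≤ ∫⁻ z, ENNReal.ofReal (2 / Real.pi) * (∫⁻ θ in Ioc (0:ℝ) (Real.pi / 2),
          ENNReal.ofReal (Real.exp (Real.pi / 2 * G θ z))) ∂(γ.prod γ) := by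
        apply lintegral_mono
        intro z
        simp only
        refine (ENNReal.ofReal_le_ofReal (hjensen z)).trans (le_of_eq ?_)
        rw [ENNReal.ofReal_mul (by positivity), intervalIntegral.integral_of_le hpi.le,
          ofReal_integral_eq_lintegral_ofReal]
        · have hc : Continuous (fun θ => G θ z) := hGc.comp (continuous_id.prodMk continuous_const)
          exact ((Real.continuous_exp.comp (hc.const_mul _)).intervalIntegrable 0 (Real.pi / 2)).1
        · exact Filter.Eventually.of_forall fun _ => (Real.exp_pos _).le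
    _ = ENNReal.ofReal (2 / Real.pi) * ∫⁻ z, (∫⁻ θ in Ioc (0:ℝ) (Real.pi / 2),
          ENNReal.ofReal (Real.exp (Real.pi / 2 * G θ z))) ∂(γ.prod γ) := by
        rw [lintegral_const_mul' _ _ ENNReal.ofReal_ne_top]
    _ = ENNReal.ofReal (2 / Real.pi) * ∫⁻ θ in Ioc (0:ℝ) (Real.pi / 2), (∫⁻ z,
          ENNReal.ofReal (Real.exp (Real.pi / 2 * G θ z)) ∂(γ.prod γ)) := by
        rw [lintegral_lintegral_swap]
        exact hmeas.aemeasurable
    _ ≤ ENNReal.ofReal (2 / Real.pi) * ∫⁻ _ in Ioc (0:ℝ) (Real.pi / 2),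
          ENNReal.ofReal (Real.exp (Real.pi ^ 2 / 8)) := by
        gcongr with θ
        exact hstep θ
    _ = ENNReal.ofReal (Real.exp (Real.pi ^ 2 / 8)) := by
        rw [setLIntegral_const, Real.volume_Ioc, sub_zero, mul_comm (ENNReal.ofReal (Real.exp _)),
          ← mul_assoc, ← ENNReal.ofReal_mul (by positivity)]
        have : 2 / Real.pi * (Real.pi / 2) = 1 := by field_simp
        rw [this, ENNReal.ofReal_one, one_mul]

/-- exponential concentration for Lipschitz functions -/
lemma conc_lip (F : E → ℝ) (hL : LipschitzWith 1 F) :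
    ∫⁻ z, ENNReal.ofReal (Real.exp (F z.2 - F z.1)) ∂((stdGaussian E).prod (stdGaussian E)) ≤
      ENNReal.ofReal (Real.exp (Real.pi ^ 2 / 8 + 2)) := by
  obtain ⟨g, hg1, hg2, hg3⟩ := exists_smooth_lip F 1 hL 1 one_pos
  calc ∫⁻ z, ENNReal.ofReal (Real.exp (F z.2 - F z.1)) ∂((stdGaussian E).prod (stdGaussian E))
      ≤ ∫⁻ z, ENNReal.ofReal (Real.exp 2) * ENNReal.ofReal (Real.exp (g z.2 - g z.1))
          ∂((stdGaussian E).prod (stdGaussian E)) := by
        apply lintegral_mono
        intro z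
        simp only
        rw [← ENNReal.ofReal_mul (Real.exp_pos _).le, ← Real.exp_add]
        apply ENNReal.ofReal_le_ofReal
        apply Real.exp_le_exp.mpr
        have h1 := abs_le.mp (hg3 z.1)
        have h2 := abs_le.mp (hg3 z.2)
        linarith [h1.1, h1.2, h2.1, h2.2]
    _ = ENNReal.ofReal (Real.exp 2) * ∫⁻ z, ENNReal.ofReal (Real.exp (g z.2 - g z.1))
          ∂((stdGaussian E).prod (stdGaussian E)) := by
        rw [lintegral_const_mul' _ _ ENNReal.ofReal_ne_top]
    _ ≤ ENNReal.ofReal (Real.exp 2) * ENNReal.ofReal (Real.exp (Real.pi ^ 2 / 8)) := by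
        gcongr
        exact conc_smooth g hg1 hg2
    _ = _ := by
        rw [← ENNReal.ofReal_mul (Real.exp_pos _).le, ← Real.exp_add, add_comm]

end Vale.Agent.P249
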