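import Mathlib

open MeasureTheory

namespace Vale.Agent.P249

/-- The finite set `X ⊂ L_p(μ)` admits a map into `ℓ_p^d` with distortion at most `D`:
there are a map `f` and a scale `s > 0` with
`s ‖x - y‖ ≤ ‖f x - f y‖_p ≤ D s ‖x - y‖` for all `x, y ∈ X`, where
`‖v‖_p = (∑ |v_k| ^ p) ^ (1 / p)`. -/
def EmbedsWithDistortion {Ω : Type} [MeasurableSpace Ω] {μ : Measure Ω} (p D : ℝ)
    (X : Finset (Lp ℝ (ENNReal.ofReal p) μ)) (d : ℕ) : Prop :=
  ∃ (f : Lp ℝ (ENNReal.ofReal p) μ → Fin d → ℝ) (s : ℝ), 0 < s ∧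
    ∀ x ∈ X, ∀ y ∈ X,
      s * ‖x - y‖ ≤ (∑ k, |f x k - f y k| ^ p) ^ (1 / p) ∧
      (∑ k, |f x k - f y k| ^ p) ^ (1 / p) ≤ D * s * ‖x - y‖

/-- Dimension `d` suffices for all `n`-point subsets of all `L_p` spaces at distortion `D`. -/
def Suffices (p D : ℝ) (n d : ℕ) : Prop :=
  ∀ (Ω : Type) [MeasurableSpace Ω] (μ : Measure Ω) (X : Finset (Lp ℝ (ENNReal.ofReal p) μ)),
    X.card = n → EmbedsWithDistortion p D X d

/-- `d_p(n, D)`: the least `d` such that every `n`-point subset of every `L_p` space admits a map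
into `ℓ_p^d` with distortion at most `D`. -/
noncomputable def dp (p D : ℝ) (n : ℕ) : ℕ := sInf {d : ℕ | Suffices p D n d}

end Vale.Agent.P249
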