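import Vale.Agent.P249.Sample

/-! P249 piece [L] (helper15): sampling of a finite weighted family. -/

open Finset MeasureTheory

namespace Vale.Agent.P249

theorem kLemma {V Ω : Type} [Fintype V] [Fintype Ω] {p : ℝ} (hp : 1 ≤ p)
    (φ : Ω → V → ℝ) (w b : Ω → ℝ) (hw : ∀ ω, 0 ≤ w ω) (hb : ∀ ω, 0 ≤ b ω)
    (hφ : ∀ ω x y, |φ ω x - φ ω y| ^ p ≤ b ω * ∑ ω', w ω' * |φ ω' x - φ ω' y| ^ p)
    (K δ : ℝ) (hK : 0 < K) (hwb : ∑ ω, w ω * b ω ≤ K) (hδ : 0 < δ) (hδ1 : δ ≤ 1) (M : ℕ)
    (hM : 4 * K / δ ^ 2 * Real.log (2 * (Fintype.card V : ℝ) ^ 2 + 1) ≤ M) :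
    ∃ F : V → Fin M → ℝ, ∀ x y,
      (1 - δ) * ∑ ω, w ω * |φ ω x - φ ω y| ^ p ≤ ∑ k, |F x k - F y k| ^ p ∧
      ∑ k, |F x k - F y k| ^ p ≤ (1 + δ) * ∑ ω, w ω * |φ ω x - φ ω y| ^ p := by
  classical
  have hp0 : 0 < p := by linarith
  set N : V → V → ℝ := fun x y => ∑ ω, w ω * |φ ω x - φ ω y| ^ p with hN
  have hN0 : ∀ x y, 0 ≤ N x y := fun x y =>
    sum_nonneg fun ω _ => mul_nonneg (hw ω) (Real.rpow_nonneg (abs_nonneg _) _)
  set K' : ℝ := ∑ ω, w ω * b ω with hK'
  have hK'0 : 0 ≤ K' := sum_nonneg fun ω _ => mul_nonneg (hw ω) (hb ω)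
  -- pairs at distance zero
  have hzero : ∀ x y, N x y = 0 → ∀ ω, |φ ω x - φ ω y| ^ p = 0 := by
    intro x y h ω
    have h1 := hφ ω x y
    have h2 : ∑ ω', w ω' * |φ ω' x - φ ω' y| ^ p = 0 := h
    rw [h2, mul_zero] at h1
    exact le_antisymm h1 (Real.rpow_nonneg (abs_nonneg _) _)
  rcases hK'0.eq_or_lt with hz | hpos
  · -- all distances vanish
    have hNz : ∀ x y, N x y = 0 := by
      intro x y
      have h1 : N x y ≤ K' * N x y := by
        calc N x y = ∑ ω, w ω * |φ ω x - φ ω y| ^ p := rfl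
          _ ≤ ∑ ω, w ω * (b ω * N x y) :=
              sum_le_sum fun ω _ => mul_le_mul_of_nonneg_left (hφ ω x y) (hw ω)
          _ = K' * N x y := by
              rw [hK', sum_mul]
              refine sum_congr rfl fun ω _ => ?_
              ring
      rw [← hz, zero_mul] at h1
      exact le_antisymm h1 (hN0 x y)
    refine ⟨fun _ _ => 0, fun x y => ?_⟩
    have h1 : ∑ ω, w ω * |φ ω x - φ ω y| ^ p = 0 := hNz x y
    rw [h1]
    simp [Real.zero_rpow hp0.ne']
  · rcases isEmpty_or_nonempty V with hV | hV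
    · exact ⟨fun _ _ => 0, fun x => (hV.false x).elim⟩
    have hn : (1 : ℝ) ≤ Fintype.card V := by exact_mod_cast Fintype.card_pos
    have hM0 : (0 : ℝ) < M := by
      refine lt_of_lt_of_le ?_ hM
      have : 0 < Real.log (2 * (Fintype.card V : ℝ) ^ 2 + 1) := Real.log_pos (by nlinarith)
      positivity
    -- the probability measure
    let _ : MeasurableSpace Ω := ⊤
    have hsum : ∑ ω, ENNReal.ofReal (w ω * b ω / K') = 1 := by
      rw [← ENNReal.ofReal_sum_of_nonneg
        fun ω _ => div_nonneg (mul_nonneg (hw ω) (hb ω)) hpos.le, ← sum_div, ← hK',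
        div_self hpos.ne', ENNReal.ofReal_one]
    set P : PMF Ω := PMF.ofFintype (fun ω => ENNReal.ofReal (w ω * b ω / K')) hsum with hP
    have hPint : ∀ g : Ω → ℝ, ∫ ω, g ω ∂P.toMeasure = ∑ ω, w ω * b ω / K' * g ω := by
      intro g
      rw [PMF.integral_eq_sum]
      refine sum_congr rfl fun ω _ => ?_
      rw [hP, PMF.ofFintype_apply, ENNReal.toReal_ofReal
        (div_nonneg (mul_nonneg (hw ω) (hb ω)) hpos.le), smul_eq_mul]
    set J : Type := {q : V × V // N q.1 q.2 ≠ 0} with hJ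
    let Z : J → Ω → ℝ := fun q ω =>
      K' * |φ ω q.1.1 - φ ω q.1.2| ^ p / (b ω * N q.1.1 q.1.2)
    have hNpos : ∀ q : J, 0 < N q.1.1 q.1.2 := fun q =>
      lt_of_le_of_ne (hN0 _ _) (Ne.symm q.2)
    have hZ0 : ∀ q ω, 0 ≤ Z q ω := fun q ω =>
      div_nonneg (mul_nonneg hpos.le (Real.rpow_nonneg (abs_nonneg _) _))
        (mul_nonneg (hb ω) (hN0 _ _))
    have hZ1 : ∀ q ω, Z q ω ≤ K := by
      intro q ω
      refine le_trans ?_ hwb
      rcases (hb ω).eq_or_lt with h0 | h0
      · simp only [Z]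
        rw [← h0, zero_mul, div_zero]
        exact hpos.le
      · simp only [Z]
        rw [div_le_iff₀ (mul_pos h0 (hNpos q))]
        exact mul_le_mul_of_nonneg_left (hφ ω _ _) hpos.le
    have hmean : ∀ q, ∫ ω, Z q ω ∂P.toMeasure = 1 := by
      intro q
      rw [hPint]
      have h1 : ∀ ω, w ω * b ω / K' * Z q ω =
          w ω * |φ ω q.1.1 - φ ω q.1.2| ^ p / N q.1.1 q.1.2 := by
        intro ω
        simp only [Z]
        rcases (hb ω).eq_or_lt with h0 | h0
        · have h2 := hφ ω q.1.1 q.1.2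
          rw [← h0, zero_mul] at h2
          have h3 : |φ ω q.1.1 - φ ω q.1.2| ^ p = 0 :=
            le_antisymm h2 (Real.rpow_nonneg (abs_nonneg _) _)
          rw [h3]
          simp
        · have := (hNpos q).ne'
          have := hpos.ne'
          field_simp
      simp only [h1]
      rw [← sum_div]
      exact div_self (hNpos q).ne'
    have hcardJ : (Fintype.card J : ℝ) ≤ (Fintype.card V : ℝ) ^ 2 := by
      have h1 : Fintype.card J ≤ Fintype.card (V × V) := Fintype.card_subtype_le _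
      rw [Fintype.card_prod] at h1
      calc (Fintype.card J : ℝ) ≤ ((Fintype.card V * Fintype.card V : ℕ) : ℝ) := by
            exact_mod_cast h1
        _ = (Fintype.card V : ℝ) ^ 2 := by push_cast; ring
    have hNM : 4 * K / δ ^ 2 * Real.log (2 * Fintype.card J + 1) ≤ M := by
      refine le_trans ?_ hM
      refine mul_le_mul_of_nonneg_left ?_ (by positivity)
      refine Real.log_le_log (by positivity) ?_
      linarith
    obtain ⟨v, hv⟩ := sampling P.toMeasure Z (fun _ => measurable_from_top) K hK hZ0 hZ1 hmean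
      δ hδ hδ1 M hNM
    refine ⟨fun x k => φ (v k) x * (K' / (M * b (v k))) ^ (1 / p), fun x y => ?_⟩
    -- the sampled sum
    have hterm : ∀ k, |φ (v k) x * (K' / (M * b (v k))) ^ (1 / p) -
        φ (v k) y * (K' / (M * b (v k))) ^ (1 / p)| ^ p =
        |φ (v k) x - φ (v k) y| ^ p * (K' / (M * b (v k))) := by
      intro k
      have hc : 0 ≤ K' / (M * b (v k)) :=
        div_nonneg hpos.le (mul_nonneg hM0.le (hb _))
      rw [← sub_mul, abs_mul, Real.mul_rpow (abs_nonneg _) (abs_nonneg _),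
        abs_of_nonneg (Real.rpow_nonneg hc _), ← Real.rpow_mul hc, one_div_mul_cancel hp0.ne',
        Real.rpow_one]
    simp only [hterm]
    by_cases hxy : N x y = 0
    · have h1 : ∑ ω, w ω * |φ ω x - φ ω y| ^ p = 0 := hxy
      rw [h1]
      have h2 : ∑ k, |φ (v k) x - φ (v k) y| ^ p * (K' / (M * b (v k))) = 0 :=
        sum_eq_zero fun k _ => by rw [hzero x y hxy, zero_mul]
      rw [h2]
      simp
    · have hNxy : 0 < N x y := lt_of_le_of_ne (hN0 _ _) (Ne.symm hxy)
      have h1 := hv ⟨(x, y), hxy⟩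
      have h2 : ∑ k, |φ (v k) x - φ (v k) y| ^ p * (K' / (M * b (v k))) =
          N x y / M * ∑ k, Z ⟨(x, y), hxy⟩ (v k) := by
        rw [mul_sum]
        refine sum_congr rfl fun k _ => ?_
        simp only [Z]
        rcases (hb (v k)).eq_or_lt with h0 | h0
        · rw [← h0]
          simp
        · have := hNxy.ne'
          have := hM0.ne'
          field_simp
      have h3 : ∑ ω, w ω * |φ ω x - φ ω y| ^ p = N x y := rfl
      rw [h2, h3]
      obtain ⟨h4, h5⟩ := abs_le.1 h1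
      have h6 : 0 < N x y / M := div_pos hNxy hM0
      have h7 : N x y / M * M = N x y := div_mul_cancel₀ _ hM0.ne'
      constructor
      · calc (1 - δ) * N x y = N x y / M * ((1 - δ) * M) := by
              rw [mul_left_comm, h7]
          _ ≤ N x y / M * ∑ k, Z ⟨(x, y), hxy⟩ (v k) := by
              refine mul_le_mul_of_nonneg_left ?_ h6.le
              linarith
      · calc N x y / M * ∑ k, Z ⟨(x, y), hxy⟩ (v k) ≤ N x y / M * ((1 + δ) * M) := by
              refine mul_le_mul_of_nonneg_left ?_ h6.le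
              linarith
          _ = (1 + δ) * N x y := by rw [mul_left_comm, h7]

end Vale.Agent.P249
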