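import Mathlib

/-!
# P249: random max-merging of sparse coordinates
-/

open Finset

namespace Vale.Agent.P249

namespace MergeAux

/-- maximum of a nonnegative family over a finite set (zero for the empty set) -/
noncomputable def fmx {ι : Type} (A : Finset ι) (v : ι → ℝ) : ℝ := A.fold max 0 v

section
variable {ι : Type}

lemma fmx_nonneg (A : Finset ι) (v : ι → ℝ) : 0 ≤ fmx A v :=
  (Finset.le_fold_max _).2 (Or.inl le_rfl)

lemma le_fmx {A : Finset ι} {v : ι → ℝ} {i : ι} (hi : i ∈ A) : v i ≤ fmx A v :=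
  (Finset.le_fold_max _).2 (Or.inr ⟨i, hi, le_rfl⟩)

lemma fmx_le {A : Finset ι} {v : ι → ℝ} {c : ℝ} (hc : 0 ≤ c) (h : ∀ i ∈ A, v i ≤ c) :
    fmx A v ≤ c := (Finset.fold_max_le _).2 ⟨hc, h⟩

lemma fmx_sub_le (A : Finset ι) (v w : ι → ℝ) {c : ℝ} (hc : 0 ≤ c)
    (h : ∀ i ∈ A, |v i - w i| ≤ c) : |fmx A v - fmx A w| ≤ c := by
  have key : ∀ v w : ι → ℝ, (∀ i ∈ A, |v i - w i| ≤ c) → fmx A v ≤ fmx A w + c := by
    intro v w h
    refine fmx_le (add_nonneg (fmx_nonneg _ _) hc) fun i hi => ?_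
    have h1 := (abs_le.1 (h i hi)).2
    have h2 : w i ≤ fmx A w := le_fmx hi
    linarith
  rw [abs_le]
  have h1 := key v w h
  have h2 := key w v fun i hi => by rw [abs_sub_comm]; exact h i hi
  constructor <;> linarith

lemma fmx_upper {p : ℝ} (hp : 1 ≤ p) (A : Finset ι) (v w : ι → ℝ) :
    |fmx A v - fmx A w| ^ p ≤ ∑ i ∈ A, |v i - w i| ^ p := by
  have hp0 : 0 < p := by linarith
  set Sg : ℝ := ∑ i ∈ A, |v i - w i| ^ p with hSg
  have hS0 : 0 ≤ Sg := Finset.sum_nonneg fun i _ => by positivity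
  have h1 : |fmx A v - fmx A w| ≤ Sg ^ (1 / p) := by
    refine fmx_sub_le A v w (by positivity) fun i hi => ?_
    have h2 : |v i - w i| ^ p ≤ Sg :=
      Finset.single_le_sum (f := fun i => |v i - w i| ^ p) (fun j _ => by positivity) hi
    calc |v i - w i| = (|v i - w i| ^ p) ^ (1 / p) := by
          rw [← Real.rpow_mul (abs_nonneg _), mul_one_div_cancel hp0.ne', Real.rpow_one]
      _ ≤ Sg ^ (1 / p) := Real.rpow_le_rpow (by positivity) h2 (by positivity)
  calc |fmx A v - fmx A w| ^ p ≤ (Sg ^ (1 / p)) ^ p :=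
        Real.rpow_le_rpow (abs_nonneg _) h1 hp0.le
    _ = Sg := by rw [← Real.rpow_mul hS0, one_div_mul_cancel hp0.ne', Real.rpow_one]

/-- a maximum with at most one nonzero term -/
lemma fmx_eq_of_inter [DecidableEq ι] (A Act : Finset ι) (v : ι → ℝ) (hv : ∀ i, 0 ≤ v i)
    (h0 : ∀ i, i ∉ Act → v i = 0) {i0 : ι} (h : A ∩ Act = {i0}) : fmx A v = v i0 := by
  have hi0 : i0 ∈ A ∩ Act := by rw [h]; exact Finset.mem_singleton_self _
  refine le_antisymm (fmx_le (hv i0) fun i hi => ?_) (le_fmx (Finset.mem_inter.1 hi0).1)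
  by_cases hi2 : i ∈ Act
  · have : i ∈ A ∩ Act := Finset.mem_inter.2 ⟨hi, hi2⟩
    rw [h, Finset.mem_singleton] at this
    rw [this]
  · rw [h0 i hi2]; exact hv i0

lemma fmx_lower [DecidableEq ι] {p : ℝ} (A Act : Finset ι) (v w : ι → ℝ)
    (hv : ∀ i, 0 ≤ v i) (hw : ∀ i, 0 ≤ w i) (hv0 : ∀ i, i ∉ Act → v i = 0)
    (hw0 : ∀ i, i ∉ Act → w i = 0) :
    ∑ i ∈ Act, |v i - w i| ^ p * ((if i ∈ A then 1 else 0) -
      ∑ i' ∈ Act.erase i, if i ∈ A ∧ i' ∈ A then 1 else 0) ≤ |fmx A v - fmx A w| ^ p := by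
  have hterm : ∀ i ∈ Act, ((if i ∈ A then 1 else 0) -
      ∑ i' ∈ Act.erase i, if i ∈ A ∧ i' ∈ A then (1 : ℝ) else 0) =
      if i ∈ A then 2 - ((A ∩ Act).card : ℝ) else 0 := by
    intro i hi
    by_cases hA : i ∈ A
    · have h1 : ∑ i' ∈ Act.erase i, (if i ∈ A ∧ i' ∈ A then (1 : ℝ) else 0) =
          ((A ∩ Act).card : ℝ) - 1 := by
        simp only [hA, true_and]
        rw [← Finset.sum_filter, Finset.sum_const, nsmul_eq_mul, mul_one]
        have h2 : (Act.erase i).filter (fun i' => i' ∈ A) = (A ∩ Act).erase i := by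
          ext j
          simp only [Finset.mem_filter, Finset.mem_erase, Finset.mem_inter]
          tauto
        have h3 : i ∈ A ∩ Act := Finset.mem_inter.2 ⟨hA, hi⟩
        rw [h2, Finset.card_erase_of_mem h3]
        have h4 : 1 ≤ (A ∩ Act).card := Finset.card_pos.2 ⟨i, h3⟩
        push_cast [Nat.cast_sub h4]
        ring
      rw [h1, if_pos hA, if_pos hA]
      ring
    · simp [hA]
  rw [Finset.sum_congr rfl fun i hi => by rw [hterm i hi]]
  rcases Nat.lt_trichotomy (A ∩ Act).card 1 with hk | hk | hk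
  · have h0 : A ∩ Act = ∅ := Finset.card_eq_zero.1 (by omega)
    have : ∀ i ∈ Act, |v i - w i| ^ p * (if i ∈ A then 2 - ((A ∩ Act).card : ℝ) else 0) = 0 := by
      intro i hi
      have hA : i ∉ A := fun hA => by
        have : i ∈ A ∩ Act := Finset.mem_inter.2 ⟨hA, hi⟩
        rw [h0] at this
        exact absurd this (Finset.notMem_empty _)
      rw [if_neg hA, mul_zero]
    rw [Finset.sum_congr rfl this, Finset.sum_const_zero]
    positivity
  · obtain ⟨i0, hi0⟩ := Finset.card_eq_one.1 hk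
    have hm : i0 ∈ A ∩ Act := by rw [hi0]; exact Finset.mem_singleton_self _
    rw [fmx_eq_of_inter A Act v hv hv0 hi0, fmx_eq_of_inter A Act w hw hw0 hi0]
    rw [Finset.sum_eq_single i0]
    · rw [if_pos (Finset.mem_inter.1 hm).1, hk]
      norm_num
    · intro i hi hne
      have hA : i ∉ A := fun hA => by
        have : i ∈ A ∩ Act := Finset.mem_inter.2 ⟨hA, hi⟩
        rw [hi0, Finset.mem_singleton] at this
        exact hne this
      rw [if_neg hA, mul_zero]
    · intro h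
      exact absurd (Finset.mem_inter.1 hm).2 h
  · refine le_trans (Finset.sum_nonpos fun i _ => ?_) (by positivity)
    have h2 : (2 : ℝ) ≤ ((A ∩ Act).card : ℝ) := by exact_mod_cast hk
    split_ifs
    · exact mul_nonpos_of_nonneg_of_nonpos (by positivity) (by linarith)
    · rw [mul_zero]

/-- Bernoulli weights of subsets -/
noncomputable def w0 [Fintype ι] [DecidableEq ι] (q : ℝ) (A : Finset ι) : ℝ :=
  (∏ _i ∈ A, q) * ∏ _i ∈ univ \ A, (1 - q)

lemma w0_nonneg [Fintype ι] [DecidableEq ι] {q : ℝ} (h0 : 0 ≤ q) (h1 : q ≤ 1) (A : Finset ι) :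
    0 ≤ w0 q A :=
  mul_nonneg (Finset.prod_nonneg fun _ _ => h0) (Finset.prod_nonneg fun _ _ => by linarith)

lemma sum_w0_superset [Fintype ι] [DecidableEq ι] (q : ℝ) (D : Finset ι) :
    ∑ A : Finset ι, w0 q A * (if D ⊆ A then 1 else 0) = q ^ D.card := by
  have h := Finset.prod_add (fun _ : ι => q) (fun i => if i ∈ D then 0 else 1 - q) univ
  have hl : ∏ i : ι, (q + if i ∈ D then 0 else 1 - q) = q ^ D.card := by
    have : ∀ i : ι, (q + if i ∈ D then 0 else 1 - q) = if i ∈ D then q else 1 := fun i => by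
      split_ifs <;> ring
    rw [Finset.prod_congr rfl fun i _ => this i]
    simp
  rw [← hl, h, Finset.powerset_univ]
  refine Finset.sum_congr rfl fun A _ => ?_
  unfold w0
  rw [mul_assoc]
  refine congrArg _ ?_
  by_cases hD : D ⊆ A
  · rw [if_pos hD, mul_one]
    refine Finset.prod_congr rfl fun i hi => ?_
    rw [if_neg fun h => (Finset.mem_sdiff.1 hi).2 (hD h)]
  · rw [if_neg hD, mul_zero]
    obtain ⟨i, hi, hiA⟩ := Finset.not_subset.1 hD
    exact (Finset.prod_eq_zero (Finset.mem_sdiff.2 ⟨Finset.mem_univ i, hiA⟩)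
      (by rw [if_pos hi])).symm

lemma sum_w0 [Fintype ι] [DecidableEq ι] (q : ℝ) : ∑ A : Finset ι, w0 q A = 1 := by
  have := sum_w0_superset q (∅ : Finset ι)
  simpa using this

lemma sum_w0_one [Fintype ι] [DecidableEq ι] (q : ℝ) (i : ι) :
    ∑ A : Finset ι, w0 q A * (if i ∈ A then 1 else 0) = q := by
  have := sum_w0_superset q ({i} : Finset ι)
  simpa using this

lemma sum_w0_two [Fintype ι] [DecidableEq ι] (q : ℝ) {i i' : ι} (h : i' ≠ i) :
    ∑ A : Finset ι, w0 q A * (if i ∈ A ∧ i' ∈ A then 1 else 0) = q ^ 2 := by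
  have := sum_w0_superset q ({i, i'} : Finset ι)
  rw [Finset.card_pair h.symm] at this
  simpa [Finset.insert_subset_iff] using this

/-- expectation of the upper bound -/
lemma avg_upper [Fintype ι] [DecidableEq ι] {p q : ℝ} (hp : 1 ≤ p) (hq : 0 < q) (hq1 : q ≤ 1)
    (v w : ι → ℝ) :
    ∑ A : Finset ι, w0 q A / q * |fmx A v - fmx A w| ^ p ≤ ∑ i, |v i - w i| ^ p := by
  calc ∑ A : Finset ι, w0 q A / q * |fmx A v - fmx A w| ^ p
      ≤ ∑ A : Finset ι, w0 q A / q * ∑ i, |v i - w i| ^ p * (if i ∈ A then 1 else 0) := by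
        refine Finset.sum_le_sum fun A _ => mul_le_mul_of_nonneg_left ?_
          (div_nonneg (w0_nonneg hq.le hq1 A) hq.le)
        refine (fmx_upper hp A v w).trans (le_of_eq ?_)
        simp only [mul_ite, mul_one, mul_zero]
        rw [Finset.sum_ite_mem, Finset.univ_inter]
    _ = ∑ i, |v i - w i| ^ p / q * ∑ A : Finset ι, w0 q A * (if i ∈ A then 1 else 0) := by
        simp only [Finset.mul_sum]
        rw [Finset.sum_comm]
        refine Finset.sum_congr rfl fun i _ => Finset.sum_congr rfl fun A _ => ?_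
        ring
    _ = ∑ i, |v i - w i| ^ p := by
        refine Finset.sum_congr rfl fun i _ => ?_
        rw [sum_w0_one, div_mul_cancel₀ _ hq.ne']

/-- expectation of the lower bound -/
lemma avg_lower [Fintype ι] [DecidableEq ι] {p q : ℝ} (hq : 0 < q) (hq1 : q ≤ 1)
    (Act : Finset ι) (hAct : q * Act.card ≤ 1 / 2) (v w : ι → ℝ)
    (hv : ∀ i, 0 ≤ v i) (hw : ∀ i, 0 ≤ w i) (hv0 : ∀ i, i ∉ Act → v i = 0)
    (hw0 : ∀ i, i ∉ Act → w i = 0) :
    ∑ i ∈ Act, |v i - w i| ^ p ≤ 2 * ∑ A : Finset ι, w0 q A / q * |fmx A v - fmx A w| ^ p := by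
  have h1 : ∑ A : Finset ι, w0 q A / q * ∑ i ∈ Act, |v i - w i| ^ p * ((if i ∈ A then 1 else 0) -
      ∑ i' ∈ Act.erase i, if i ∈ A ∧ i' ∈ A then 1 else 0) ≤
      ∑ A : Finset ι, w0 q A / q * |fmx A v - fmx A w| ^ p :=
    Finset.sum_le_sum fun A _ => mul_le_mul_of_nonneg_left (fmx_lower A Act v w hv hw hv0 hw0)
      (div_nonneg (w0_nonneg hq.le hq1 A) hq.le)
  have h2 : ∑ A : Finset ι, w0 q A / q * ∑ i ∈ Act, |v i - w i| ^ p *
      ((if i ∈ A then 1 else 0) - ∑ i' ∈ Act.erase i, if i ∈ A ∧ i' ∈ A then 1 else 0) =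
      ∑ i ∈ Act, |v i - w i| ^ p * (1 - ((Act.erase i).card : ℝ) * q) := by
    have e1 : ∀ A : Finset ι, w0 q A / q * ∑ i ∈ Act, |v i - w i| ^ p *
        ((if i ∈ A then 1 else 0) - ∑ i' ∈ Act.erase i, if i ∈ A ∧ i' ∈ A then 1 else 0) =
        ∑ i ∈ Act, |v i - w i| ^ p / q * (w0 q A * (if i ∈ A then 1 else 0) -
          ∑ i' ∈ Act.erase i, w0 q A * (if i ∈ A ∧ i' ∈ A then 1 else 0)) := by
      intro A
      rw [Finset.mul_sum]
      refine Finset.sum_congr rfl fun i _ => ?_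
      rw [← Finset.mul_sum]
      ring
    rw [Finset.sum_congr rfl fun A _ => e1 A, Finset.sum_comm]
    refine Finset.sum_congr rfl fun i _ => ?_
    rw [← Finset.mul_sum, Finset.sum_sub_distrib, sum_w0_one, Finset.sum_comm]
    have e2 : ∑ i' ∈ Act.erase i, ∑ A : Finset ι, w0 q A * (if i ∈ A ∧ i' ∈ A then 1 else 0) =
        ((Act.erase i).card : ℝ) * q ^ 2 := by
      rw [Finset.sum_congr rfl fun i' hi' => sum_w0_two q (Finset.ne_of_mem_erase hi'),
        Finset.sum_const, nsmul_eq_mul]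
    rw [e2]
    field_simp
  rw [h2] at h1
  have h3 : ∑ i ∈ Act, |v i - w i| ^ p * (1 / 2) ≤
      ∑ i ∈ Act, |v i - w i| ^ p * (1 - ((Act.erase i).card : ℝ) * q) := by
    refine Finset.sum_le_sum fun i _ => mul_le_mul_of_nonneg_left ?_ (by positivity)
    have h4 : ((Act.erase i).card : ℝ) ≤ Act.card := by exact_mod_cast Finset.card_erase_le
    nlinarith
  rw [← Finset.sum_mul] at h3
  linarith

lemma pos_part_sub (a b : ℝ) : |max a 0 - max b 0| ≤ |a - b| := by
  rw [abs_le]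
  rcases le_total a 0 with ha | ha <;> rcases le_total b 0 with hb | hb <;>
    simp only [ha, hb, max_eq_left, max_eq_right] <;>
    constructor <;> cases abs_cases (a - b) <;> linarith

lemma rpow_add_le {p : ℝ} (hp : 1 ≤ p) {a b : ℝ} (ha : 0 ≤ a) (hb : 0 ≤ b) :
    (a + b) ^ p ≤ 2 ^ (p - 1) * (a ^ p + b ^ p) := by
  have := NNReal.rpow_add_le_mul_rpow_add_rpow ⟨a, ha⟩ ⟨b, hb⟩ hp
  exact_mod_cast this

end

end MergeAux

open MergeAux in
theorem merge {V ι : Type} [Fintype V] [Fintype ι] {p : ℝ} (hp : 1 ≤ p)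
    (g : V → ι → ℝ) (κ : ι → ℝ) (S : ℝ) (hS : 1 ≤ S)
    (hact : ∀ x, (((univ.filter fun i => g x i ≠ κ i).card : ℕ) : ℝ) ≤ S)
    (B : V → V → ℝ) (hB : ∀ x y i, |g x i - g y i| ≤ B x y) (hB0 : ∀ x y, 0 ≤ B x y) :
    ∃ (Ω : Type) (_ : Fintype Ω) (φ : Ω → V → ℝ) (w : Ω → ℝ), (∀ ω, 0 ≤ w ω) ∧
      ∑ ω, w ω ≤ 8 * S ∧ (∀ ω x y, |φ ω x - φ ω y| ≤ B x y) ∧
      (∀ x y, ∑ ω, w ω * |φ ω x - φ ω y| ^ p ≤ 2 * ∑ i, |g x i - g y i| ^ p) ∧
      (∀ x y, ∑ i, |g x i - g y i| ^ p ≤ 2 ^ (p + 1) * ∑ ω, w ω * |φ ω x - φ ω y| ^ p) := by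
  classical
  have hp0 : 0 < p := by linarith
  set q : ℝ := 1 / (4 * S) with hq
  have hq0 : 0 < q := by positivity
  have hq1 : q ≤ 1 := by
    rw [hq, div_le_one (by positivity)]; linarith
  set vp : V → ι → ℝ := fun x i => max (g x i - κ i) 0 with hvp
  set vm : V → ι → ℝ := fun x i => max (κ i - g x i) 0 with hvm
  have hvp0 : ∀ x i, 0 ≤ vp x i := fun x i => le_max_right _ _
  have hvm0 : ∀ x i, 0 ≤ vm x i := fun x i => le_max_right _ _
  have hdp : ∀ x y i, |vp x i - vp y i| ≤ |g x i - g y i| := fun x y i => by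
    have := pos_part_sub (g x i - κ i) (g y i - κ i)
    rwa [sub_sub_sub_cancel_right] at this
  have hdm : ∀ x y i, |vm x i - vm y i| ≤ |g x i - g y i| := fun x y i => by
    have := pos_part_sub (κ i - g x i) (κ i - g y i)
    rwa [sub_sub_sub_cancel_left, abs_sub_comm (g y i)] at this
  have hdec : ∀ x i, g x i - κ i = vp x i - vm x i := fun x i => by
    simp only [hvp, hvm]
    rcases le_total (g x i) (κ i) with h | h
    · rw [max_eq_right (by linarith), max_eq_left (by linarith)]; ring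
    · rw [max_eq_left (by linarith), max_eq_right (by linarith)]; ring
  have hdd : ∀ x y i, |g x i - g y i| ^ p ≤
      2 ^ (p - 1) * (|vp x i - vp y i| ^ p + |vm x i - vm y i| ^ p) := fun x y i => by
    have h1 : |g x i - g y i| ≤ |vp x i - vp y i| + |vm x i - vm y i| := by
      have e : g x i - g y i = (vp x i - vp y i) - (vm x i - vm y i) := by
        have := hdec x i
        have := hdec y i
        linarith
      rw [e]
      exact abs_sub _ _
    exact (Real.rpow_le_rpow (abs_nonneg _) h1 hp0.le).trans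
      (rpow_add_le hp (abs_nonneg _) (abs_nonneg _))
  refine ⟨Finset ι × Bool, inferInstance,
    fun ω x => if ω.2 then fmx ω.1 (vp x) else fmx ω.1 (vm x), fun ω => w0 q ω.1 / q,
    fun ω => div_nonneg (w0_nonneg hq0.le hq1 _) hq0.le, ?_, ?_, ?_, ?_⟩
  · rw [Fintype.sum_prod_type]
    simp only [Finset.sum_const, Finset.card_univ, Fintype.card_bool, nsmul_eq_mul]
    rw [← Finset.mul_sum, ← Finset.sum_div, sum_w0, hq]
    push_cast
    field_simp
    norm_num
  · rintro ⟨A, s⟩ x y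
    cases s with
    | true =>
      simp only [if_true]
      exact fmx_sub_le A _ _ (hB0 x y) fun i _ => (hdp x y i).trans (hB x y i)
    | false =>
      simp only [Bool.false_eq_true, if_false]
      exact fmx_sub_le A _ _ (hB0 x y) fun i _ => (hdm x y i).trans (hB x y i)
  · intro x y
    rw [Fintype.sum_prod_type]
    simp only [Fintype.sum_bool, if_true, Bool.false_eq_true, if_false]
    rw [Finset.sum_add_distrib]
    have h1 := avg_upper hp hq0 hq1 (vp x) (vp y)
    have h2 := avg_upper hp hq0 hq1 (vm x) (vm y)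
    have h3 : ∑ i, |vp x i - vp y i| ^ p ≤ ∑ i, |g x i - g y i| ^ p :=
      Finset.sum_le_sum fun i _ => Real.rpow_le_rpow (abs_nonneg _) (hdp x y i) hp0.le
    have h4 : ∑ i, |vm x i - vm y i| ^ p ≤ ∑ i, |g x i - g y i| ^ p :=
      Finset.sum_le_sum fun i _ => Real.rpow_le_rpow (abs_nonneg _) (hdm x y i) hp0.le
    linarith
  · intro x y
    rw [Fintype.sum_prod_type]
    simp only [Fintype.sum_bool, if_true, Bool.false_eq_true, if_false]
    rw [Finset.sum_add_distrib]
    set Act : Finset ι := univ.filter fun i => g x i ≠ κ i ∨ g y i ≠ κ i with hActd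
    have hcard : q * Act.card ≤ 1 / 2 := by
      have h1 : Act ⊆ (univ.filter fun i => g x i ≠ κ i) ∪ (univ.filter fun i => g y i ≠ κ i) := by
        intro i hi
        rw [hActd, Finset.mem_filter] at hi
        rw [Finset.mem_union, Finset.mem_filter, Finset.mem_filter]
        tauto
      have h2 : (Act.card : ℝ) ≤ S + S := by
        have h3 : Act.card ≤ (univ.filter fun i => g x i ≠ κ i).card +
            (univ.filter fun i => g y i ≠ κ i).card :=
          (Finset.card_le_card h1).trans (Finset.card_union_le _ _)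
        calc (Act.card : ℝ) ≤ ((univ.filter fun i => g x i ≠ κ i).card : ℝ) +
              ((univ.filter fun i => g y i ≠ κ i).card : ℝ) := by exact_mod_cast h3
          _ ≤ S + S := add_le_add (hact x) (hact y)
      calc q * Act.card ≤ q * (S + S) := mul_le_mul_of_nonneg_left h2 hq0.le
        _ = 1 / 2 := by rw [hq]; field_simp; norm_num
    have hz : ∀ i, i ∉ Act → g x i = κ i ∧ g y i = κ i := fun i hi => by
      rw [hActd, Finset.mem_filter] at hi
      simp only [Finset.mem_univ, true_and, not_or, not_not] at hi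
      exact hi
    have zp : ∀ i, i ∉ Act → vp x i = 0 ∧ vp y i = 0 := fun i hi => by
      simp only [hvp, (hz i hi).1, (hz i hi).2, sub_self, max_self, and_self]
    have zm : ∀ i, i ∉ Act → vm x i = 0 ∧ vm y i = 0 := fun i hi => by
      simp only [hvm, (hz i hi).1, (hz i hi).2, sub_self, max_self, and_self]
    have l1 := avg_lower (p := p) hq0 hq1 Act hcard (vp x) (vp y) (hvp0 x) (hvp0 y)
      (fun i hi => (zp i hi).1) (fun i hi => (zp i hi).2)
    have l2 := avg_lower (p := p) hq0 hq1 Act hcard (vm x) (vm y) (hvm0 x) (hvm0 y)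
      (fun i hi => (zm i hi).1) (fun i hi => (zm i hi).2)
    set U1 := ∑ A : Finset ι, w0 q A / q * |fmx A (vp x) - fmx A (vp y)| ^ p with hU1
    set U2 := ∑ A : Finset ι, w0 q A / q * |fmx A (vm x) - fmx A (vm y)| ^ p with hU2
    have e1 : ∑ i, |g x i - g y i| ^ p = ∑ i ∈ Act, |g x i - g y i| ^ p := by
      refine (Finset.sum_subset (Finset.subset_univ _) fun i _ hi => ?_).symm
      rw [(hz i hi).1, (hz i hi).2, sub_self, abs_zero, Real.zero_rpow hp0.ne']
    have h2p : (2 : ℝ) ^ (p + 1) = 4 * 2 ^ (p - 1) := by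
      have : p + 1 = (p - 1) + 2 := by ring
      rw [this, Real.rpow_add (by norm_num)]
      norm_num
      ring
    have hpow : (0 : ℝ) < 2 ^ (p - 1) := by positivity
    have hU0 : 0 ≤ U1 + U2 := by
      have a1 : 0 ≤ ∑ i ∈ Act, |vp x i - vp y i| ^ p :=
        Finset.sum_nonneg fun i _ => by positivity
      have a2 : 0 ≤ ∑ i ∈ Act, |vm x i - vm y i| ^ p :=
        Finset.sum_nonneg fun i _ => by positivity
      linarith
    rw [e1]
    calc ∑ i ∈ Act, |g x i - g y i| ^ p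
        ≤ ∑ i ∈ Act, 2 ^ (p - 1) * (|vp x i - vp y i| ^ p + |vm x i - vm y i| ^ p) :=
          Finset.sum_le_sum fun i _ => hdd x y i
      _ = 2 ^ (p - 1) * (∑ i ∈ Act, |vp x i - vp y i| ^ p + ∑ i ∈ Act, |vm x i - vm y i| ^ p) := by
          rw [← Finset.mul_sum, Finset.sum_add_distrib]
      _ ≤ 2 ^ (p - 1) * (2 * U1 + 2 * U2) :=
          mul_le_mul_of_nonneg_left (add_le_add l1 l2) hpow.le
      _ ≤ 2 ^ (p + 1) * (U1 + U2) := by
          rw [h2p]
          nlinarith [mul_nonneg hpow.le hU0]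

end Vale.Agent.P249
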