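import Vale.Agent.P249.Split
import Vale.Agent.P249.Merge
import Vale.Agent.P249.KLemma

open Finset

namespace Vale.Agent.P249

namespace FiniteAux

theorem core_large {p : ℝ} (hp : 1 ≤ p) {V ι : Type} [Fintype V] [Fintype ι] [Nonempty V]
    (f : V → ι → ℝ) (hf : Function.Injective f) (W : ℝ) (hW : 1 ≤ W) (m : ℕ) (hm : 1 ≤ m) (L : ℝ)
    (hL : 1 + (112 * Real.log (Fintype.card V) + 16) / W ≤ L)
    (htail : (Fintype.card ι : ℝ) ^ (1 / p) * (600 * Real.exp (-(m * W))) ≤ 1 / 2) :
    ∃ (Ω : Type) (_ : Fintype Ω) (φ : Ω → V → ℝ) (w b : Ω → ℝ), (∀ ω, 0 ≤ w ω) ∧ (∀ ω, 0 ≤ b ω) ∧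
      (∀ x y, nrm p (fun i => f x i - f y i) ^ p ≤
        2 ^ (2 * p + 1) * (m:ℝ) ^ (p - 1) * ∑ ω, w ω * |φ ω x - φ ω y| ^ p) ∧
      (∀ x y, ∑ ω, w ω * |φ ω x - φ ω y| ^ p ≤
        2 * m * (2 * L * nrm p (fun i => f x i - f y i)) ^ p) ∧
      (∀ ω x y, |φ ω x - φ ω y| ^ p ≤ b ω * ∑ ω', w ω' * |φ ω' x - φ ω' y| ^ p) ∧
      ∑ ω, w ω * b ω ≤ 8 * 2 ^ (2 * p + 1) * (m:ℝ) ^ p *
        (1200 * (6 * Real.log (Fintype.card V) + 1) * Real.exp (2 * W)) ^ p := by
  classical
  have hp0 : 0 < p := by linarith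
  have hW0 : 0 < W := by linarith
  have hm0 : (0:ℝ) < m := by exact_mod_cast hm
  set n : ℝ := (Fintype.card V : ℝ) with hn
  have hn1 : 1 ≤ n := by
    rw [hn]; exact_mod_cast Fintype.card_pos
  have hlog : 0 ≤ Real.log n := Real.log_nonneg hn1
  have hL1 : 1 ≤ L := le_trans (by
    have : 0 ≤ (112 * Real.log n + 16) / W := by positivity
    linarith) hL
  obtain ⟨H, κ, hH0, hHn, hθ⟩ := split hp f hf W hW
  choose h h1 h2 h3 using hθ
  -- thresholds
  set θ : ℕ → ℝ := fun j => Real.exp (-(j * W)) with hθd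
  have hθ0 : ∀ j, 0 < θ j := fun j => Real.exp_pos _
  have hθs : ∀ j, θ (j + 1) = θ j * Real.exp (-W) := by
    intro j
    simp only [hθd]
    rw [← Real.exp_add]; congr 1; push_cast; ring
  have hew : Real.exp (-W) ≤ 1 := Real.exp_le_one_iff.mpr (by linarith)
  have hθmono : ∀ j, θ (j + 1) ≤ θ j := by
    intro j
    rw [hθs]
    exact mul_le_of_le_one_right (hθ0 j).le hew
  have hθz : θ 0 = 1 := by simp [hθd]
  set ρ : V → V → ℝ := fun x y => nrm p (fun i => f x i - f y i) with hρ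
  have hρ0 : ∀ x y, 0 ≤ ρ x y := fun x y => nrm_nonneg _
  set g : ℕ → V → ι → ℝ := fun j => if j = 0 then f else h (θ j) (hθ0 j) with hg
  have hg0 : g 0 = f := by simp [hg]
  have hgs : ∀ j, j ≠ 0 → g j = h (θ j) (hθ0 j) := by
    intro j hj; simp [hg, hj]
  have hga : ∀ j x y, nrm p (fun i => g j x i - g j y i) ≤ L * ρ x y := by
    intro j x y
    rcases eq_or_ne j 0 with hj | hj
    · subst hj; rw [hg0]
      have := mul_le_mul_of_nonneg_right hL1 (hρ0 x y)
      simpa [hρ] using this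
    · rw [hgs j hj]
      exact (h1 _ _ x y).trans (mul_le_mul_of_nonneg_right hL (hρ0 x y))
  have hgb : ∀ j x y i, |g j x i - g j y i| ≤ 600 * θ j * ρ x y := by
    intro j x y i
    rcases eq_or_ne j 0 with hj | hj
    · subst hj; rw [hg0, hθz]
      have e1 := abs_le_nrm hp (fun i => f x i - f y i) i
      have e2 := hρ0 x y
      simp only [hρ] at e2 ⊢
      linarith
    · rw [hgs j hj]
      exact h2 _ _ x y i
  have hgc : ∀ j, j ≠ 0 → ∀ x i, H x i ≤ θ (j + 1) → g j x i = f x i - κ i := by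
    intro j hj x i hx
    rw [hgs j hj]
    exact h3 _ _ x i (by rw [hθs] at hx; exact hx)
  set κj : ℕ → ι → ℝ := fun j => if j = 0 then κ else 0 with hκj
  have hgd : ∀ j x i, H x i ≤ θ (j + 2) → g j x i - g (j + 1) x i = κj j i := by
    intro j x i hx
    have e1 := hgc (j + 1) (by omega) x i hx
    rcases eq_or_ne j 0 with hj | hj
    · subst hj; rw [hg0, e1]; simp [hκj]
    · have e2 := hgc j hj x i (hx.trans (hθmono (j + 1)))
      rw [e1, e2]; simp [hκj, hj]
  -- number of active coordinates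
  set G : ℝ := 6 * Real.log n + 1 with hG
  have hG1 : 1 ≤ G := by rw [hG]; linarith
  set S : ℕ → ℝ := fun j => (G / θ (j + 2)) ^ p with hS
  have hθle : ∀ j, θ j ≤ 1 := by
    intro j
    exact Real.exp_le_one_iff.mpr (by have : 0 ≤ (j:ℝ) * W := by positivity
                                      linarith)
  have hS1 : ∀ j, 1 ≤ S j := by
    intro j
    apply Real.one_le_rpow _ hp0.le
    rw [one_le_div (hθ0 _)]
    exact (hθle _).trans hG1
  have hact : ∀ j x, (((univ.filter fun i => (g j x i - g (j + 1) x i) ≠ κj j i).card : ℕ) : ℝ)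
      ≤ S j := by
    intro j x
    have e1 : (univ.filter fun i => (g j x i - g (j + 1) x i) ≠ κj j i) ⊆
        (univ.filter fun i => θ (j + 2) < |H x i|) := by
      intro i hi
      rw [mem_filter] at hi ⊢
      refine ⟨mem_univ _, ?_⟩
      by_contra hc
      push Not at hc
      rw [abs_of_nonneg (hH0 x i)] at hc
      exact hi.2 (hgd j x i hc)
    have e2 := nrm_markov hp (v := H x) (hθ0 (j + 2))
    have e3 : (((univ.filter fun i => (g j x i - g (j + 1) x i) ≠ κj j i).card : ℕ) : ℝ) ≤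
        ((univ.filter fun i => θ (j + 2) < |H x i|).card : ℕ) := by
      exact_mod_cast card_le_card e1
    refine e3.trans (e2.trans ?_)
    apply Real.rpow_le_rpow (div_nonneg (nrm_nonneg _) (hθ0 _).le) _ hp0.le
    exact div_le_div_of_nonneg_right (hHn x) (hθ0 _).le
  have hB : ∀ j x y i, |(g j x i - g (j + 1) x i) - (g j y i - g (j + 1) y i)| ≤
      1200 * θ j * ρ x y := by
    intro j x y i
    have e1 := hgb j x y i
    have e2 := hgb (j + 1) x y i
    have e3 : 600 * θ (j + 1) * ρ x y ≤ 600 * θ j * ρ x y := by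
      have := mul_le_mul_of_nonneg_right (hθmono j) (hρ0 x y)
      nlinarith
    have e4 : (g j x i - g (j + 1) x i) - (g j y i - g (j + 1) y i) =
      (g j x i - g j y i) - (g (j + 1) x i - g (j + 1) y i) := by ring
    rw [e4]
    refine (abs_sub _ _).trans ?_
    linarith
  have hB0 : ∀ j x y, 0 ≤ 1200 * θ j * ρ x y := by
    intro j x y
    have := hθ0 j
    have := hρ0 x y
    positivity
  choose Ω instΩ φ w hw hwS hφB hφu hφl using fun j : ℕ =>
    merge hp (fun x i => g j x i - g (j + 1) x i) (κj j) (S j) (hS1 j) (hact j)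
      (fun x y => 1200 * θ j * ρ x y) (hB j) (hB0 j)
  set Ω' : Type := Σ j : Fin m, Ω j with hΩ'
  set φ' : Ω' → V → ℝ := fun ω => φ ω.1 ω.2 with hφ'
  set w' : Ω' → ℝ := fun ω => w ω.1 ω.2 with hw'
  set cst : ℝ := 2 ^ (2 * p + 1) * (m:ℝ) ^ (p - 1) with hcst
  have hcst0 : 0 < cst := by positivity
  set b' : Ω' → ℝ := fun ω => (1200 * θ ω.1) ^ p * cst with hb'
  set E : V → V → ℝ := fun x y => ∑ ω : Ω', w' ω * |φ' ω x - φ' ω y| ^ p with hE
  have hEj : ∀ x y, E x y = ∑ j : Fin m, ∑ ω, w j ω * |φ j ω x - φ j ω y| ^ p := by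
    intro x y
    simp only [hE, hφ', hw']
    exact Fintype.sum_sigma _
  -- notation for the energy of a level
  have hnj : ∀ j x y, ∑ i, |(g j x i - g (j + 1) x i) - (g j y i - g (j + 1) y i)| ^ p =
      nrm p (fun i => (g j x i - g (j + 1) x i) - (g j y i - g (j + 1) y i)) ^ p := by
    intro j x y
    rw [nrm_rpow hp]
  have hnle : ∀ j x y, nrm p (fun i => (g j x i - g (j + 1) x i) - (g j y i - g (j + 1) y i)) ≤
      2 * L * ρ x y := by
    intro j x y
    have e0 : (fun i => (g j x i - g (j + 1) x i) - (g j y i - g (j + 1) y i)) =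
      fun i => (g j x i - g j y i) + (- (g (j + 1) x i - g (j + 1) y i)) := by
      funext i; ring
    rw [e0]
    refine (nrm_add_le hp _ _).trans ?_
    rw [nrm_neg]
    have := hga j x y
    have := hga (j + 1) x y
    linarith
  -- upper bound
  have hup : ∀ x y, E x y ≤ 2 * m * (2 * L * ρ x y) ^ p := by
    intro x y
    rw [hEj]
    calc ∑ j : Fin m, ∑ ω, w j ω * |φ j ω x - φ j ω y| ^ p
        ≤ ∑ _j : Fin m, 2 * (2 * L * ρ x y) ^ p := by
          apply sum_le_sum
          intro j _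
          refine (hφu j x y).trans ?_
          rw [hnj]
          have := Real.rpow_le_rpow (nrm_nonneg _) (hnle j x y) hp0.le
          linarith
      _ = 2 * m * (2 * L * ρ x y) ^ p := by
          rw [sum_const, card_univ, Fintype.card_fin, nsmul_eq_mul]; ring
  -- lower bound
  have hlow : ∀ x y, ρ x y ^ p ≤ cst * E x y := by
    intro x y
    set N : ℕ → ℝ := fun j =>
      nrm p (fun i => (g j x i - g (j + 1) x i) - (g j y i - g (j + 1) y i)) with hN
    have hN0 : ∀ j, 0 ≤ N j := fun j => nrm_nonneg _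
    have e1 : ρ x y ≤ (∑ j ∈ range m, N j) + nrm p (fun i => g m x i - g m y i) := by
      have e0 : (fun i => f x i - f y i) = fun i =>
          (∑ j ∈ range m, ((g j x i - g (j + 1) x i) - (g j y i - g (j + 1) y i))) +
            (g m x i - g m y i) := by
        funext i
        rw [sum_sub_distrib, sum_range_sub' (fun j => g j x i), sum_range_sub' (fun j => g j y i),
          hg0]
        ring
      have e00 : ρ x y = nrm p (fun i =>
          (∑ j ∈ range m, ((g j x i - g (j + 1) x i) - (g j y i - g (j + 1) y i))) +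
            (g m x i - g m y i)) := by
        simp only [hρ]; rw [e0]
      rw [e00]
      refine (nrm_add_le hp _ _).trans ?_
      have := nrm_sum_le hp (range m)
        (fun j i => (g j x i - g (j + 1) x i) - (g j y i - g (j + 1) y i))
      linarith
    have e2 : nrm p (fun i => g m x i - g m y i) ≤ 1 / 2 * ρ x y := by
      have := nrm_le_card hp (v := fun i => g m x i - g m y i)
        (t := 600 * θ m * ρ x y) (by
          have := hθ0 m
          have := hρ0 x y
          positivity) (fun i => hgb m x y i)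
      refine this.trans ?_
      have h5 := mul_le_mul_of_nonneg_right htail (hρ0 x y)
      simp only [hθd]
      calc _ = (Fintype.card ι : ℝ) ^ (1 / p) * (600 * Real.exp (-(m * W))) * ρ x y := by ring
        _ ≤ _ := h5
    have e3 : ρ x y / 2 ≤ ∑ j ∈ range m, N j := by linarith
    have e4 : (∑ j ∈ range m, N j) ^ p ≤ (m:ℝ) ^ (p - 1) * ∑ j ∈ range m, N j ^ p := by
      have := Real.rpow_sum_le_const_mul_sum_rpow (range m) N hp
      simp only [card_range, abs_of_nonneg (hN0 _)] at this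
      exact this
    have e5 : (ρ x y / 2) ^ p ≤ (m:ℝ) ^ (p - 1) * ∑ j ∈ range m, N j ^ p :=
      (Real.rpow_le_rpow (by have := hρ0 x y; positivity) e3 hp0.le).trans e4
    have e6 : ∑ j ∈ range m, N j ^ p ≤ 2 ^ (p + 1) * E x y := by
      rw [hEj, mul_sum, ← Fin.sum_univ_eq_sum_range (fun j => N j ^ p) m]
      apply sum_le_sum
      intro j _
      have := hφl j x y
      rw [hnj] at this
      exact this
    have e7 : (ρ x y / 2) ^ p = ρ x y ^ p / 2 ^ p := Real.div_rpow (hρ0 x y) (by norm_num) p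
    have e8 : ρ x y ^ p ≤ 2 ^ p * ((m:ℝ) ^ (p - 1) * (2 ^ (p + 1) * E x y)) := by
      have h2p : (0:ℝ) < 2 ^ p := by positivity
      rw [e7, div_le_iff₀ h2p] at e5
      have : (m:ℝ) ^ (p - 1) * ∑ j ∈ range m, N j ^ p ≤ (m:ℝ) ^ (p - 1) * (2 ^ (p + 1) * E x y) :=
        mul_le_mul_of_nonneg_left e6 (by positivity)
      calc ρ x y ^ p ≤ ((m:ℝ) ^ (p - 1) * ∑ j ∈ range m, N j ^ p) * 2 ^ p := e5
        _ ≤ ((m:ℝ) ^ (p - 1) * (2 ^ (p + 1) * E x y)) * 2 ^ p :=
          mul_le_mul_of_nonneg_right this h2p.le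
        _ = _ := by ring
    have e9 : (2:ℝ) ^ p * 2 ^ (p + 1) = 2 ^ (2 * p + 1) := by
      rw [← Real.rpow_add (by norm_num)]; congr 1; ring
    calc ρ x y ^ p ≤ 2 ^ p * ((m:ℝ) ^ (p - 1) * (2 ^ (p + 1) * E x y)) := e8
      _ = ((2:ℝ) ^ p * 2 ^ (p + 1)) * (m:ℝ) ^ (p - 1) * E x y := by ring
      _ = cst * E x y := by rw [e9]
  refine ⟨Ω', inferInstance, φ', w', b', fun ω => hw _ _, fun ω => ?_, hlow, hup, ?_, ?_⟩
  · have := hθ0 ω.1
    positivity
  · intro ω x y
    have e1 := hφB ω.1 ω.2 x y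
    have e2 : |φ' ω x - φ' ω y| ^ p ≤ (1200 * θ ω.1 * ρ x y) ^ p :=
      Real.rpow_le_rpow (abs_nonneg _) e1 hp0.le
    have e3 : (1200 * θ ω.1 * ρ x y) ^ p = (1200 * θ ω.1) ^ p * ρ x y ^ p :=
      Real.mul_rpow (by have := hθ0 ω.1; positivity) (hρ0 x y)
    rw [e3] at e2
    refine e2.trans ?_
    have e4 : (1200 * θ ω.1) ^ p * ρ x y ^ p ≤ (1200 * θ ω.1) ^ p * (cst * E x y) :=
      mul_le_mul_of_nonneg_left (hlow x y) (by have := hθ0 ω.1; positivity)
    refine e4.trans (le_of_eq ?_)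
    simp only [hb', hE]
    ring
  · have e1 : ∑ ω : Ω', w' ω * b' ω = ∑ j : Fin m, (∑ ω, w j ω) * ((1200 * θ j) ^ p * cst) := by
      simp only [hw', hb']
      rw [Fintype.sum_sigma]
      apply sum_congr rfl
      intro j _
      rw [sum_mul]
    rw [e1]
    have e2 : ∀ j : Fin m, (∑ ω, w j ω) * ((1200 * θ j) ^ p * cst) ≤
        8 * cst * (1200 * G * Real.exp (2 * W)) ^ p := by
      intro j
      have hj0 := hθ0 (j : ℕ)
      have h0 : 0 ≤ (1200 * θ j) ^ p * cst := by positivity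
      calc (∑ ω, w j ω) * ((1200 * θ j) ^ p * cst) ≤ (8 * S j) * ((1200 * θ j) ^ p * cst) :=
            mul_le_mul_of_nonneg_right (hwS j) h0
        _ = 8 * cst * ((G / θ (j + 2)) ^ p * (1200 * θ j) ^ p) := by simp only [hS]; ring
        _ = 8 * cst * ((G / θ (j + 2)) * (1200 * θ j)) ^ p := by
            rw [← Real.mul_rpow (div_nonneg (by linarith) (hθ0 _).le) (by positivity)]
        _ = 8 * cst * (1200 * G * Real.exp (2 * W)) ^ p := by
            have e5 : (G / θ (j + 2)) * (1200 * θ j) = 1200 * G * Real.exp (2 * W) := by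
              have e6 : θ ((j:ℕ) + 2) * Real.exp (2 * W) = θ j := by
                simp only [hθd]
                rw [← Real.exp_add]; congr 1; push_cast; ring
              rw [div_mul_eq_mul_div, div_eq_iff (hθ0 _).ne', ← e6]; ring
            rw [e5]
    calc ∑ j : Fin m, (∑ ω, w j ω) * ((1200 * θ j) ^ p * cst)
        ≤ ∑ _j : Fin m, 8 * cst * (1200 * G * Real.exp (2 * W)) ^ p :=
          sum_le_sum (fun j _ => e2 j)
      _ = 8 * (2 ^ (2 * p + 1) * ((m:ℝ) ^ (p - 1) * m)) * (1200 * G * Real.exp (2 * W)) ^ p := by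
          rw [sum_const, card_univ, Fintype.card_fin, nsmul_eq_mul, hcst]; ring
      _ = 8 * 2 ^ (2 * p + 1) * (m:ℝ) ^ p * (1200 * G * Real.exp (2 * W)) ^ p := by
          have : (m:ℝ) ^ (p - 1) * m = (m:ℝ) ^ p := by
            rw [← Real.rpow_add_one hm0.ne']; congr 1; ring
          rw [this]; ring

lemma small_case {p : ℝ} (hp : 1 ≤ p) {V ι : Type} [Fintype V] [Fintype ι] (f : V → ι → ℝ)
    (M : ℕ) (hM : Fintype.card ι ≤ M) :
    ∃ F : V → Fin M → ℝ, ∀ x y,
      nrm p (fun k => F x k - F y k) = nrm p (fun i => f x i - f y i) := by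
  classical
  have hp0 : 0 < p := by linarith
  obtain ⟨e⟩ : Nonempty (ι ↪ Fin M) := by
    apply Function.Embedding.nonempty_of_card_le
    simpa using hM
  refine ⟨fun x => Function.extend e (f x) 0, fun x y => ?_⟩
  unfold nrm
  congr 1
  rw [← sum_subset (subset_univ (univ.map e)) ?_, sum_map]
  · apply sum_congr rfl
    intro i _
    simp only []
    rw [e.injective.extend_apply, e.injective.extend_apply]
  · intro k _ hk
    have hk' : ¬ ∃ i, e i = k := by
      rintro ⟨i, hi⟩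
      exact hk (by rw [mem_map]; exact ⟨i, mem_univ _, hi⟩)
    simp only []
    rw [Function.extend_apply' _ _ _ hk', Function.extend_apply' _ _ _ hk']
    simp [Real.zero_rpow hp0.ne']

lemma log_bound {p η n : ℝ} (hp : 1 ≤ p) (hη : 0 < η) (hn : 2 ≤ n) (hl : 1 ≤ Real.log n) :
    (6 * Real.log n + 1) ^ p * Real.log (2 * n ^ 2 + 1) ≤
      4 * 7 ^ p / (p * η / (p + 1)) ^ (p + 1) * n ^ (p * η) := by
  have hp0 : 0 < p := by linarith
  set ε : ℝ := p * η / (p + 1) with hε
  have hε0 : 0 < ε := by positivity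
  have hn0 : 0 < n := by linarith
  have e1 : (6 * Real.log n + 1) ^ p ≤ 7 ^ p * Real.log n ^ p := by
    rw [← Real.mul_rpow (by norm_num) (by linarith)]
    exact Real.rpow_le_rpow (by linarith) (by linarith) hp0.le
  have e2 : Real.log (2 * n ^ 2 + 1) ≤ 4 * Real.log n := by
    rw [← Real.log_rpow hn0]
    apply Real.log_le_log (by positivity)
    have : n ^ (4:ℝ) = n ^ 4 := by norm_cast
    rw [this]
    nlinarith [mul_nonneg (sub_nonneg.mpr hn) (sub_nonneg.mpr hn), sq_nonneg (n ^ 2 - 2)]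
  have e3 : Real.log n ≤ n ^ ε / ε := Real.log_le_rpow_div hn0.le hε0
  have e4 : Real.log n ^ (p + 1) ≤ n ^ (p * η) / ε ^ (p + 1) := by
    have := Real.rpow_le_rpow (by linarith) e3 (show 0 ≤ p + 1 by linarith)
    rw [Real.div_rpow (by positivity) hε0.le, ← Real.rpow_mul hn0.le] at this
    have e5 : ε * (p + 1) = p * η := by rw [hε]; field_simp
    rwa [e5] at this
  have e6 : Real.log n ^ p * Real.log n = Real.log n ^ (p + 1) := by
    rw [Real.rpow_add_one (by linarith)]
  calc (6 * Real.log n + 1) ^ p * Real.log (2 * n ^ 2 + 1)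
      ≤ (7 ^ p * Real.log n ^ p) * (4 * Real.log n) := by
        apply mul_le_mul e1 e2 (Real.log_nonneg (by nlinarith)) (by positivity)
    _ = 4 * 7 ^ p * (Real.log n ^ p * Real.log n) := by ring
    _ = 4 * 7 ^ p * Real.log n ^ (p + 1) := by rw [e6]
    _ ≤ 4 * 7 ^ p * (n ^ (p * η) / ε ^ (p + 1)) := by gcongr
    _ = _ := by ring

end FiniteAux

open FiniteAux

/-- The finite-dimensional core. -/
theorem finite_core {p : ℝ} (hp : 1 ≤ p) {η : ℝ} (hη : 0 < η) (hη1 : η ≤ 1) (A : ℝ) (hA : 0 < A) :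
    ∃ C : ℝ, 0 < C ∧ ∀ (V : Type) [Fintype V] (ι : Type) [Fintype ι] (f : V → ι → ℝ),
      Function.Injective f → 2 ≤ Fintype.card V →
      (Fintype.card ι : ℝ) ≤ A * (Fintype.card V : ℝ) ^ (2:ℝ) →
      ∀ M : ℕ, C * (Fintype.card V : ℝ) ^ (3 * p * η) ≤ M →
      ∃ F : V → Fin M → ℝ, ∃ s : ℝ, 0 < s ∧ ∀ x y,
        s * nrm p (fun i => f x i - f y i) ≤ nrm p (fun k => F x k - F y k) ∧
        nrm p (fun k => F x k - F y k) ≤ (100000 / η ^ 2) * s * nrm p (fun i => f x i - f y i) := by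
  have hp0 : 0 < p := by linarith
  set m : ℕ := ⌈3 / η⌉₊ with hm
  have hm3 : 3 / η ≤ m := Nat.le_ceil _
  have hinv : 1 ≤ 1 / η := by rw [le_div_iff₀ hη]; linarith
  have hm4 : (m:ℝ) ≤ 4 / η := by
    have := (Nat.ceil_lt_add_one (show 0 ≤ 3 / η by positivity)).le
    have h4 : 4 / η = 3 / η + 1 / η := by ring
    rw [h4]; linarith
  have hm1 : 1 ≤ m := by
    have : (1:ℝ) ≤ m := by
      have h3 : 3 / η = 3 * (1 / η) := by ring
      linarith
    exact_mod_cast this
  have hm0 : (0:ℝ) < m := by exact_mod_cast hm1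
  set n0 : ℝ := max (Real.exp (1 / η)) (1200 * max A 1) with hn0
  have hn00 : 0 < n0 := lt_of_lt_of_le (Real.exp_pos _) (le_max_left _ _)
  set C1 : ℝ := 16 * (8 * 2 ^ (2 * p + 1) * (m:ℝ) ^ p * 1200 ^ p) *
    (4 * 7 ^ p / (p * η / (p + 1)) ^ (p + 1)) with hC1
  have hC10 : 0 < C1 := by positivity
  refine ⟨max (A * n0 ^ (2:ℝ)) C1, lt_of_lt_of_le hC10 (le_max_right _ _), ?_⟩
  intro V _ ι _ f hf hV hι M hM
  set n : ℝ := (Fintype.card V : ℝ) with hn
  have hn2 : 2 ≤ n := by rw [hn]; exact_mod_cast hV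
  have hnpos : 0 < n := by linarith
  have : Nonempty V := Fintype.card_pos_iff.mp (by omega)
  have hnp : 1 ≤ n ^ (3 * p * η) := Real.one_le_rpow (by linarith) (by positivity)
  have hηD : 1 ≤ 100000 / η ^ 2 := by
    rw [le_div_iff₀ (by positivity)]
    nlinarith
  by_cases hsmall : n < n0
  · -- few points: pad by zeros
    have hcard : Fintype.card ι ≤ M := by
      have h1 : (Fintype.card ι : ℝ) ≤ M := by
        calc (Fintype.card ι : ℝ) ≤ A * n ^ (2:ℝ) := hι
          _ ≤ A * n0 ^ (2:ℝ) := by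
            apply mul_le_mul_of_nonneg_left _ hA.le
            exact Real.rpow_le_rpow hnpos.le hsmall.le (by norm_num)
          _ ≤ max (A * n0 ^ (2:ℝ)) C1 := le_max_left _ _
          _ ≤ max (A * n0 ^ (2:ℝ)) C1 * n ^ (3 * p * η) :=
            le_mul_of_one_le_right (le_trans hC10.le (le_max_right _ _)) hnp
          _ ≤ M := hM
      exact_mod_cast h1
    obtain ⟨F, hF⟩ := small_case hp f M hcard
    refine ⟨F, 1, one_pos, fun x y => ?_⟩
    rw [hF]
    have h0 : 0 ≤ nrm p (fun i => f x i - f y i) := nrm_nonneg _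
    refine ⟨by linarith, ?_⟩
    rw [mul_one]
    exact le_mul_of_one_le_left h0 hηD
  · push Not at hsmall
    have hl1 : 1 / η ≤ Real.log n := by
      rw [Real.le_log_iff_exp_le hnpos]
      exact (le_max_left _ _).trans hsmall
    have hl : 1 ≤ Real.log n := hinv.trans hl1
    set W : ℝ := η * Real.log n with hW
    have hW1 : 1 ≤ W := by
      rw [hW]
      have := mul_le_mul_of_nonneg_left hl1 hη.le
      rwa [mul_one_div_cancel hη.ne'] at this
    have hexp : ∀ c : ℝ, Real.exp (c * W) = n ^ (c * η) := by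
      intro c
      rw [Real.rpow_def_of_pos hnpos, hW]
      congr 1; ring
    have hL : 1 + (112 * Real.log n + 16) / W ≤ 129 / η := by
      have e1 : (112 * Real.log n + 16) / W ≤ 128 / η := by
        rw [div_le_div_iff₀ (by linarith) hη, hW]
        nlinarith
      have e2 : 129 / η = 1 / η + 128 / η := by ring
      rw [e2]; linarith
    have htail : (Fintype.card ι : ℝ) ^ (1 / p) * (600 * Real.exp (-(m * W))) ≤ 1 / 2 := by
      have hA1 : 1 ≤ max A 1 := le_max_right _ _
      have e1 : (Fintype.card ι : ℝ) ^ (1 / p) ≤ max A 1 * n ^ (2:ℝ) := by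
        have h1 : (Fintype.card ι : ℝ) ≤ max A 1 * n ^ (2:ℝ) :=
          hι.trans (mul_le_mul_of_nonneg_right (le_max_left _ _) (by positivity))
        have h2 : 1 ≤ max A 1 * n ^ (2:ℝ) :=
          one_le_mul_of_one_le_of_one_le hA1 (Real.one_le_rpow (by linarith) (by norm_num))
        calc (Fintype.card ι : ℝ) ^ (1 / p) ≤ (max A 1 * n ^ (2:ℝ)) ^ (1 / p) :=
              Real.rpow_le_rpow (by positivity) h1 (by positivity)
          _ ≤ (max A 1 * n ^ (2:ℝ)) ^ (1:ℝ) :=
              Real.rpow_le_rpow_of_exponent_le h2 (by rw [div_le_one hp0]; exact hp)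
          _ = _ := Real.rpow_one _
      have e2 : Real.exp (-(m * W)) ≤ n ^ (-3:ℝ) := by
        have h1 := hexp (-(m:ℝ))
        rw [neg_mul] at h1
        rw [h1]
        apply Real.rpow_le_rpow_of_exponent_le (by linarith)
        have : 3 ≤ m * η := by
          rw [div_le_iff₀ hη] at hm3
          exact hm3
        linarith
      have e3 : n ^ (2:ℝ) * n ^ (-3:ℝ) = n⁻¹ := by
        rw [← Real.rpow_add hnpos]; norm_num
        exact Real.rpow_neg_one n
      have e4 : 1200 * max A 1 ≤ n := (le_max_right _ _).trans hsmall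
      calc (Fintype.card ι : ℝ) ^ (1 / p) * (600 * Real.exp (-(m * W)))
          ≤ (max A 1 * n ^ (2:ℝ)) * (600 * n ^ (-3:ℝ)) := by gcongr
        _ = 600 * max A 1 * (n ^ (2:ℝ) * n ^ (-3:ℝ)) := by ring
        _ = (600 * max A 1) / n := by rw [e3]; rfl
        _ ≤ 1 / 2 := by rw [div_le_div_iff₀ hnpos (by norm_num)]; linarith
    obtain ⟨Ω, _, φ, w, b, hw, hb, hlow, hup, hφ, hK⟩ :=
      core_large hp f hf W hW1 m hm1 (129 / η) hL htail
    set K : ℝ := 8 * 2 ^ (2 * p + 1) * (m:ℝ) ^ p *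
        (1200 * (6 * Real.log n + 1) * Real.exp (2 * W)) ^ p with hKd
    have hK0 : 0 < K := by
      have : 0 < 6 * Real.log n + 1 := by linarith
      positivity
    have hKM : 4 * K / (1 / 2) ^ 2 * Real.log (2 * n ^ 2 + 1) ≤ M := by
      have e1 : K = (8 * 2 ^ (2 * p + 1) * (m:ℝ) ^ p * 1200 ^ p) * (6 * Real.log n + 1) ^ p *
          n ^ (2 * p * η) := by
        rw [hKd, Real.mul_rpow (by positivity) (Real.exp_pos _).le,
          Real.mul_rpow (by norm_num) (by linarith), hexp 2, ← Real.rpow_mul hnpos.le]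
        have : 2 * η * p = 2 * p * η := by ring
        rw [this]; ring
      have e2 := log_bound (n := n) hp hη hn2 hl
      calc 4 * K / (1 / 2) ^ 2 * Real.log (2 * n ^ 2 + 1)
          = 16 * (8 * 2 ^ (2 * p + 1) * (m:ℝ) ^ p * 1200 ^ p) * n ^ (2 * p * η) *
            ((6 * Real.log n + 1) ^ p * Real.log (2 * n ^ 2 + 1)) := by rw [e1]; ring
        _ ≤ 16 * (8 * 2 ^ (2 * p + 1) * (m:ℝ) ^ p * 1200 ^ p) * n ^ (2 * p * η) *
            (4 * 7 ^ p / (p * η / (p + 1)) ^ (p + 1) * n ^ (p * η)) :=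
            mul_le_mul_of_nonneg_left e2 (by positivity)
        _ = C1 * (n ^ (2 * p * η) * n ^ (p * η)) := by rw [hC1]; ring
        _ = C1 * n ^ (3 * p * η) := by
            rw [← Real.rpow_add hnpos]; congr 2; ring
        _ ≤ max (A * n0 ^ (2:ℝ)) C1 * n ^ (3 * p * η) :=
            mul_le_mul_of_nonneg_right (le_max_right _ _) (by positivity)
        _ ≤ M := hM
    obtain ⟨F, hF⟩ := kLemma hp φ w b hw hb hφ K (1 / 2) hK0 hK (by norm_num) (by norm_num) M hKM
    set cst : ℝ := 2 ^ (2 * p + 1) * (m:ℝ) ^ (p - 1) with hcst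
    have hcst0 : 0 < cst := by positivity
    set s : ℝ := (1 / (2 * cst)) ^ (1 / p) with hs
    have hs0 : 0 < s := by positivity
    have hsp : s ^ p = 1 / (2 * cst) := by
      rw [hs, ← Real.rpow_mul (by positivity), one_div_mul_cancel hp0.ne', Real.rpow_one]
    refine ⟨F, s, hs0, fun x y => ?_⟩
    obtain ⟨h1, h2⟩ := hF x y
    have hρ0 : 0 ≤ nrm p (fun i => f x i - f y i) := nrm_nonneg _
    have hl' := hlow x y
    have hu' := hup x y
    set ρ : ℝ := nrm p (fun i => f x i - f y i) with hρ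
    set E : ℝ := ∑ ω, w ω * |φ ω x - φ ω y| ^ p with hE
    rw [← nrm_rpow hp] at h1 h2
    have hF0 : 0 ≤ nrm p (fun k => F x k - F y k) := nrm_nonneg _
    constructor
    · rw [← Real.rpow_le_rpow_iff (by positivity) hF0 hp0, Real.mul_rpow hs0.le hρ0, hsp]
      refine le_trans ?_ h1
      rw [one_div_mul_eq_div, div_le_iff₀ (by positivity)]
      linarith
    · rw [← Real.rpow_le_rpow_iff hF0 (by positivity) hp0, Real.mul_rpow (by positivity) hρ0,
        Real.mul_rpow (by positivity) hs0.le, hsp]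
      refine h2.trans ?_
      have e1 : (2 * (129 / η) * ρ) ^ p = (2 * (129 / η)) ^ p * ρ ^ p :=
        Real.mul_rpow (by positivity) hρ0
      rw [e1] at hu'
      have e2 : 3 * m * (2 * (129 / η)) ^ p * (2 * cst) ≤ (100000 / η ^ 2) ^ p := by
        have e3 : (m:ℝ) ^ (p - 1) * m = (m:ℝ) ^ p := by
          rw [← Real.rpow_add_one hm0.ne']; congr 1; ring
        have e4 : (2:ℝ) ^ (2 * p + 1) = 4 ^ p * 2 := by
          rw [Real.rpow_add_one (by norm_num), Real.rpow_mul (by norm_num)]; norm_num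
        have e5 : (12:ℝ) ≤ 12 ^ p := by
          calc (12:ℝ) = 12 ^ (1:ℝ) := (Real.rpow_one _).symm
            _ ≤ 12 ^ p := Real.rpow_le_rpow_of_exponent_le (by norm_num) hp
        calc 3 * m * (2 * (129 / η)) ^ p * (2 * cst)
            = 6 * (2 * (129 / η)) ^ p * (2:ℝ) ^ (2 * p + 1) * ((m:ℝ) ^ (p - 1) * m) := by
              rw [hcst]; ring
          _ = 12 * ((2 * (129 / η)) ^ p * 4 ^ p * (m:ℝ) ^ p) := by rw [e3, e4]; ring
          _ ≤ 12 ^ p * ((2 * (129 / η)) ^ p * 4 ^ p * (m:ℝ) ^ p) :=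
              mul_le_mul_of_nonneg_right e5 (by positivity)
          _ = (12 * (2 * (129 / η) * 4 * m)) ^ p := by
              have h0 : 0 ≤ 2 * (129 / η) := by positivity
              have h1 : 0 ≤ 2 * (129 / η) * 4 := by positivity
              rw [Real.mul_rpow (show (0:ℝ) ≤ 12 by norm_num) (mul_nonneg h1 hm0.le),
                Real.mul_rpow h1 hm0.le, Real.mul_rpow h0 (show (0:ℝ) ≤ 4 by norm_num)]
          _ ≤ (100000 / η ^ 2) ^ p := by
              apply Real.rpow_le_rpow (by positivity) _ hp0.le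
              calc 12 * (2 * (129 / η) * 4 * m) ≤ 12 * (2 * (129 / η) * 4 * (4 / η)) := by gcongr
                _ = 49536 / η ^ 2 := by ring
                _ ≤ 100000 / η ^ 2 := by gcongr; norm_num
      have hρp : 0 ≤ ρ ^ p := by positivity
      calc (1 + 1 / 2) * E ≤ (1 + 1 / 2) * (2 * m * ((2 * (129 / η)) ^ p * ρ ^ p)) := by
            apply mul_le_mul_of_nonneg_left hu' (by norm_num)
        _ = (3 * m * (2 * (129 / η)) ^ p * (2 * cst)) * (1 / (2 * cst)) * ρ ^ p := by
            field_simp; ring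
        _ ≤ (100000 / η ^ 2) ^ p * (1 / (2 * cst)) * ρ ^ p := by gcongr

end Vale.Agent.P249
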