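import Mathlib

open Finset

namespace Vale.Agent.P249

/-- the `ℓ_p` norm of a finite vector -/
noncomputable def nrm {ι : Type} [Fintype ι] (p : ℝ) (v : ι → ℝ) : ℝ := (∑ i, |v i| ^ p) ^ (1 / p)

section Nrm
variable {ι : Type} [Fintype ι] {p : ℝ}

lemma nrm_nonneg (v : ι → ℝ) : 0 ≤ nrm p v := by
  unfold nrm; positivity

lemma nrm_rpow (hp : 1 ≤ p) (v : ι → ℝ) : nrm p v ^ p = ∑ i, |v i| ^ p := by
  unfold nrm
  have hp0 : 0 < p := by linarith
  rw [← Real.rpow_mul (by positivity), one_div_mul_cancel hp0.ne', Real.rpow_one]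

lemma nrm_zero (hp : 1 ≤ p) : nrm p (fun _ : ι => (0:ℝ)) = 0 := by
  unfold nrm
  have hp0 : 0 < p := by linarith
  have h1 : (1 / p) ≠ 0 := by positivity
  simp [Real.zero_rpow hp0.ne', Real.zero_rpow (inv_ne_zero hp0.ne')]

lemma nrm_mono (hp : 1 ≤ p) {v w : ι → ℝ} (h : ∀ i, |v i| ≤ |w i|) : nrm p v ≤ nrm p w := by
  unfold nrm
  have hp0 : 0 < p := by linarith
  apply Real.rpow_le_rpow (by positivity) _ (by positivity)
  exact sum_le_sum (fun i _ => Real.rpow_le_rpow (abs_nonneg _) (h i) hp0.le)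

lemma nrm_add_le (hp : 1 ≤ p) (v w : ι → ℝ) : nrm p (fun i => v i + w i) ≤ nrm p v + nrm p w := by
  unfold nrm
  exact Real.Lp_add_le univ v w hp

lemma nrm_neg (v : ι → ℝ) : nrm p (fun i => - v i) = nrm p v := by
  unfold nrm; simp

lemma nrm_sub_comm (v w : ι → ℝ) : nrm p (fun i => v i - w i) = nrm p (fun i => w i - v i) := by
  unfold nrm
  simp only [abs_sub_comm]

lemma nrm_const_mul (hp : 1 ≤ p) (c : ℝ) (v : ι → ℝ) : nrm p (fun i => c * v i) = |c| * nrm p v := by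
  have hp0 : 0 < p := by linarith
  unfold nrm
  simp only [abs_mul]
  rw [sum_congr rfl (fun i _ => Real.mul_rpow (abs_nonneg c) (abs_nonneg (v i))), ← mul_sum,
    Real.mul_rpow (by positivity) (by positivity), ← Real.rpow_mul (abs_nonneg _),
    mul_one_div_cancel hp0.ne', Real.rpow_one]

lemma nrm_sum_le (hp : 1 ≤ p) {κ : Type*} (s : Finset κ) (v : κ → ι → ℝ) :
    nrm p (fun i => ∑ k ∈ s, v k i) ≤ ∑ k ∈ s, nrm p (v k) := by
  classical
  induction s using Finset.induction_on with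
  | empty => simp [nrm_zero hp]
  | insert a s ha ih =>
    simp only [sum_insert ha]
    exact (nrm_add_le hp _ _).trans (by linarith)

lemma abs_le_nrm (hp : 1 ≤ p) (v : ι → ℝ) (i : ι) : |v i| ≤ nrm p v := by
  have hp0 : 0 < p := by linarith
  have h1 : |v i| ^ p ≤ ∑ i, |v i| ^ p :=
    single_le_sum (f := fun i => |v i| ^ p) (fun _ _ => by positivity) (mem_univ i)
  have h2 := Real.rpow_le_rpow (by positivity) h1 (show 0 ≤ 1 / p by positivity)
  rwa [← Real.rpow_mul (abs_nonneg _), mul_one_div_cancel hp0.ne', Real.rpow_one] at h2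

lemma nrm_triangle (hp : 1 ≤ p) (u v w : ι → ℝ) :
    nrm p (fun i => u i - w i) ≤ nrm p (fun i => u i - v i) + nrm p (fun i => v i - w i) := by
  have h := nrm_add_le hp (fun i => u i - v i) (fun i => v i - w i)
  simpa using h

/-- Markov -/
lemma nrm_markov (hp : 1 ≤ p) {v : ι → ℝ} {t : ℝ} (ht : 0 < t) :
    (((univ.filter fun i => t < |v i|).card : ℕ) : ℝ) ≤ (nrm p v / t) ^ p := by
  have hp0 : 0 < p := by linarith
  rw [Real.div_rpow (nrm_nonneg v) ht.le, nrm_rpow hp, le_div_iff₀ (by positivity)]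
  calc (((univ.filter fun i => t < |v i|).card : ℕ) : ℝ) * t ^ p
      = ∑ i ∈ univ.filter (fun i => t < |v i|), t ^ p := by rw [sum_const, nsmul_eq_mul]
    _ ≤ ∑ i ∈ univ.filter (fun i => t < |v i|), |v i| ^ p := by
        apply sum_le_sum
        intro i hi
        exact Real.rpow_le_rpow ht.le (mem_filter.mp hi).2.le hp0.le
    _ ≤ ∑ i, |v i| ^ p :=
        sum_le_sum_of_subset_of_nonneg (filter_subset _ _) (fun _ _ _ => by positivity)

/-- all coordinates small -/
lemma nrm_le_card (hp : 1 ≤ p) {v : ι → ℝ} {t : ℝ} (ht : 0 ≤ t) (h : ∀ i, |v i| ≤ t) :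
    nrm p v ≤ (Fintype.card ι : ℝ) ^ (1 / p) * t := by
  have hp0 : 0 < p := by linarith
  have h1 : ∑ i, |v i| ^ p ≤ (Fintype.card ι : ℝ) * t ^ p := by
    calc ∑ i, |v i| ^ p ≤ ∑ _i : ι, t ^ p :=
          sum_le_sum (fun i _ => Real.rpow_le_rpow (abs_nonneg _) (h i) hp0.le)
      _ = _ := by rw [sum_const, card_univ, nsmul_eq_mul]
  have h2 := Real.rpow_le_rpow (by positivity) h1 (show 0 ≤ 1 / p by positivity)
  rw [Real.mul_rpow (by positivity) (by positivity), ← Real.rpow_mul ht,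
    mul_one_div_cancel hp0.ne', Real.rpow_one] at h2
  exact h2
end Nrm

end Vale.Agent.P249
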