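import Vale.Agent.P249.Upper
import Vale.Agent.P249.Nrm
import Vale.Agent.P249.Finite

open Finset MeasureTheory

namespace Vale.Agent.P249

/-- Transfer from `finite_core` to subsets of `L_p`. -/
theorem suffices_eps (p : ℝ) (hp : 1 ≤ p) {η : ℝ} (hη : 0 < η) (hη1 : η ≤ 1) :
    ∃ C : ℝ, 0 < C ∧ ∀ n : ℕ, 2 ≤ n → ∀ M : ℕ, C * (n : ℝ) ^ (3 * p * η) ≤ M →
      Suffices p (300000 / η ^ 2) n M := by
  classical
  have hp0 : 0 < p := by linarith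
  obtain ⟨C, hC, hsel⟩ := selection p hp
  obtain ⟨C', hC', hcore⟩ := finite_core hp hη hη1 (64 * C + 1) (by positivity)
  refine ⟨C', hC', ?_⟩
  intro n hn M hM Ω _ μ X hX
  have hfact : Fact (1 ≤ ENNReal.ofReal p) := ⟨by simpa using ENNReal.ofReal_le_ofReal hp⟩
  have hn2 : (2:ℝ) ≤ n := by exact_mod_cast hn
  obtain ⟨N, hN⟩ : ∃ N : ℕ, N = ⌈4 * (C * n) / (1 / 2) ^ 2 * Real.log (2 * n ^ 2 + 1)⌉₊ := ⟨_, rfl⟩
  have hN1 : 4 * (C * n) / (1 / 2 : ℝ) ^ 2 * Real.log (2 * n ^ 2 + 1) ≤ N := by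
    rw [hN]; exact Nat.le_ceil _
  have hlog0 : 0 ≤ Real.log (2 * (n:ℝ) ^ 2 + 1) := Real.log_nonneg (by nlinarith)
  have hlogn : 0 ≤ Real.log n := Real.log_nonneg (by linarith)
  have hN2 : (N : ℝ) ≤ (64 * C + 1) * (n : ℝ) ^ (2:ℝ) := by
    have h1 : (N : ℝ) < 4 * (C * n) / (1 / 2) ^ 2 * Real.log (2 * n ^ 2 + 1) + 1 := by
      rw [hN]; exact Nat.ceil_lt_add_one (by positivity)
    have h2 : Real.log (2 * (n:ℝ) ^ 2 + 1) ≤ 4 * Real.log n := by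
      rw [← Real.log_rpow (by linarith)]
      apply Real.log_le_log (by positivity)
      have h3 : (n:ℝ) ^ (4:ℝ) = (n:ℝ) ^ 2 * (n:ℝ) ^ 2 := by
        rw [show (4:ℝ) = ((4:ℕ):ℝ) by norm_num, Real.rpow_natCast]; ring
      rw [h3]
      have h4 : (4:ℝ) ≤ (n:ℝ) ^ 2 := by nlinarith
      nlinarith
    have h3 : Real.log n ≤ n := by
      have := Real.log_le_sub_one_of_pos (show (0:ℝ) < n by linarith)
      linarith
    have h4 : (n : ℝ) ^ (2:ℝ) = (n:ℝ) * n := by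
      rw [show (2:ℝ) = ((2:ℕ):ℝ) by norm_num, Real.rpow_natCast]; ring
    rw [h4]
    have h5 : 4 * (C * n) / (1 / 2) ^ 2 * Real.log (2 * (n:ℝ) ^ 2 + 1) ≤
        4 * (C * n) / (1 / 2) ^ 2 * (4 * n) := by
      apply mul_le_mul_of_nonneg_left _ (by positivity)
      linarith
    have h6 : 4 * (C * n) / (1 / 2) ^ 2 * (4 * (n:ℝ)) = 64 * C * (n * n) := by ring
    nlinarith
  obtain ⟨f, hf⟩ := embed_one p hp C hsel n hn (1 / 2) (by norm_num) (by norm_num) N hN1 Ω μ X hX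
  set g : X → Fin N → ℝ := fun x => f x with hg
  have hroot : ∀ t : ℝ, 0 ≤ t → (t ^ p) ^ (1 / p) = t := by
    intro t ht
    rw [← Real.rpow_mul ht, mul_one_div_cancel hp0.ne', Real.rpow_one]
  have hlow : ∀ x y : X, (1 / 2 : ℝ) ^ (1 / p) * ‖(x : Lp ℝ (ENNReal.ofReal p) μ) - y‖ ≤
      nrm p (fun k => g x k - g y k) := by
    intro x y
    have h1 := (hf x x.2 y y.2).1
    have h2 := Real.rpow_le_rpow (by positivity) h1 (show 0 ≤ 1 / p by positivity)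
    rw [Real.mul_rpow (by norm_num) (by positivity), hroot _ (norm_nonneg _)] at h2
    have h3 : (1 - 1 / 2 : ℝ) = 1 / 2 := by norm_num
    rw [h3] at h2
    exact h2
  have hupp : ∀ x y : X, nrm p (fun k => g x k - g y k) ≤
      (3 / 2 : ℝ) ^ (1 / p) * ‖(x : Lp ℝ (ENNReal.ofReal p) μ) - y‖ := by
    intro x y
    have h1 := (hf x x.2 y y.2).2
    have h2 := Real.rpow_le_rpow (by positivity) h1 (show 0 ≤ 1 / p by positivity)
    rw [Real.mul_rpow (by norm_num) (by positivity), hroot _ (norm_nonneg _)] at h2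
    have h3 : (1 + 1 / 2 : ℝ) = 3 / 2 := by norm_num
    rw [h3] at h2
    exact h2
  have hc0 : 0 < (1 / 2 : ℝ) ^ (1 / p) := Real.rpow_pos_of_pos (by norm_num) _
  have hginj : Function.Injective g := by
    intro x y hxy
    have h1 := hlow x y
    rw [hxy] at h1
    simp only [sub_self] at h1
    rw [nrm_zero hp] at h1
    have h2 : ‖(x : Lp ℝ (ENNReal.ofReal p) μ) - y‖ ≤ 0 := by
      by_contra h3
      push Not at h3
      have := mul_pos hc0 h3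
      linarith
    exact Subtype.ext (sub_eq_zero.mp (norm_le_zero_iff.mp h2))
  have hcardX : Fintype.card X = n := by rw [Fintype.card_coe, hX]
  obtain ⟨F, s, hs, hF⟩ := hcore X (Fin N) g hginj (by rw [hcardX]; exact hn)
    (by rw [hcardX, Fintype.card_fin]; exact hN2) M (by rw [hcardX]; exact hM)
  refine ⟨fun x => if h : x ∈ X then F ⟨x, h⟩ else fun _ => 0, s * (1 / 2 : ℝ) ^ (1 / p),
    mul_pos hs hc0, ?_⟩
  intro x hx y hy
  simp only [dif_pos hx, dif_pos hy]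
  obtain ⟨h1, h2⟩ := hF ⟨x, hx⟩ ⟨y, hy⟩
  have h3 := hlow ⟨x, hx⟩ ⟨y, hy⟩
  have h4 := hupp ⟨x, hx⟩ ⟨y, hy⟩
  simp only at h3 h4
  have hnn : 0 ≤ ‖x - y‖ := norm_nonneg _
  constructor
  · calc s * (1 / 2 : ℝ) ^ (1 / p) * ‖x - y‖ = s * ((1 / 2 : ℝ) ^ (1 / p) * ‖x - y‖) := by ring
      _ ≤ s * nrm p (fun k => g ⟨x, hx⟩ k - g ⟨y, hy⟩ k) := mul_le_mul_of_nonneg_left h3 hs.le
      _ ≤ _ := h1
  · have h5 : (3 / 2 : ℝ) ^ (1 / p) ≤ 3 * (1 / 2 : ℝ) ^ (1 / p) := by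
      have h6 : (3 / 2 : ℝ) ^ (1 / p) = 3 ^ (1 / p) * (1 / 2 : ℝ) ^ (1 / p) := by
        rw [← Real.mul_rpow (by norm_num) (by norm_num)]; norm_num
      rw [h6]
      apply mul_le_mul_of_nonneg_right _ hc0.le
      calc (3:ℝ) ^ (1 / p) ≤ 3 ^ (1:ℝ) := by
            apply Real.rpow_le_rpow_of_exponent_le (by norm_num)
            rw [div_le_one hp0]; exact hp
        _ = 3 := Real.rpow_one _
    have hη2 : 0 < η ^ 2 := by positivity
    calc nrm p (fun k => F ⟨x, hx⟩ k - F ⟨y, hy⟩ k)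
        ≤ (100000 / η ^ 2) * s * nrm p (fun k => g ⟨x, hx⟩ k - g ⟨y, hy⟩ k) := h2
      _ ≤ (100000 / η ^ 2) * s * ((3 / 2 : ℝ) ^ (1 / p) * ‖x - y‖) :=
          mul_le_mul_of_nonneg_left h4 (by positivity)
      _ ≤ (100000 / η ^ 2) * s * ((3 * (1 / 2 : ℝ) ^ (1 / p)) * ‖x - y‖) := by
          apply mul_le_mul_of_nonneg_left _ (by positivity)
          exact mul_le_mul_of_nonneg_right h5 hnn
      _ = 300000 / η ^ 2 * (s * (1 / 2 : ℝ) ^ (1 / p)) * ‖x - y‖ := by ring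

/-- `d_p(n, D) ≤ C n ^ (C₀ / √D)` for `D ≥ C₀`. -/
theorem eps_bound (p : ℝ) (hp : 1 ≤ p) : ∃ C₀ : ℝ, 1 ≤ C₀ ∧ ∀ D : ℝ, C₀ ≤ D → ∃ C : ℝ, 0 < C ∧
    ∀ n : ℕ, 2 ≤ n → Suffices p D n (dp p D n) ∧
      (dp p D n : ℝ) ≤ C * (n:ℝ) ^ (C₀ / Real.sqrt D) := by
  refine ⟨300000 * p, by linarith, ?_⟩
  intro D hD
  have hD0 : 300000 ≤ D := by linarith
  have hDpos : 0 < D := by linarith
  obtain ⟨η, hηe⟩ : ∃ η : ℝ, η = Real.sqrt (300000 / D) := ⟨_, rfl⟩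
  have hη : 0 < η := by rw [hηe]; exact Real.sqrt_pos.mpr (by positivity)
  have hη2 : η ^ 2 = 300000 / D := by rw [hηe]; exact Real.sq_sqrt (by positivity)
  have hη1 : η ≤ 1 := by
    rw [hηe, Real.sqrt_le_one]
    rw [div_le_one hDpos]; exact hD0
  have hDη : 300000 / η ^ 2 = D := by rw [hη2]; field_simp
  have hexp : 3 * p * η ≤ 300000 * p / Real.sqrt D := by
    have h1 : η = Real.sqrt 300000 / Real.sqrt D := by
      rw [hηe, Real.sqrt_div (by norm_num)]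
    have h2 : Real.sqrt 300000 ≤ 1000 := by
      rw [Real.sqrt_le_left (by norm_num)]; norm_num
    have h3 : 0 < Real.sqrt D := Real.sqrt_pos.mpr hDpos
    rw [h1, le_div_iff₀ h3]
    have h4 : 3 * p * (Real.sqrt 300000 / Real.sqrt D) * Real.sqrt D = 3 * p * Real.sqrt 300000 := by
      field_simp
    rw [h4]
    nlinarith
  obtain ⟨C, hC, hsuf⟩ := suffices_eps p hp hη hη1
  refine ⟨C + 1, by positivity, ?_⟩
  intro n hn
  have hn1 : (1:ℝ) ≤ n := by exact_mod_cast (by omega : 1 ≤ n)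
  have hS : Suffices p D n ⌈C * (n:ℝ) ^ (3 * p * η)⌉₊ := by
    have := hsuf n hn _ (Nat.le_ceil _)
    rwa [hDη] at this
  have hne : {d : ℕ | Suffices p D n d}.Nonempty := ⟨_, hS⟩
  refine ⟨Nat.sInf_mem hne, ?_⟩
  have h1 : dp p D n ≤ ⌈C * (n:ℝ) ^ (3 * p * η)⌉₊ := Nat.sInf_le hS
  have h2 : (dp p D n : ℝ) ≤ (⌈C * (n:ℝ) ^ (3 * p * η)⌉₊ : ℝ) := by exact_mod_cast h1
  have h3 : (⌈C * (n:ℝ) ^ (3 * p * η)⌉₊ : ℝ) < C * (n:ℝ) ^ (3 * p * η) + 1 :=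
    Nat.ceil_lt_add_one (by positivity)
  have h4 : (n:ℝ) ^ (3 * p * η) ≤ (n:ℝ) ^ (300000 * p / Real.sqrt D) :=
    Real.rpow_le_rpow_of_exponent_le hn1 hexp
  have h5 : 1 ≤ (n:ℝ) ^ (300000 * p / Real.sqrt D) := Real.one_le_rpow hn1 (by positivity)
  have h6 : C * (n:ℝ) ^ (3 * p * η) ≤ C * (n:ℝ) ^ (300000 * p / Real.sqrt D) :=
    mul_le_mul_of_nonneg_left h4 hC.le
  linarith

end Vale.Agent.P249
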