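import Vale.Agent.P249.Upper
import Vale.Agent.P249.Nrm

/-! P249 piece [EPS2]: transfer of the finite-dimensional core to subsets of `L_p`, all `D > 1`
(the conclusion of `finite_core2` is a hypothesis here). -/

open Finset MeasureTheory

namespace Vale.Agent.P249

/-- the statement of `finite_core2` at the parameters `p`, `η`, `δ`, `A` -/
def Eps2Aux.Core (p η δ A : ℝ) : Prop :=
  ∃ C : ℝ, 0 < C ∧ ∀ (V : Type) [Fintype V] (ι : Type) [Fintype ι] (f : V → ι → ℝ),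
    Function.Injective f → 2 ≤ Fintype.card V →
    (Fintype.card ι : ℝ) ≤ A * (Fintype.card V : ℝ) ^ (2:ℝ) →
    ∀ M : ℕ, C * (Fintype.card V : ℝ) ^ (3 * p * η) ≤ M →
    ∃ F : V → Fin M → ℝ, ∃ s : ℝ, 0 < s ∧ ∀ x y,
      s * nrm p (fun i => f x i - f y i) ≤ nrm p (fun k => F x k - F y k) ∧
      nrm p (fun k => F x k - F y k) ≤ (1 + δ) * s * nrm p (fun i => f x i - f y i)

namespace Eps2Aux

/-- the number of coordinates after the first step -/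
lemma ceil_bound {C δ0 : ℝ} (hC : 0 < C) (hδ0 : 0 < δ0) {n : ℕ} (hn : 2 ≤ n) :
    ((⌈4 * (C * n) / δ0 ^ 2 * Real.log (2 * n ^ 2 + 1)⌉₊ : ℕ) : ℝ) ≤
      (16 * C / δ0 ^ 2 + 1) * (n : ℝ) ^ (2:ℝ) := by
  have hn2 : (2:ℝ) ≤ n := by exact_mod_cast hn
  have hlog0 : 0 ≤ Real.log (2 * (n:ℝ) ^ 2 + 1) := Real.log_nonneg (by nlinarith)
  have h1 : ((⌈4 * (C * n) / δ0 ^ 2 * Real.log (2 * n ^ 2 + 1)⌉₊ : ℕ) : ℝ) <
      4 * (C * n) / δ0 ^ 2 * Real.log (2 * n ^ 2 + 1) + 1 :=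
    Nat.ceil_lt_add_one (by positivity)
  have h2 : Real.log (2 * (n:ℝ) ^ 2 + 1) ≤ 4 * Real.log n := by
    rw [← Real.log_rpow (by linarith)]
    apply Real.log_le_log (by positivity)
    have h3 : (n:ℝ) ^ (4:ℝ) = (n:ℝ) ^ 2 * (n:ℝ) ^ 2 := by
      rw [show (4:ℝ) = ((4:ℕ):ℝ) by norm_num, Real.rpow_natCast]; ring
    rw [h3]
    have h4 : (4:ℝ) ≤ (n:ℝ) ^ 2 := by nlinarith
    nlinarith
  have h3 : Real.log n ≤ n := by
    have := Real.log_le_sub_one_of_pos (show (0:ℝ) < n by linarith)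
    linarith
  have h4 : (n : ℝ) ^ (2:ℝ) = (n:ℝ) * n := by
    rw [show (2:ℝ) = ((2:ℕ):ℝ) by norm_num, Real.rpow_natCast]; ring
  rw [h4]
  have h5 : 4 * (C * n) / δ0 ^ 2 * Real.log (2 * (n:ℝ) ^ 2 + 1) ≤
      4 * (C * n) / δ0 ^ 2 * (4 * n) := by
    apply mul_le_mul_of_nonneg_left _ (by positivity)
    linarith
  have h6 : 4 * (C * n) / δ0 ^ 2 * (4 * (n:ℝ)) = 16 * C / δ0 ^ 2 * (n * n) := by ring
  nlinarith

/-- Transfer from the finite-dimensional core to subsets of `L_p`. -/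
theorem suffices_eps2 (p : ℝ) (hp : 1 ≤ p) {η δ δ0 : ℝ} (hδ : 0 < δ)
    (hδ0 : 0 < δ0) (hδ01 : δ0 < 1) (hcore : ∀ A : ℝ, 0 < A → Core p η δ A) {D : ℝ}
    (hD : (1 + δ) * ((1 + δ0) / (1 - δ0)) ≤ D) :
    ∃ C : ℝ, 0 < C ∧ ∀ n : ℕ, 2 ≤ n → ∀ M : ℕ, C * (n : ℝ) ^ (3 * p * η) ≤ M →
      Suffices p D n M := by
  classical
  have hp0 : 0 < p := by linarith
  obtain ⟨C, hC, hsel⟩ := selection p hp
  obtain ⟨C', hC', hcore⟩ := hcore (16 * C / δ0 ^ 2 + 1) (by positivity)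
  refine ⟨C', hC', ?_⟩
  intro n hn M hM Ω _ μ X hX
  have hfact : Fact (1 ≤ ENNReal.ofReal p) := ⟨by simpa using ENNReal.ofReal_le_ofReal hp⟩
  have hN2 := ceil_bound (C := C) hC hδ0 hn
  obtain ⟨N, hN⟩ : ∃ N : ℕ, N = ⌈4 * (C * n) / δ0 ^ 2 * Real.log (2 * n ^ 2 + 1)⌉₊ := ⟨_, rfl⟩
  have hN1 : 4 * (C * n) / δ0 ^ 2 * Real.log (2 * n ^ 2 + 1) ≤ N := by
    rw [hN]; exact Nat.le_ceil _
  rw [← hN] at hN2
  obtain ⟨f, hf⟩ := embed_one p hp C hsel n hn δ0 hδ0 hδ01 N hN1 Ω μ X hX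
  set g : X → Fin N → ℝ := fun x => f x with hg
  have h1δ : 0 < 1 - δ0 := by linarith
  have hroot : ∀ t : ℝ, 0 ≤ t → (t ^ p) ^ (1 / p) = t := by
    intro t ht
    rw [← Real.rpow_mul ht, mul_one_div_cancel hp0.ne', Real.rpow_one]
  have hlow : ∀ x y : X, (1 - δ0) ^ (1 / p) * ‖(x : Lp ℝ (ENNReal.ofReal p) μ) - y‖ ≤
      nrm p (fun k => g x k - g y k) := by
    intro x y
    have h1 := (hf x x.2 y y.2).1
    have h2 := Real.rpow_le_rpow (by positivity) h1 (show 0 ≤ 1 / p by positivity)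
    rw [Real.mul_rpow h1δ.le (by positivity), hroot _ (norm_nonneg _)] at h2
    exact h2
  have hupp : ∀ x y : X, nrm p (fun k => g x k - g y k) ≤
      (1 + δ0) ^ (1 / p) * ‖(x : Lp ℝ (ENNReal.ofReal p) μ) - y‖ := by
    intro x y
    have h1 := (hf x x.2 y y.2).2
    have h2 := Real.rpow_le_rpow (by positivity) h1 (show 0 ≤ 1 / p by positivity)
    rw [Real.mul_rpow (by linarith) (by positivity), hroot _ (norm_nonneg _)] at h2
    exact h2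
  have hc0 : 0 < (1 - δ0) ^ (1 / p) := Real.rpow_pos_of_pos h1δ _
  have hginj : Function.Injective g := by
    intro x y hxy
    have h1 := hlow x y
    rw [hxy] at h1
    simp only [sub_self] at h1
    rw [nrm_zero hp] at h1
    have h2 : ‖(x : Lp ℝ (ENNReal.ofReal p) μ) - y‖ ≤ 0 := by
      by_contra h3
      push Not at h3
      have := mul_pos hc0 h3
      linarith
    exact Subtype.ext (sub_eq_zero.mp (norm_le_zero_iff.mp h2))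
  have hcardX : Fintype.card X = n := by rw [Fintype.card_coe, hX]
  obtain ⟨F, s, hs, hF⟩ := hcore X (Fin N) g hginj (by rw [hcardX]; exact hn)
    (by rw [hcardX, Fintype.card_fin]; exact hN2) M (by rw [hcardX]; exact hM)
  refine ⟨fun x => if h : x ∈ X then F ⟨x, h⟩ else fun _ => 0, s * (1 - δ0) ^ (1 / p),
    mul_pos hs hc0, ?_⟩
  intro x hx y hy
  simp only [dif_pos hx, dif_pos hy]
  obtain ⟨h1, h2⟩ := hF ⟨x, hx⟩ ⟨y, hy⟩
  have h3 := hlow ⟨x, hx⟩ ⟨y, hy⟩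
  have h4 := hupp ⟨x, hx⟩ ⟨y, hy⟩
  simp only at h3 h4
  have hnn : 0 ≤ ‖x - y‖ := norm_nonneg _
  constructor
  · calc s * (1 - δ0) ^ (1 / p) * ‖x - y‖ = s * ((1 - δ0) ^ (1 / p) * ‖x - y‖) := by ring
      _ ≤ s * nrm p (fun k => g ⟨x, hx⟩ k - g ⟨y, hy⟩ k) := mul_le_mul_of_nonneg_left h3 hs.le
      _ ≤ _ := h1
  · have h5 : (1 + δ0) ^ (1 / p) ≤ (1 + δ0) / (1 - δ0) * (1 - δ0) ^ (1 / p) := by
      have h6 : (1 + δ0) ^ (1 / p) = ((1 + δ0) / (1 - δ0)) ^ (1 / p) * (1 - δ0) ^ (1 / p) := by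
        rw [← Real.mul_rpow (by positivity) h1δ.le, div_mul_cancel₀ _ h1δ.ne']
      rw [h6]
      apply mul_le_mul_of_nonneg_right _ hc0.le
      have h7 : 1 ≤ (1 + δ0) / (1 - δ0) := by rw [le_div_iff₀ h1δ]; linarith
      calc ((1 + δ0) / (1 - δ0)) ^ (1 / p) ≤ ((1 + δ0) / (1 - δ0)) ^ (1:ℝ) := by
            apply Real.rpow_le_rpow_of_exponent_le h7
            rw [div_le_one hp0]; exact hp
        _ = _ := Real.rpow_one _
    calc nrm p (fun k => F ⟨x, hx⟩ k - F ⟨y, hy⟩ k)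
        ≤ (1 + δ) * s * nrm p (fun k => g ⟨x, hx⟩ k - g ⟨y, hy⟩ k) := h2
      _ ≤ (1 + δ) * s * ((1 + δ0) ^ (1 / p) * ‖x - y‖) :=
          mul_le_mul_of_nonneg_left h4 (by positivity)
      _ ≤ (1 + δ) * s * (((1 + δ0) / (1 - δ0) * (1 - δ0) ^ (1 / p)) * ‖x - y‖) := by
          apply mul_le_mul_of_nonneg_left _ (by positivity)
          exact mul_le_mul_of_nonneg_right h5 hnn
      _ = ((1 + δ) * ((1 + δ0) / (1 - δ0))) * (s * (1 - δ0) ^ (1 / p) * ‖x - y‖) := by ring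
      _ ≤ D * (s * (1 - δ0) ^ (1 / p) * ‖x - y‖) :=
          mul_le_mul_of_nonneg_right hD (by positivity)
      _ = D * (s * (1 - δ0) ^ (1 / p)) * ‖x - y‖ := by ring

end Eps2Aux

open Eps2Aux in
/-- `eps_bound2`, given the finite-dimensional core -/
theorem eps_bound2_of (p : ℝ) (hp : 1 < p) (D : ℝ) (hD : 1 < D) (ε : ℝ) (hε : 0 < ε)
    (hcore : ∀ η δ A : ℝ, 0 < η → η ≤ 1 → 0 < δ → δ ≤ 1 → 0 < A → Core p η δ A) :
    ∃ C : ℝ, 0 < C ∧ ∀ n : ℕ, 2 ≤ n → Suffices p D n (dp p D n) ∧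
      (dp p D n : ℝ) ≤ C * (n:ℝ) ^ ε := by
  have hp0 : 0 < p := by linarith
  obtain ⟨ζ, hζe⟩ : ∃ ζ : ℝ, ζ = min (D - 1) 1 := ⟨_, rfl⟩
  have hζ : 0 < ζ := by rw [hζe]; exact lt_min (by linarith) one_pos
  have hζ1 : ζ ≤ 1 := by rw [hζe]; exact min_le_right _ _
  have hζD : 1 + ζ ≤ D := by
    have : ζ ≤ D - 1 := by rw [hζe]; exact min_le_left _ _
    linarith
  have hDD : (1 + ζ / 4) * ((1 + ζ / 16) / (1 - ζ / 16)) ≤ D := by
    have h1 : (1 + ζ / 16) / (1 - ζ / 16) ≤ 1 + 3 * (ζ / 16) := by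
      rw [div_le_iff₀ (by linarith)]
      nlinarith
    calc (1 + ζ / 4) * ((1 + ζ / 16) / (1 - ζ / 16)) ≤ (1 + ζ / 4) * (1 + 3 * (ζ / 16)) :=
          mul_le_mul_of_nonneg_left h1 (by linarith)
      _ ≤ 1 + ζ := by nlinarith
      _ ≤ D := hζD
  obtain ⟨η, hηe⟩ : ∃ η : ℝ, η = min 1 (ε / (3 * p)) := ⟨_, rfl⟩
  have hη : 0 < η := by rw [hηe]; exact lt_min one_pos (by positivity)
  have hη1 : η ≤ 1 := by rw [hηe]; exact min_le_left _ _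
  have hexp : 3 * p * η ≤ ε := by
    have : η ≤ ε / (3 * p) := by rw [hηe]; exact min_le_right _ _
    rw [le_div_iff₀ (by positivity)] at this
    linarith
  obtain ⟨C, hC, hsuf⟩ := suffices_eps2 p hp.le (η := η) (δ := ζ / 4) (δ0 := ζ / 16)
    (by positivity) (by positivity) (by linarith)
    (fun A hA => hcore η (ζ / 4) A hη hη1 (by positivity) (by linarith) hA) hDD
  refine ⟨C + 1, by positivity, ?_⟩
  intro n hn
  have hn1 : (1:ℝ) ≤ n := by exact_mod_cast (by omega : 1 ≤ n)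
  have hS : Suffices p D n ⌈C * (n:ℝ) ^ (3 * p * η)⌉₊ := hsuf n hn _ (Nat.le_ceil _)
  have hne : {d : ℕ | Suffices p D n d}.Nonempty := ⟨_, hS⟩
  refine ⟨Nat.sInf_mem hne, ?_⟩
  have h1 : dp p D n ≤ ⌈C * (n:ℝ) ^ (3 * p * η)⌉₊ := Nat.sInf_le hS
  have h2 : (dp p D n : ℝ) ≤ (⌈C * (n:ℝ) ^ (3 * p * η)⌉₊ : ℝ) := by exact_mod_cast h1
  have h3 : (⌈C * (n:ℝ) ^ (3 * p * η)⌉₊ : ℝ) < C * (n:ℝ) ^ (3 * p * η) + 1 :=
    Nat.ceil_lt_add_one (by positivity)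
  have h4 : (n:ℝ) ^ (3 * p * η) ≤ (n:ℝ) ^ ε := Real.rpow_le_rpow_of_exponent_le hn1 hexp
  have h5 : 1 ≤ (n:ℝ) ^ ε := Real.one_le_rpow hn1 hε.le
  have h6 : C * (n:ℝ) ^ (3 * p * η) ≤ C * (n:ℝ) ^ ε := mul_le_mul_of_nonneg_left h4 hC.le
  linarith

end Vale.Agent.P249
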