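import Vale.Agent.P249.Finite2
import Vale.Agent.P249.Eps2Core

/-! P249, all distortions: `d_p(n, D) ≤ C n ^ ε` for all `p > 1`, `D > 1`, `ε > 0`. -/

open Finset MeasureTheory

namespace Vale.Agent.P249

theorem eps_bound2 (p : ℝ) (hp : 1 < p) (D : ℝ) (hD : 1 < D) (ε : ℝ) (hε : 0 < ε) :
    ∃ C : ℝ, 0 < C ∧ ∀ n : ℕ, 2 ≤ n → Suffices p D n (dp p D n) ∧
      (dp p D n : ℝ) ≤ C * (n:ℝ) ^ ε :=
  eps_bound2_of p hp D hD ε hε fun _ _ A h1 h2 h3 h4 h5 => finite_core2 hp h1 h2 h3 h4 A h5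

end Vale.Agent.P249
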