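import Vale.Agent.P249.Merge

/-!
# P249: lossless random merging of sparse coordinates
-/

open Finset

namespace Vale.Agent.P249

namespace Merge2Aux

open MergeAux

section
variable {ι : Type}

/-- signed maximum: `max_{A} v⁺ - max_{A} v⁻` -/
noncomputable def Ph (A : Finset ι) (v : ι → ℝ) : ℝ :=
  fmx A (fun i => max (v i) 0) - fmx A (fun i => max (-v i) 0)

lemma neg_part_sub (a b : ℝ) : |max (-a) 0 - max (-b) 0| ≤ |a - b| := by
  have := pos_part_sub (-a) (-b)
  rwa [show -a - -b = -(a - b) by ring, abs_neg] at this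

lemma Ph_sub_le (A : Finset ι) (v w : ι → ℝ) {c : ℝ} (hc : 0 ≤ c)
    (h : ∀ i ∈ A, |v i - w i| ≤ c) : |Ph A v - Ph A w| ≤ 2 * c := by
  have h1 := fmx_sub_le A (fun i => max (v i) 0) (fun i => max (w i) 0) hc
    fun i hi => (pos_part_sub _ _).trans (h i hi)
  have h2 := fmx_sub_le A (fun i => max (-v i) 0) (fun i => max (-w i) 0) hc
    fun i hi => (neg_part_sub _ _).trans (h i hi)
  unfold Ph
  rw [abs_le] at *
  constructor <;> linarith [h1.1, h1.2, h2.1, h2.2]

lemma Ph_upper {p : ℝ} (hp : 1 ≤ p) (A Act : Finset ι) (v w : ι → ℝ) [DecidableEq ι]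
    (hv : ∀ i, i ∉ Act → v i = 0) (hw : ∀ i, i ∉ Act → w i = 0) :
    |Ph A v - Ph A w| ^ p ≤ 2 ^ p * ∑ i ∈ A ∩ Act, |v i - w i| ^ p := by
  have hp0 : 0 < p := by linarith
  set Sg : ℝ := ∑ i ∈ A ∩ Act, |v i - w i| ^ p with hSg
  have hS0 : 0 ≤ Sg := Finset.sum_nonneg fun i _ => by positivity
  have h1 : |Ph A v - Ph A w| ≤ 2 * Sg ^ (1 / p) := by
    refine Ph_sub_le A v w (by positivity) fun i hi => ?_
    by_cases hi2 : i ∈ Act
    · have h2 : |v i - w i| ^ p ≤ Sg :=
        Finset.single_le_sum (f := fun i => |v i - w i| ^ p) (fun j _ => by positivity)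
          (Finset.mem_inter.2 ⟨hi, hi2⟩)
      calc |v i - w i| = (|v i - w i| ^ p) ^ (1 / p) := by
            rw [← Real.rpow_mul (abs_nonneg _), mul_one_div_cancel hp0.ne', Real.rpow_one]
        _ ≤ Sg ^ (1 / p) := Real.rpow_le_rpow (by positivity) h2 (by positivity)
    · rw [hv i hi2, hw i hi2, sub_self, abs_zero]
      positivity
  calc |Ph A v - Ph A w| ^ p ≤ (2 * Sg ^ (1 / p)) ^ p :=
        Real.rpow_le_rpow (abs_nonneg _) h1 hp0.le
    _ = 2 ^ p * Sg := by
        rw [Real.mul_rpow (by norm_num) (by positivity), ← Real.rpow_mul hS0,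
          one_div_mul_cancel hp0.ne', Real.rpow_one]

lemma Ph_one [DecidableEq ι] (A Act : Finset ι) (v : ι → ℝ)
    (h0 : ∀ i, i ∉ Act → v i = 0) {i0 : ι} (h : A ∩ Act = {i0}) : Ph A v = v i0 := by
  unfold Ph
  rw [fmx_eq_of_inter A Act (fun i => max (v i) 0) (fun i => le_max_right _ _)
      (fun i hi => by simp only [h0 i hi, max_self]) h,
    fmx_eq_of_inter A Act (fun i => max (-v i) 0) (fun i => le_max_right _ _)
      (fun i hi => by simp only [h0 i hi, neg_zero, max_self]) h]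
  rcases le_total (v i0) 0 with h1 | h1
  · rw [max_eq_right h1, max_eq_left (by linarith)]; ring
  · rw [max_eq_left h1, max_eq_right (by linarith)]; ring

/-- number of further active elements -/
noncomputable def cnt [DecidableEq ι] (A Act : Finset ι) (i : ι) : ℝ :=
  ∑ i' ∈ Act.erase i, if i ∈ A ∧ i' ∈ A then (1 : ℝ) else 0

lemma cnt_eq [DecidableEq ι] (A Act : Finset ι) {i : ι} (hi : i ∈ Act) :
    cnt A Act i = if i ∈ A then ((A ∩ Act).card : ℝ) - 1 else 0 := by
  unfold cnt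
  by_cases hA : i ∈ A
  · simp only [hA, true_and, if_true]
    rw [← Finset.sum_filter, Finset.sum_const, nsmul_eq_mul, mul_one]
    have h2 : (Act.erase i).filter (fun i' => i' ∈ A) = (A ∩ Act).erase i := by
      ext j
      simp only [Finset.mem_filter, Finset.mem_erase, Finset.mem_inter]
      tauto
    have h3 : i ∈ A ∩ Act := Finset.mem_inter.2 ⟨hA, hi⟩
    rw [h2, Finset.card_erase_of_mem h3]
    have h4 : 1 ≤ (A ∩ Act).card := Finset.card_pos.2 ⟨i, h3⟩
    push_cast [Nat.cast_sub h4]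
    ring
  · simp [hA]

lemma sum_act [DecidableEq ι] (A Act : Finset ι) (F : ι → ℝ) (c : ℝ) :
    ∑ i ∈ Act, F i * ((if i ∈ A then 1 else 0) + c * cnt A Act i) =
      (∑ i ∈ A ∩ Act, F i) * (1 + c * (((A ∩ Act).card : ℝ) - 1)) := by
  have h1 : ∑ i ∈ Act, F i * ((if i ∈ A then 1 else 0) + c * cnt A Act i) =
      ∑ i ∈ Act, if i ∈ A then F i * (1 + c * (((A ∩ Act).card : ℝ) - 1)) else 0 := by
    refine Finset.sum_congr rfl fun i hi => ?_
    rw [cnt_eq A Act hi]
    split_ifs <;> ring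
  rw [h1, ← Finset.sum_filter, Finset.sum_mul]
  refine Finset.sum_congr ?_ fun _ _ => rfl
  ext j
  simp only [Finset.mem_filter, Finset.mem_inter]
  tauto

lemma pt_bounds [DecidableEq ι] {p : ℝ} (hp : 1 ≤ p) (A Act : Finset ι) (v w : ι → ℝ)
    (hv : ∀ i, i ∉ Act → v i = 0) (hw : ∀ i, i ∉ Act → w i = 0) :
    |Ph A v - Ph A w| ^ p ≤
      ∑ i ∈ Act, |v i - w i| ^ p * ((if i ∈ A then 1 else 0) + 2 ^ p * cnt A Act i) ∧
    ∑ i ∈ Act, |v i - w i| ^ p * ((if i ∈ A then 1 else 0) + (-1) * cnt A Act i) ≤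
      |Ph A v - Ph A w| ^ p := by
  rw [sum_act, sum_act]
  have hS0 : 0 ≤ ∑ i ∈ A ∩ Act, |v i - w i| ^ p := Finset.sum_nonneg fun i _ => by positivity
  have h2p : (1 : ℝ) ≤ 2 ^ p := Real.one_le_rpow (by norm_num) (by linarith)
  have hup := Ph_upper hp A Act v w hv hw
  rcases Nat.lt_trichotomy (A ∩ Act).card 1 with hk | hk | hk
  · have h0 : A ∩ Act = ∅ := Finset.card_eq_zero.1 (by omega)
    rw [h0, Finset.sum_empty, mul_zero] at hup
    rw [h0, Finset.sum_empty, zero_mul, zero_mul]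
    exact ⟨hup, by positivity⟩
  · obtain ⟨i0, hi0⟩ := Finset.card_eq_one.1 hk
    rw [Ph_one A Act v hv hi0, Ph_one A Act w hw hi0, hi0, Finset.sum_singleton,
      Finset.card_singleton]
    constructor
    · norm_num
    · norm_num
  · have h2 : (2 : ℝ) ≤ ((A ∩ Act).card : ℝ) := by exact_mod_cast hk
    constructor
    · refine hup.trans ?_
      rw [mul_comm]
      refine mul_le_mul_of_nonneg_left ?_ hS0
      nlinarith
    · refine le_trans (mul_nonpos_of_nonneg_of_nonpos hS0 (by linarith)) (by positivity)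

lemma sum_cnt [Fintype ι] [DecidableEq ι] (q : ℝ) (Act : Finset ι) (i : ι) :
    ∑ A : Finset ι, w0 q A * cnt A Act i = ((Act.erase i).card : ℝ) * q ^ 2 := by
  unfold cnt
  simp only [Finset.mul_sum]
  rw [Finset.sum_comm, Finset.sum_congr rfl fun i' hi' => sum_w0_two q (Finset.ne_of_mem_erase hi'),
    Finset.sum_const, nsmul_eq_mul]

lemma avg_sum [Fintype ι] [DecidableEq ι] {q : ℝ} (hq : 0 < q) (Act : Finset ι) (F : ι → ℝ)
    (c : ℝ) :
    ∑ A : Finset ι, w0 q A / q * ∑ i ∈ Act, F i * ((if i ∈ A then 1 else 0) + c * cnt A Act i) =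
      ∑ i ∈ Act, F i * (1 + c * (((Act.erase i).card : ℝ) * q)) := by
  have e1 : ∀ A : Finset ι, w0 q A / q * ∑ i ∈ Act, F i *
      ((if i ∈ A then 1 else 0) + c * cnt A Act i) =
      ∑ i ∈ Act, F i / q * (w0 q A * (if i ∈ A then 1 else 0) + c * (w0 q A * cnt A Act i)) := by
    intro A
    rw [Finset.mul_sum]
    refine Finset.sum_congr rfl fun i _ => ?_
    ring
  rw [Finset.sum_congr rfl fun A _ => e1 A, Finset.sum_comm]
  refine Finset.sum_congr rfl fun i _ => ?_
  rw [← Finset.mul_sum, Finset.sum_add_distrib, sum_w0_one, ← Finset.mul_sum, sum_cnt]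
  field_simp

end

end Merge2Aux

open MergeAux Merge2Aux in
theorem merge2 {V ι : Type} [Fintype V] [Fintype ι] {p : ℝ} (hp : 1 ≤ p)
    (g : V → ι → ℝ) (S δ : ℝ) (hS : 1 ≤ S) (hδ : 0 < δ) (hδ1 : δ ≤ 1)
    (hact : ∀ x, (((univ.filter fun i => g x i ≠ 0).card : ℕ) : ℝ) ≤ S)
    (B : V → V → ℝ) (hB : ∀ x y i, |g x i - g y i| ≤ B x y) (hB0 : ∀ x y, 0 ≤ B x y) :
    ∃ (Ω : Type) (_ : Fintype Ω) (φ : Ω → V → ℝ) (w : Ω → ℝ), (∀ ω, 0 ≤ w ω) ∧
      ∑ ω, w ω ≤ S / δ ∧ (∀ ω x y, |φ ω x - φ ω y| ≤ 2 * B x y) ∧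
      (∀ x y, ∑ ω, w ω * |φ ω x - φ ω y| ^ p ≤
        (1 + 2 ^ (p + 1) * δ) * ∑ i, |g x i - g y i| ^ p) ∧
      (∀ x y, (1 - 2 * δ) * ∑ i, |g x i - g y i| ^ p ≤ ∑ ω, w ω * |φ ω x - φ ω y| ^ p) := by
  classical
  have hp0 : 0 < p := by linarith
  set q : ℝ := δ / S with hq
  have hq0 : 0 < q := by positivity
  have hq1 : q ≤ 1 := by
    rw [hq, div_le_one (by positivity)]; linarith
  have hw0 : ∀ A : Finset ι, 0 ≤ w0 q A / q :=
    fun A => div_nonneg (w0_nonneg hq0.le hq1 _) hq0.le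
  have hpair : ∀ x y, ∃ Act : Finset ι, q * Act.card ≤ 2 * δ ∧
      (∀ i, i ∉ Act → g x i = 0) ∧ (∀ i, i ∉ Act → g y i = 0) := by
    intro x y
    refine ⟨univ.filter fun i => g x i ≠ 0 ∨ g y i ≠ 0, ?_, ?_, ?_⟩
    · have h1 : (univ.filter fun i => g x i ≠ 0 ∨ g y i ≠ 0) ⊆
          (univ.filter fun i => g x i ≠ 0) ∪ (univ.filter fun i => g y i ≠ 0) := by
        intro i hi
        rw [Finset.mem_filter] at hi
        rw [Finset.mem_union, Finset.mem_filter, Finset.mem_filter]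
        tauto
      have h3 : (univ.filter fun i => g x i ≠ 0 ∨ g y i ≠ 0).card ≤
          (univ.filter fun i => g x i ≠ 0).card + (univ.filter fun i => g y i ≠ 0).card :=
        (Finset.card_le_card h1).trans (Finset.card_union_le _ _)
      have h2 : ((univ.filter fun i => g x i ≠ 0 ∨ g y i ≠ 0).card : ℝ) ≤ S + S := by
        calc ((univ.filter fun i => g x i ≠ 0 ∨ g y i ≠ 0).card : ℝ)
            ≤ ((univ.filter fun i => g x i ≠ 0).card : ℝ) +
              ((univ.filter fun i => g y i ≠ 0).card : ℝ) := by exact_mod_cast h3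
          _ ≤ S + S := add_le_add (hact x) (hact y)
      calc q * ((univ.filter fun i => g x i ≠ 0 ∨ g y i ≠ 0).card : ℝ) ≤ q * (S + S) :=
            mul_le_mul_of_nonneg_left h2 hq0.le
        _ = 2 * δ := by rw [hq]; field_simp; norm_num
    · intro i hi
      rw [Finset.mem_filter] at hi
      simp only [Finset.mem_univ, true_and, not_or, not_not] at hi
      exact hi.1
    · intro i hi
      rw [Finset.mem_filter] at hi
      simp only [Finset.mem_univ, true_and, not_or, not_not] at hi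
      exact hi.2
  have hsum : ∀ x y (Act : Finset ι), (∀ i, i ∉ Act → g x i = 0) → (∀ i, i ∉ Act → g y i = 0) →
      ∑ i, |g x i - g y i| ^ p = ∑ i ∈ Act, |g x i - g y i| ^ p := by
    intro x y Act hx hy
    refine (Finset.sum_subset (Finset.subset_univ _) fun i _ hi => ?_).symm
    rw [hx i hi, hy i hi, sub_self, abs_zero, Real.zero_rpow hp0.ne']
  refine ⟨Finset ι, inferInstance, fun A x => Ph A (g x), fun A => w0 q A / q, hw0, ?_, ?_, ?_, ?_⟩
  · rw [← Finset.sum_div, sum_w0, hq, one_div_div]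
  · intro A x y
    exact Ph_sub_le A (g x) (g y) (hB0 x y) fun i _ => hB x y i
  · intro x y
    obtain ⟨Act, hcard, hx, hy⟩ := hpair x y
    rw [hsum x y Act hx hy]
    calc ∑ A : Finset ι, w0 q A / q * |Ph A (g x) - Ph A (g y)| ^ p
        ≤ ∑ A : Finset ι, w0 q A / q * ∑ i ∈ Act, |g x i - g y i| ^ p *
          ((if i ∈ A then 1 else 0) + 2 ^ p * cnt A Act i) :=
          Finset.sum_le_sum fun A _ => mul_le_mul_of_nonneg_left
            (pt_bounds hp A Act (g x) (g y) hx hy).1 (hw0 A)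
      _ = ∑ i ∈ Act, |g x i - g y i| ^ p * (1 + 2 ^ p * (((Act.erase i).card : ℝ) * q)) :=
          avg_sum hq0 Act _ _
      _ ≤ ∑ i ∈ Act, |g x i - g y i| ^ p * (1 + 2 ^ (p + 1) * δ) := by
          refine Finset.sum_le_sum fun i _ => mul_le_mul_of_nonneg_left ?_ (by positivity)
          have h4 : ((Act.erase i).card : ℝ) ≤ Act.card := by
            exact_mod_cast Finset.card_erase_le
          have h5 : ((Act.erase i).card : ℝ) * q ≤ 2 * δ := by nlinarith
          have h6 : (2 : ℝ) ^ (p + 1) = 2 ^ p * 2 := by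
            rw [Real.rpow_add (by norm_num), Real.rpow_one]
          have h7 : (0 : ℝ) ≤ 2 ^ p := by positivity
          rw [h6]
          nlinarith [mul_le_mul_of_nonneg_left h5 h7]
      _ = (1 + 2 ^ (p + 1) * δ) * ∑ i ∈ Act, |g x i - g y i| ^ p := by
          rw [← Finset.sum_mul, mul_comm]
  · intro x y
    obtain ⟨Act, hcard, hx, hy⟩ := hpair x y
    rw [hsum x y Act hx hy]
    calc (1 - 2 * δ) * ∑ i ∈ Act, |g x i - g y i| ^ p
        = ∑ i ∈ Act, |g x i - g y i| ^ p * (1 - 2 * δ) := by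
          rw [← Finset.sum_mul, mul_comm]
      _ ≤ ∑ i ∈ Act, |g x i - g y i| ^ p * (1 + (-1) * (((Act.erase i).card : ℝ) * q)) := by
          refine Finset.sum_le_sum fun i _ => mul_le_mul_of_nonneg_left ?_ (by positivity)
          have h4 : ((Act.erase i).card : ℝ) ≤ Act.card := by
            exact_mod_cast Finset.card_erase_le
          have h5 : ((Act.erase i).card : ℝ) * q ≤ 2 * δ := by nlinarith
          linarith
      _ = ∑ A : Finset ι, w0 q A / q * ∑ i ∈ Act, |g x i - g y i| ^ p *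
          ((if i ∈ A then 1 else 0) + (-1) * cnt A Act i) := (avg_sum hq0 Act _ _).symm
      _ ≤ ∑ A : Finset ι, w0 q A / q * |Ph A (g x) - Ph A (g y)| ^ p :=
          Finset.sum_le_sum fun A _ => mul_le_mul_of_nonneg_left
            (pt_bounds hp A Act (g x) (g y) hx hy).2 (hw0 A)

end Vale.Agent.P249
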