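import Vale.Agent.P249.Mix
import Vale.Agent.P249.Merge2
import Vale.Agent.P249.KLemma
import Vale.Agent.P249.Finite

/-! P249 piece [FIN2]: the finite-dimensional core at distortion `1 + δ`, with the output of
`split2` as a hypothesis. -/

open Finset

namespace Vale.Agent.P249

namespace Finite2Aux

theorem core2 {p : ℝ} (hp : 1 ≤ p) {V ι : Type} [Fintype V] [Fintype ι] (f : V → ι → ℝ)
    (τ X W G K0 : ℝ) (L0 : ℕ) (hτ : 0 < τ) (hτ1 : τ ≤ 1 / 8) (hX : 1 ≤ X) (hW : 0 ≤ W)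
    (hG : 0 ≤ G) (Ξ : Type) [Fintype Ξ] [Nonempty Ξ] (φ : Ξ → ℕ → V → ι → ℝ)
    (h1 : ∀ x y, (1 - τ) * dd p f x y ^ p * Fintype.card Ξ ≤
        ∑ ξ, ∑ l ∈ range (L0 + 2), nrm p (fun i => φ ξ l x i - φ ξ l y i) ^ p ∧
      ∑ ξ, ∑ l ∈ range (L0 + 2), nrm p (fun i => φ ξ l x i - φ ξ l y i) ^ p ≤
        (1 + τ) * dd p f x y ^ p * Fintype.card Ξ)
    (h2 : ∀ ξ, ∀ l ∈ range (L0 + 2), ∀ x y i, |φ ξ l x i - φ ξ l y i| ≤
      X * dd p f x y * Real.exp (((l : ℝ) + 1 - L0) * W))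
    (h3 : ∀ ξ, ∀ l ∈ range (L0 + 2), 1 ≤ l → ∀ x,
      (((univ.filter fun i => φ ξ l x i ≠ 0).card : ℕ) : ℝ) ≤
        (G / Real.exp (((l : ℝ) - 1 - L0) * W)) ^ p)
    (hK0 : ((Fintype.card ι : ℝ) + 1) * Real.exp ((1 - (L0 : ℝ)) * W) ^ p ≤ K0)
    (M : ℕ) (hM : 4 * (2 * (2 * X) ^ p / τ * (K0 + (L0 + 1) * (Real.exp (2 * W) ^ p *
      (1 + G ^ p)))) / τ ^ 2 * Real.log (2 * (Fintype.card V : ℝ) ^ 2 + 1) ≤ M) :
    ∃ F : V → Fin M → ℝ, ∀ x y,
      (1 - τ) * ((1 - 2 * τ) * (1 - τ)) * dd p f x y ^ p ≤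
        nrm p (fun k => F x k - F y k) ^ p ∧
      nrm p (fun k => F x k - F y k) ^ p ≤
        (1 + τ) * ((1 + 2 ^ (p + 1) * τ) * (1 + τ)) * dd p f x y ^ p := by
  classical
  have hp0 : 0 < p := by linarith
  set Θ : ℕ → ℝ := fun l => Real.exp (((l : ℝ) + 1 - L0) * W) with hΘ
  have hΘ0 : ∀ l, 0 < Θ l := fun l => Real.exp_pos _
  set S : ℕ → ℝ := fun l => if l = 0 then (Fintype.card ι : ℝ) + 1 else
    1 + (G / Real.exp (((l : ℝ) - 1 - L0) * W)) ^ p with hS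
  have hS1 : ∀ l, 1 ≤ S l := by
    intro l
    simp only [hS]
    split_ifs
    · have : (0 : ℝ) ≤ Fintype.card ι := Nat.cast_nonneg _
      linarith
    · have : 0 ≤ (G / Real.exp (((l : ℝ) - 1 - L0) * W)) ^ p := by positivity
      linarith
  have hdd0 : ∀ x y, 0 ≤ dd p f x y := fun x y => dd_nonneg p f x y
  have hact : ∀ ξ, ∀ l : Fin (L0 + 2), ∀ x,
      (((univ.filter fun i => φ ξ l x i ≠ 0).card : ℕ) : ℝ) ≤ S l := by
    intro ξ l x
    simp only [hS]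
    split_ifs with h0
    · have h4 : (univ.filter fun i => φ ξ l x i ≠ 0).card ≤ Fintype.card ι := card_le_univ _
      have h5 : (((univ.filter fun i => φ ξ l x i ≠ 0).card : ℕ) : ℝ) ≤ Fintype.card ι := by
        exact_mod_cast h4
      linarith
    · have h4 := h3 ξ l (mem_range.2 l.2) (by omega) x
      linarith
  have hB0 : ∀ l : Fin (L0 + 2), ∀ x y, 0 ≤ X * dd p f x y * Θ l := by
    intro l x y
    have := hΘ0 l
    have := hdd0 x y
    positivity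
  choose Ω instΩ ψ w hw hwS hψB hψu hψl using fun (ξ : Ξ) (l : Fin (L0 + 2)) =>
    merge2 hp (fun x i => φ ξ l x i) (S l) τ (hS1 l) hτ (by linarith) (hact ξ l)
      (fun x y => X * dd p f x y * Θ l) (fun x y i => h2 ξ l (mem_range.2 l.2) x y i) (hB0 l)
  set Ω' : Type := Σ q : Ξ × Fin (L0 + 2), Ω q.1 q.2 with hΩ'
  set c : ℝ := (Fintype.card Ξ : ℝ) with hc
  have hc0 : 0 < c := by
    rw [hc]
    exact_mod_cast Fintype.card_pos
  set ψ' : Ω' → V → ℝ := fun ω => ψ ω.1.1 ω.1.2 ω.2 with hψ'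
  set w' : Ω' → ℝ := fun ω => w ω.1.1 ω.1.2 ω.2 / c with hw'
  have hw'0 : ∀ ω, 0 ≤ w' ω := fun ω => div_nonneg (hw _ _ _) hc0.le
  set E : V → V → ℝ := fun x y => ∑ ω : Ω', w' ω * |ψ' ω x - ψ' ω y| ^ p with hE
  have hEj : ∀ x y, E x y = (∑ ξ, ∑ l : Fin (L0 + 2), ∑ ω, w ξ l ω *
      |ψ ξ l ω x - ψ ξ l ω y| ^ p) / c := by
    intro x y
    simp only [hE, hψ', hw']
    rw [Fintype.sum_sigma, Fintype.sum_prod_type, sum_div]
    refine sum_congr rfl fun ξ _ => ?_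
    rw [sum_div]
    refine sum_congr rfl fun l _ => ?_
    rw [sum_div]
    refine sum_congr rfl fun ω _ => ?_
    ring
  have hnl : ∀ x y ξ, ∑ l ∈ range (L0 + 2), nrm p (fun i => φ ξ l x i - φ ξ l y i) ^ p =
      ∑ l : Fin (L0 + 2), ∑ i, |φ ξ l x i - φ ξ l y i| ^ p := by
    intro x y ξ
    rw [← Fin.sum_univ_eq_sum_range (fun l => nrm p (fun i => φ ξ l x i - φ ξ l y i) ^ p)]
    refine sum_congr rfl fun l _ => ?_
    rw [nrm_rpow hp]
  have hup : ∀ x y, E x y ≤ (1 + 2 ^ (p + 1) * τ) * (1 + τ) * dd p f x y ^ p := by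
    intro x y
    rw [hEj, div_le_iff₀ hc0]
    have hpos : (0 : ℝ) ≤ 1 + 2 ^ (p + 1) * τ := by positivity
    calc ∑ ξ, ∑ l : Fin (L0 + 2), ∑ ω, w ξ l ω * |ψ ξ l ω x - ψ ξ l ω y| ^ p
        ≤ ∑ ξ, ∑ l : Fin (L0 + 2), (1 + 2 ^ (p + 1) * τ) * ∑ i, |φ ξ l x i - φ ξ l y i| ^ p :=
          sum_le_sum fun ξ _ => sum_le_sum fun l _ => hψu ξ l x y
      _ = (1 + 2 ^ (p + 1) * τ) * ∑ ξ, ∑ l ∈ range (L0 + 2),
            nrm p (fun i => φ ξ l x i - φ ξ l y i) ^ p := by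
          rw [mul_sum]
          refine sum_congr rfl fun ξ _ => ?_
          rw [hnl, mul_sum]
      _ ≤ (1 + 2 ^ (p + 1) * τ) * ((1 + τ) * dd p f x y ^ p * c) :=
          mul_le_mul_of_nonneg_left (h1 x y).2 hpos
      _ = _ := by ring
  have hlow : ∀ x y, (1 - 2 * τ) * (1 - τ) * dd p f x y ^ p ≤ E x y := by
    intro x y
    rw [hEj, le_div_iff₀ hc0]
    have hpos : (0 : ℝ) ≤ 1 - 2 * τ := by linarith
    calc (1 - 2 * τ) * (1 - τ) * dd p f x y ^ p * c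
        = (1 - 2 * τ) * ((1 - τ) * dd p f x y ^ p * c) := by ring
      _ ≤ (1 - 2 * τ) * ∑ ξ, ∑ l ∈ range (L0 + 2),
            nrm p (fun i => φ ξ l x i - φ ξ l y i) ^ p :=
          mul_le_mul_of_nonneg_left (h1 x y).1 hpos
      _ = ∑ ξ, ∑ l : Fin (L0 + 2), (1 - 2 * τ) * ∑ i, |φ ξ l x i - φ ξ l y i| ^ p := by
          rw [mul_sum]
          refine sum_congr rfl fun ξ _ => ?_
          rw [hnl, mul_sum]
      _ ≤ _ := sum_le_sum fun ξ _ => sum_le_sum fun l _ => hψl ξ l x y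
  have hhalf : ∀ x y, dd p f x y ^ p ≤ 2 * E x y := by
    intro x y
    have e1 := hlow x y
    have e2 : 0 ≤ dd p f x y ^ p := Real.rpow_nonneg (hdd0 x y) _
    have e3 : (1 : ℝ) / 2 ≤ (1 - 2 * τ) * (1 - τ) := by nlinarith
    nlinarith [mul_le_mul_of_nonneg_right e3 e2]
  set b' : Ω' → ℝ := fun ω => 2 * (2 * X * Θ ω.1.2) ^ p with hb'
  have hb'0 : ∀ ω, 0 ≤ b' ω := by
    intro ω
    have := hΘ0 ω.1.2
    positivity
  have hbound : ∀ ω x y, |ψ' ω x - ψ' ω y| ^ p ≤ b' ω * ∑ ω', w' ω' * |ψ' ω' x - ψ' ω' y| ^ p := by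
    intro ω x y
    have e1 := hψB ω.1.1 ω.1.2 ω.2 x y
    have e0 := hΘ0 ω.1.2
    have ed := hdd0 x y
    have e2 : |ψ' ω x - ψ' ω y| ^ p ≤ (2 * X * Θ ω.1.2 * dd p f x y) ^ p := by
      refine Real.rpow_le_rpow (abs_nonneg _) (e1.trans (le_of_eq ?_)) hp0.le
      ring
    rw [Real.mul_rpow (by positivity) ed] at e2
    refine e2.trans ?_
    have e3 : (2 * X * Θ ω.1.2) ^ p * dd p f x y ^ p ≤ (2 * X * Θ ω.1.2) ^ p * (2 * E x y) :=
      mul_le_mul_of_nonneg_left (hhalf x y) (by positivity)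
    refine e3.trans (le_of_eq ?_)
    simp only [hb', hE]
    ring
  set K : ℝ := 2 * (2 * X) ^ p / τ * (K0 + (L0 + 1) * (Real.exp (2 * W) ^ p * (1 + G ^ p)))
    with hK
  have hX0 : 0 < X := by linarith
  have hK00 : 0 ≤ K0 := le_trans (by positivity) hK0
  have hKpos : 0 < K := by positivity
  have hSΘ0 : S 0 * Θ 0 ^ p ≤ K0 := by
    simp only [hS, hΘ, if_true, Nat.cast_zero, zero_add]
    exact hK0
  have hSΘ : ∀ l, l ≠ 0 → l < L0 + 2 → S l * Θ l ^ p ≤ Real.exp (2 * W) ^ p * (1 + G ^ p) := by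
    intro l hl hl2
    simp only [hS, if_neg hl]
    have hl3 : (l : ℝ) ≤ L0 + 1 := by
      have : l ≤ L0 + 1 := by omega
      exact_mod_cast this
    have e1 : Θ l ^ p ≤ Real.exp (2 * W) ^ p := by
      refine Real.rpow_le_rpow (hΘ0 l).le (Real.exp_le_exp.2 ?_) hp0.le
      exact mul_le_mul_of_nonneg_right (by linarith) hW
    have e2 : (G / Real.exp (((l : ℝ) - 1 - L0) * W)) ^ p * Θ l ^ p =
        Real.exp (2 * W) ^ p * G ^ p := by
      rw [← Real.mul_rpow (by positivity) (hΘ0 l).le,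
        ← Real.mul_rpow (Real.exp_pos _).le hG]
      congr 1
      have e3 : Θ l = Real.exp (2 * W) * Real.exp (((l : ℝ) - 1 - L0) * W) := by
        simp only [hΘ]
        rw [← Real.exp_add]
        congr 1
        ring
      rw [e3]
      have := (Real.exp_pos (((l : ℝ) - 1 - L0) * W)).ne'
      field_simp
    calc (1 + (G / Real.exp (((l : ℝ) - 1 - L0) * W)) ^ p) * Θ l ^ p
        = Θ l ^ p + (G / Real.exp (((l : ℝ) - 1 - L0) * W)) ^ p * Θ l ^ p := by ring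
      _ ≤ Real.exp (2 * W) ^ p + Real.exp (2 * W) ^ p * G ^ p := by rw [e2]; linarith
      _ = _ := by ring
  have hwb : ∑ ω, w' ω * b' ω ≤ K := by
    have e1 : ∑ ω : Ω', w' ω * b' ω = ∑ ξ : Ξ, ∑ l : Fin (L0 + 2),
        (∑ ω, w ξ l ω) * (2 * (2 * X * Θ l) ^ p) / c := by
      simp only [hw', hb']
      rw [Fintype.sum_sigma, Fintype.sum_prod_type]
      refine sum_congr rfl fun ξ _ => sum_congr rfl fun l _ => ?_
      rw [sum_mul, sum_div]
      refine sum_congr rfl fun ω _ => ?_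
      ring
    have e2 : ∀ ξ : Ξ, ∑ l : Fin (L0 + 2), (∑ ω, w ξ l ω) * (2 * (2 * X * Θ l) ^ p) / c ≤
        K / c := by
      intro ξ
      rw [← sum_div]
      refine div_le_div_of_nonneg_right ?_ hc0.le
      calc ∑ l : Fin (L0 + 2), (∑ ω, w ξ l ω) * (2 * (2 * X * Θ l) ^ p)
          ≤ ∑ l : Fin (L0 + 2), 2 * (2 * X) ^ p / τ * (S l * Θ l ^ p) := by
            refine sum_le_sum fun l _ => ?_
            have h0 := hΘ0 l
            calc (∑ ω, w ξ l ω) * (2 * (2 * X * Θ l) ^ p)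
                ≤ S l / τ * (2 * (2 * X * Θ l) ^ p) :=
                  mul_le_mul_of_nonneg_right (hwS ξ l) (by positivity)
              _ = 2 * (2 * X) ^ p / τ * (S l * Θ l ^ p) := by
                  rw [Real.mul_rpow (by positivity) h0.le]
                  ring
        _ = 2 * (2 * X) ^ p / τ * ∑ l : Fin (L0 + 2), S l * Θ l ^ p := by rw [mul_sum]
        _ ≤ K := by
            rw [hK]
            refine mul_le_mul_of_nonneg_left ?_ (by positivity)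
            rw [Fin.sum_univ_eq_sum_range (fun l => S l * Θ l ^ p) (L0 + 2), sum_range_succ']
            have e3 : ∑ l ∈ range (L0 + 1), S (l + 1) * Θ (l + 1) ^ p ≤
                ∑ _l ∈ range (L0 + 1), Real.exp (2 * W) ^ p * (1 + G ^ p) := by
              refine sum_le_sum fun l hl => hSΘ (l + 1) (by omega) ?_
              have := mem_range.1 hl
              omega
            rw [sum_const, card_range, nsmul_eq_mul] at e3
            push_cast at e3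
            linarith
    rw [e1]
    refine (sum_le_sum fun ξ _ => e2 ξ).trans (le_of_eq ?_)
    rw [sum_const, card_univ, nsmul_eq_mul, ← hc]
    field_simp
  obtain ⟨F, hF⟩ := kLemma hp ψ' w' b' hw'0 hb'0 hbound K τ hKpos hwb hτ (by linarith) M hM
  refine ⟨F, fun x y => ?_⟩
  obtain ⟨g1, g2⟩ := hF x y
  rw [← nrm_rpow hp] at g1 g2
  constructor
  · refine le_trans ?_ g1
    calc (1 - τ) * ((1 - 2 * τ) * (1 - τ)) * dd p f x y ^ p
        = (1 - τ) * ((1 - 2 * τ) * (1 - τ) * dd p f x y ^ p) := by ring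
      _ ≤ (1 - τ) * E x y := mul_le_mul_of_nonneg_left (hlow x y) (by linarith)
  · refine g2.trans ?_
    calc (1 + τ) * E x y
        ≤ (1 + τ) * ((1 + 2 ^ (p + 1) * τ) * (1 + τ) * dd p f x y ^ p) :=
          mul_le_mul_of_nonneg_left (hup x y) (by linarith)
      _ = _ := by ring

lemma lo_bound {τ : ℝ} (hτ : 0 < τ) (hτ1 : τ ≤ 1 / 8) :
    1 - 4 * τ ≤ (1 - τ) * ((1 - 2 * τ) * (1 - τ)) := by
  have h1 : 0 ≤ τ ^ 2 * (5 - 2 * τ) := by
    have : 0 ≤ 5 - 2 * τ := by linarith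
    positivity
  have h2 : (1 - τ) * ((1 - 2 * τ) * (1 - τ)) = 1 - 4 * τ + τ ^ 2 * (5 - 2 * τ) := by ring
  rw [h2]
  linarith

lemma hi_bound {δ τ P : ℝ} (hδ : 0 < δ) (hδ1 : δ ≤ 1) (hτ0 : 0 < τ) (hP : P * τ = δ / 100)
    (hτ : 4 * τ ≤ δ / 100) :
    (1 + τ) * ((1 + P * τ) * (1 + τ)) ≤ (1 + δ) * (1 - 4 * τ) := by
  rw [hP]
  have hx : τ ≤ δ / 100 := by linarith
  have h1 : (1 + τ) * ((1 + δ / 100) * (1 + τ)) ≤
      (1 + δ / 100) * ((1 + δ / 100) * (1 + δ / 100)) := by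
    gcongr
  have h2 : (1 + δ / 100) * ((1 + δ / 100) * (1 + δ / 100)) ≤ 1 + 4 * (δ / 100) := by
    have a1 : δ ^ 2 ≤ δ := by nlinarith
    have a2 : δ ^ 3 ≤ δ := by nlinarith
    have a3 : (1 + δ / 100) * ((1 + δ / 100) * (1 + δ / 100)) =
      1 + 3 * (δ / 100) + 3 * δ ^ 2 / 10000 + δ ^ 3 / 1000000 := by ring
    rw [a3]
    linarith
  have h3 : 1 + 4 * (δ / 100) ≤ (1 + δ) * (1 - δ / 100) := by
    have a1 : δ ^ 2 ≤ δ := by nlinarith
    have a2 : (1 + δ) * (1 - δ / 100) = 1 + δ - δ / 100 - δ ^ 2 / 100 := by ring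
    rw [a2]
    linarith
  have h4 : (1 + δ) * (1 - δ / 100) ≤ (1 + δ) * (1 - 4 * τ) :=
    mul_le_mul_of_nonneg_left (by linarith) (by linarith)
  linarith

/-- from the `p`-th powers to the norms -/
lemma final_step {p δ lo hi : ℝ} (hp : 1 ≤ p) (hδ : 0 < δ) (hlo : 0 < lo)
    (hhi : hi ≤ (1 + δ) * lo) {ρ N : ℝ} (hρ : 0 ≤ ρ) (hN : 0 ≤ N) (g1 : lo * ρ ^ p ≤ N ^ p)
    (g2 : N ^ p ≤ hi * ρ ^ p) :
    lo ^ (1 / p) * ρ ≤ N ∧ N ≤ (1 + δ) * lo ^ (1 / p) * ρ := by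
  have hp0 : 0 < p := by linarith
  have hs0 : 0 < lo ^ (1 / p) := by positivity
  have hsp : (lo ^ (1 / p)) ^ p = lo := by
    rw [← Real.rpow_mul hlo.le, one_div_mul_cancel hp0.ne', Real.rpow_one]
  constructor
  · rw [← Real.rpow_le_rpow_iff (by positivity) hN hp0, Real.mul_rpow hs0.le hρ, hsp]
    exact g1
  · rw [← Real.rpow_le_rpow_iff hN (by positivity) hp0, Real.mul_rpow (by positivity) hρ,
      Real.mul_rpow (by positivity) hs0.le, hsp]
    refine g2.trans ?_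
    refine mul_le_mul_of_nonneg_right ?_ (by positivity)
    have e1 : 1 + δ ≤ (1 + δ) ^ p := by
      calc 1 + δ = (1 + δ) ^ (1 : ℝ) := (Real.rpow_one _).symm
        _ ≤ (1 + δ) ^ p := Real.rpow_le_rpow_of_exponent_le (by linarith) hp
    exact hhi.trans (mul_le_mul_of_nonneg_right e1 hlo.le)

/-- the number of coordinates is enough -/
lemma count_bound {p η A X τ n : ℝ} (L0 : ℕ) (hp1 : 1 ≤ p) (hη : 0 < η) (hA : 0 < A)
    (hX : 1 ≤ X) (hτ : 0 < τ) (hn2 : 2 ≤ n) (hl : 1 ≤ Real.log n) :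
    4 * (2 * (2 * X) ^ p / τ * ((A + 1) + (L0 + 1) * (Real.exp (2 * (η * Real.log n)) ^ p *
        (1 + (X * Real.log n) ^ p)))) / τ ^ 2 * Real.log (2 * n ^ 2 + 1) ≤
      4 * (2 * (2 * X) ^ p / τ * ((A + 1) * (L0 + 2) * (2 * X ^ p))) / τ ^ 2 *
        (4 * 7 ^ p / (p * η / (p + 1)) ^ (p + 1)) * n ^ (3 * p * η) := by
  have hp0 : 0 < p := by linarith
  have hX0 : 0 < X := by linarith
  have hnpos : 0 < n := by linarith
  have hG0 : 0 ≤ X * Real.log n := by positivity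
  have hlogpos : 0 ≤ Real.log (2 * n ^ 2 + 1) := Real.log_nonneg (by nlinarith)
  have e1 : Real.exp (2 * (η * Real.log n)) ^ p = n ^ (2 * p * η) := by
    rw [Real.rpow_def_of_pos hnpos, ← Real.exp_mul]
    congr 1; ring
  have e2 : 1 ≤ n ^ (2 * p * η) := Real.one_le_rpow (by linarith) (by positivity)
  have e3 : 1 + (X * Real.log n) ^ p ≤ 2 * X ^ p * (6 * Real.log n + 1) ^ p := by
    have a1 : (1 : ℝ) ≤ (X * (6 * Real.log n + 1)) ^ p :=
      Real.one_le_rpow (by nlinarith) hp0.le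
    have a2 : (X * Real.log n) ^ p ≤ (X * (6 * Real.log n + 1)) ^ p :=
      Real.rpow_le_rpow hG0 (mul_le_mul_of_nonneg_left (by linarith) hX0.le) hp0.le
    have a3 : (X * (6 * Real.log n + 1)) ^ p = X ^ p * (6 * Real.log n + 1) ^ p :=
      Real.mul_rpow hX0.le (by linarith)
    rw [a3] at a1 a2
    linarith
  have e4 : 1 ≤ 2 * X ^ p * (6 * Real.log n + 1) ^ p := by
    have : 0 ≤ (X * Real.log n) ^ p := by positivity
    linarith
  have e5 : (A + 1) + (L0 + 1) * (Real.exp (2 * (η * Real.log n)) ^ p *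
      (1 + (X * Real.log n) ^ p)) ≤
      (A + 1) * (L0 + 2) * (2 * X ^ p) * (n ^ (2 * p * η) * (6 * Real.log n + 1) ^ p) := by
    rw [e1]
    set Y : ℝ := n ^ (2 * p * η) * (2 * X ^ p * (6 * Real.log n + 1) ^ p) with hY
    have a1 : 1 ≤ Y := one_le_mul_of_one_le_of_one_le e2 e4
    have a2 : n ^ (2 * p * η) * (1 + (X * Real.log n) ^ p) ≤ Y :=
      mul_le_mul_of_nonneg_left e3 (by linarith)
    have a3 : (0 : ℝ) ≤ L0 := Nat.cast_nonneg _
    calc (A + 1) + (L0 + 1) * (n ^ (2 * p * η) * (1 + (X * Real.log n) ^ p))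
        ≤ (A + 1) * Y + (L0 + 1) * Y := by
          have b1 := mul_le_mul_of_nonneg_left a1 (show 0 ≤ A + 1 by linarith)
          have b2 := mul_le_mul_of_nonneg_left a2 (show (0 : ℝ) ≤ L0 + 1 by linarith)
          linarith
      _ ≤ (A + 1) * Y + (A + 1) * ((L0 + 1) * Y) := by
          have b3 : 0 ≤ A * ((L0 + 1) * Y) := by positivity
          linarith
      _ = (A + 1) * (L0 + 2) * (2 * X ^ p) * (n ^ (2 * p * η) * (6 * Real.log n + 1) ^ p) := by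
          rw [hY]; ring
  have e6 := FiniteAux.log_bound (n := n) hp1 hη hn2 hl
  have e7 : 0 ≤ 4 * (2 * (2 * X) ^ p / τ) / τ ^ 2 * Real.log (2 * n ^ 2 + 1) := by positivity
  calc 4 * (2 * (2 * X) ^ p / τ * ((A + 1) + (L0 + 1) * (Real.exp (2 * (η * Real.log n)) ^ p *
        (1 + (X * Real.log n) ^ p)))) / τ ^ 2 * Real.log (2 * n ^ 2 + 1)
      = 4 * (2 * (2 * X) ^ p / τ) / τ ^ 2 * Real.log (2 * n ^ 2 + 1) *
        ((A + 1) + (L0 + 1) * (Real.exp (2 * (η * Real.log n)) ^ p *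
        (1 + (X * Real.log n) ^ p))) := by ring
    _ ≤ 4 * (2 * (2 * X) ^ p / τ) / τ ^ 2 * Real.log (2 * n ^ 2 + 1) *
        ((A + 1) * (L0 + 2) * (2 * X ^ p) * (n ^ (2 * p * η) * (6 * Real.log n + 1) ^ p)) :=
        mul_le_mul_of_nonneg_left e5 e7
    _ = 4 * (2 * (2 * X) ^ p / τ * ((A + 1) * (L0 + 2) * (2 * X ^ p))) / τ ^ 2 *
        n ^ (2 * p * η) * ((6 * Real.log n + 1) ^ p * Real.log (2 * n ^ 2 + 1)) := by ring
    _ ≤ 4 * (2 * (2 * X) ^ p / τ * ((A + 1) * (L0 + 2) * (2 * X ^ p))) / τ ^ 2 *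
        n ^ (2 * p * η) * (4 * 7 ^ p / (p * η / (p + 1)) ^ (p + 1) * n ^ (p * η)) :=
        mul_le_mul_of_nonneg_left e6 (by positivity)
    _ = 4 * (2 * (2 * X) ^ p / τ * ((A + 1) * (L0 + 2) * (2 * X ^ p))) / τ ^ 2 *
        (4 * 7 ^ p / (p * η / (p + 1)) ^ (p + 1)) * (n ^ (2 * p * η) * n ^ (p * η)) := by ring
    _ = _ := by
        rw [← Real.rpow_add hnpos]; congr 2; ring

end Finite2Aux

open Finite2Aux FiniteAux

/-- the finite-dimensional core, given the output of `split2` at the parameter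
`δ / (100 * 2 ^ (p + 1))` -/
theorem finite_core2_of {p : ℝ} (hp : 1 < p) {η δ : ℝ} (hη : 0 < η) (hη1 : η ≤ 1) (hδ : 0 < δ)
    (hδ1 : δ ≤ 1) (A : ℝ) (hA : 0 < A)
    (hsp : ∃ n0 X : ℝ, 2 ≤ n0 ∧ 1 ≤ X ∧
      ∀ (V : Type) [Fintype V] (ι : Type) [Fintype ι] (f : V → ι → ℝ),
      Function.Injective f → n0 ≤ Fintype.card V → ∀ L0 : ℕ,
      ∃ (Ξ : Type) (_ : Fintype Ξ) (_ : Nonempty Ξ) (φ : Ξ → ℕ → V → ι → ℝ),
        (∀ x y, (1 - δ / (100 * 2 ^ (p + 1))) * dd p f x y ^ p * Fintype.card Ξ ≤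
            ∑ ξ, ∑ l ∈ range (L0 + 2), nrm p (fun i => φ ξ l x i - φ ξ l y i) ^ p ∧
          ∑ ξ, ∑ l ∈ range (L0 + 2), nrm p (fun i => φ ξ l x i - φ ξ l y i) ^ p ≤
            (1 + δ / (100 * 2 ^ (p + 1))) * dd p f x y ^ p * Fintype.card Ξ) ∧
        (∀ ξ, ∀ l ∈ range (L0 + 2), ∀ x y i, |φ ξ l x i - φ ξ l y i| ≤
          X * dd p f x y * Real.exp (((l : ℝ) + 1 - L0) * (η * Real.log (Fintype.card V)))) ∧
        (∀ ξ, ∀ l ∈ range (L0 + 2), 1 ≤ l → ∀ x,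
          (((univ.filter fun i => φ ξ l x i ≠ 0).card : ℕ) : ℝ) ≤
            (X * Real.log (Fintype.card V) /
              Real.exp (((l : ℝ) - 1 - L0) * (η * Real.log (Fintype.card V)))) ^ p)) :
    ∃ C : ℝ, 0 < C ∧ ∀ (V : Type) [Fintype V] (ι : Type) [Fintype ι] (f : V → ι → ℝ),
      Function.Injective f → 2 ≤ Fintype.card V →
      (Fintype.card ι : ℝ) ≤ A * (Fintype.card V : ℝ) ^ (2:ℝ) →
      ∀ M : ℕ, C * (Fintype.card V : ℝ) ^ (3 * p * η) ≤ M →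
      ∃ F : V → Fin M → ℝ, ∃ s : ℝ, 0 < s ∧ ∀ x y,
        s * nrm p (fun i => f x i - f y i) ≤ nrm p (fun k => F x k - F y k) ∧
        nrm p (fun k => F x k - F y k) ≤ (1 + δ) * s * nrm p (fun i => f x i - f y i) := by
  have hp0 : 0 < p := by linarith
  have hp1 : 1 ≤ p := hp.le
  obtain ⟨n1, X, hn1, hX, hsp⟩ := hsp
  set τ : ℝ := δ / (100 * 2 ^ (p + 1)) with hτd
  have h2p : (4 : ℝ) ≤ 2 ^ (p + 1) := by
    calc (4 : ℝ) = 2 ^ (2 : ℝ) := by norm_num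
      _ ≤ 2 ^ (p + 1) := Real.rpow_le_rpow_of_exponent_le (by norm_num) (by linarith)
  have hτ : 0 < τ := by positivity
  have hPτ : 2 ^ (p + 1) * τ = δ / 100 := by
    rw [hτd]
    field_simp
  have h4τ : 4 * τ ≤ δ / 100 := by
    rw [← hPτ]
    exact mul_le_mul_of_nonneg_right h2p hτ.le
  have hτ8 : τ ≤ 1 / 8 := by linarith
  set L0 : ℕ := ⌈2 / η⌉₊ + 1 with hL0
  have hL0η : 2 ≤ ((L0 : ℝ) - 1) * η := by
    have h1 : 2 / η ≤ (⌈2 / η⌉₊ : ℝ) := Nat.le_ceil _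
    rw [div_le_iff₀ hη] at h1
    rw [hL0]
    push_cast
    linarith
  set n0 : ℝ := max n1 (Real.exp 1) with hn0
  set C1 : ℝ := 4 * (2 * (2 * X) ^ p / τ * ((A + 1) * (L0 + 2) * (2 * X ^ p))) / τ ^ 2 *
    (4 * 7 ^ p / (p * η / (p + 1)) ^ (p + 1)) with hC1
  have hX0 : 0 < X := by linarith
  have hC10 : 0 < C1 := by positivity
  have hn00 : 0 < n0 := lt_of_lt_of_le (Real.exp_pos _) (le_max_right _ _)
  refine ⟨max (A * n0 ^ (2:ℝ)) C1, lt_of_lt_of_le hC10 (le_max_right _ _), ?_⟩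
  intro V _ ι _ f hf hV hι M hM
  set n : ℝ := (Fintype.card V : ℝ) with hn
  have hn2 : 2 ≤ n := by rw [hn]; exact_mod_cast hV
  have hnpos : 0 < n := by linarith
  have hnp : 1 ≤ n ^ (3 * p * η) := Real.one_le_rpow (by linarith) (by positivity)
  by_cases hsmall : n < n0
  · have hcard : Fintype.card ι ≤ M := by
      have h1 : (Fintype.card ι : ℝ) ≤ M := by
        calc (Fintype.card ι : ℝ) ≤ A * n ^ (2:ℝ) := hι
          _ ≤ A * n0 ^ (2:ℝ) := by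
            apply mul_le_mul_of_nonneg_left _ hA.le
            exact Real.rpow_le_rpow hnpos.le hsmall.le (by norm_num)
          _ ≤ max (A * n0 ^ (2:ℝ)) C1 := le_max_left _ _
          _ ≤ max (A * n0 ^ (2:ℝ)) C1 * n ^ (3 * p * η) :=
            le_mul_of_one_le_right (le_trans hC10.le (le_max_right _ _)) hnp
          _ ≤ M := hM
      exact_mod_cast h1
    obtain ⟨F, hF⟩ := small_case hp1 f M hcard
    refine ⟨F, 1, one_pos, fun x y => ?_⟩
    rw [hF]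
    have h0 : 0 ≤ nrm p (fun i => f x i - f y i) := nrm_nonneg _
    refine ⟨by linarith, ?_⟩
    rw [mul_one]
    exact le_mul_of_one_le_left h0 (by linarith)
  · push Not at hsmall
    have hl : 1 ≤ Real.log n := by
      rw [Real.le_log_iff_exp_le hnpos]
      exact (le_max_right _ _).trans hsmall
    obtain ⟨Ξ, _, _, φ, h1, h2, h3⟩ := hsp V ι f hf ((le_max_left _ _).trans hsmall) L0
    set W : ℝ := η * Real.log n with hW
    have hW0 : 0 ≤ W := by positivity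
    have hexp : ∀ c : ℝ, Real.exp (c * W) = n ^ (c * η) := by
      intro c
      rw [Real.rpow_def_of_pos hnpos, hW]
      congr 1; ring
    have hG0 : 0 ≤ X * Real.log n := by positivity
    have hK0 : ((Fintype.card ι : ℝ) + 1) * Real.exp ((1 - (L0 : ℝ)) * W) ^ p ≤ A + 1 := by
      have e1 : (Fintype.card ι : ℝ) + 1 ≤ (A + 1) * n ^ (2:ℝ) := by
        have : 1 ≤ n ^ (2:ℝ) := Real.one_le_rpow (by linarith) (by norm_num)
        linarith
      have e2 : Real.exp ((1 - (L0 : ℝ)) * W) ^ p ≤ n ^ (-2:ℝ) := by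
        rw [hexp, ← Real.rpow_mul hnpos.le]
        apply Real.rpow_le_rpow_of_exponent_le (by linarith)
        nlinarith
      have e3 : n ^ (2:ℝ) * n ^ (-2:ℝ) = 1 := by
        rw [← Real.rpow_add hnpos]; norm_num
      calc ((Fintype.card ι : ℝ) + 1) * Real.exp ((1 - (L0 : ℝ)) * W) ^ p
          ≤ ((A + 1) * n ^ (2:ℝ)) * n ^ (-2:ℝ) :=
            mul_le_mul e1 e2 (by positivity) (by positivity)
        _ = (A + 1) * (n ^ (2:ℝ) * n ^ (-2:ℝ)) := by ring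
        _ = A + 1 := by rw [e3, mul_one]
    have hKM : 4 * (2 * (2 * X) ^ p / τ * ((A + 1) + (L0 + 1) * (Real.exp (2 * W) ^ p *
        (1 + (X * Real.log n) ^ p)))) / τ ^ 2 * Real.log (2 * n ^ 2 + 1) ≤ M := by
      refine (count_bound L0 hp1 hη hA hX hτ hn2 hl).trans ?_
      refine le_trans ?_ hM
      exact mul_le_mul_of_nonneg_right (le_max_right _ _) (by positivity)
    obtain ⟨F, hF⟩ := core2 hp1 f τ X W (X * Real.log n) (A + 1) L0 hτ hτ8 hX hW0 hG0 Ξ φ h1 h2 h3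
      hK0 M hKM
    have hlo1 := lo_bound hτ hτ8
    set lo : ℝ := (1 - τ) * ((1 - 2 * τ) * (1 - τ)) with hlo
    have hlo0 : 0 < lo := by linarith
    have hhi : (1 + τ) * ((1 + 2 ^ (p + 1) * τ) * (1 + τ)) ≤ (1 + δ) * lo :=
      (hi_bound hδ hδ1 hτ hPτ h4τ).trans (mul_le_mul_of_nonneg_left hlo1 (by linarith))
    refine ⟨F, lo ^ (1 / p), by positivity, fun x y => ?_⟩
    obtain ⟨g1, g2⟩ := hF x y
    exact final_step hp1 hδ hlo0 hhi (nrm_nonneg _) (nrm_nonneg _) g1 g2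

end Vale.Agent.P249
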