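import Vale.Agent.P249.Split2
import Vale.Agent.P249.Finite2Core

/-! P249, all distortions: the finite-dimensional core. -/

open Finset MeasureTheory

namespace Vale.Agent.P249

theorem finite_core2 {p : ℝ} (hp : 1 < p) {η δ : ℝ} (hη : 0 < η) (hη1 : η ≤ 1) (hδ : 0 < δ)
    (hδ1 : δ ≤ 1) (A : ℝ) (hA : 0 < A) :
    ∃ C : ℝ, 0 < C ∧ ∀ (V : Type) [Fintype V] (ι : Type) [Fintype ι] (f : V → ι → ℝ),
      Function.Injective f → 2 ≤ Fintype.card V →
      (Fintype.card ι : ℝ) ≤ A * (Fintype.card V : ℝ) ^ (2:ℝ) →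
      ∀ M : ℕ, C * (Fintype.card V : ℝ) ^ (3 * p * η) ≤ M →
      ∃ F : V → Fin M → ℝ, ∃ s : ℝ, 0 < s ∧ ∀ x y,
        s * nrm p (fun i => f x i - f y i) ≤ nrm p (fun k => F x k - F y k) ∧
        nrm p (fun k => F x k - F y k) ≤ (1 + δ) * s * nrm p (fun i => f x i - f y i) := by
  have hpow : (1 : ℝ) ≤ 2 ^ (p + 1) := Real.one_le_rpow (by norm_num) (by linarith)
  exact finite_core2_of hp hη hη1 hδ hδ1 A hA
    (split2 hp (δ := δ / (100 * 2 ^ (p + 1))) (by positivity)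
      (by rw [div_le_one (by positivity)]; linarith) hη hη1)

end Vale.Agent.P249
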