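import Vale.Agent.P249.Moment
import Vale.Agent.P249.Defs

open MeasureTheory Metric Set ProbabilityTheory
open scoped NNReal ENNReal

namespace Vale.Agent.P249

/-- the `L_p` norm of a standard Gaussian -/
noncomputable def gp (p : ℝ) : ℝ := (eLpNorm (id : ℝ → ℝ) (ENNReal.ofReal p) (gaussianReal 0 1)).toReal

lemma gp_pos (p : ℝ) (hp : 0 < p) : 0 < gp p := by
  unfold gp
  apply ENNReal.toReal_pos
  · intro h
    rw [eLpNorm_eq_zero_iff (by fun_prop) (by simpa using hp)] at h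
    have h1 : gaussianReal 0 1 {x : ℝ | ¬ (id x : ℝ) = (0 : ℝ → ℝ) x} = 0 := h
    have h2 := gaussianReal_absolutelyContinuous' 0 (one_ne_zero (α := ℝ≥0)) h1
    have h3 : (Ioi (0:ℝ)) ⊆ {x : ℝ | ¬ (id x : ℝ) = (0 : ℝ → ℝ) x} := by
      intro x hx
      simp only [id, Pi.zero_apply, mem_setOf_eq]
      exact ne_of_gt hx
    have h4 := measure_mono_null h3 h2
    simp at h4
  · exact (memLp_id_gaussianReal' (ENNReal.ofReal p) ENNReal.ofReal_ne_top).2.ne

variable {E : Type*} [NormedAddCommGroup E] [InnerProductSpace ℝ E] [FiniteDimensional ℝ E]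
  [MeasurableSpace E] [BorelSpace E]

lemma memLp_inner (p : ℝ) (a : E) :
    MemLp (innerSL ℝ a) (ENNReal.ofReal p) (stdGaussian E) :=
  IsGaussian.memLp_dual _ _ _ ENNReal.ofReal_ne_top

/-- the Gaussian embedding of a Euclidean space in `L_p` -/
noncomputable def gT (p : ℝ) (a : E) : Lp ℝ (ENNReal.ofReal p) (stdGaussian E) :=
  (memLp_inner p a).toLp (innerSL ℝ a)

lemma eLpNorm_inner (p : ℝ) (a : E) :
    eLpNorm (innerSL ℝ a) (ENNReal.ofReal p) (stdGaussian E) =
      ENNReal.ofReal ‖a‖ * eLpNorm (id : ℝ → ℝ) (ENNReal.ofReal p) (gaussianReal 0 1) := by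
  have h1 : (stdGaussian E).map (innerSL ℝ a) = (gaussianReal 0 1).map (‖a‖ * ·) := by
    rw [IsGaussian.map_eq_gaussianReal, gaussianReal_map_const_mul, integral_strongDual_stdGaussian,
      variance_dual_stdGaussian, innerSL_apply_norm]
    congr 1
    · simp
    · ext
      simp
  have h2 : eLpNorm (innerSL ℝ a) (ENNReal.ofReal p) (stdGaussian E) =
      eLpNorm (id : ℝ → ℝ) (ENNReal.ofReal p) ((stdGaussian E).map (innerSL ℝ a)) := by
    rw [eLpNorm_map_measure (by fun_prop) (by fun_prop)]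
    rfl
  rw [h2, h1, eLpNorm_map_measure (by fun_prop) (by fun_prop)]
  have h3 : (id ∘ (fun x : ℝ => ‖a‖ * x)) = ‖a‖ • (id : ℝ → ℝ) := by
    ext x; simp
  rw [h3, eLpNorm_const_smul]
  congr 1
  rw [← ofReal_norm_eq_enorm, norm_norm]

lemma norm_gT_sub (p : ℝ) (a b : E) : ‖gT p a - gT p b‖ = gp p * ‖a - b‖ := by
  unfold gT
  rw [← MemLp.toLp_sub, Lp.norm_toLp]
  have : (⇑(innerSL ℝ a) - ⇑(innerSL ℝ b) : E → ℝ) = innerSL ℝ (a - b) := by
    ext x; simp [inner_sub_left]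
  rw [eLpNorm_congr_ae (Filter.Eventually.of_forall (fun x => congrFun this x)), eLpNorm_inner,
    ENNReal.toReal_mul, ENNReal.toReal_ofReal (norm_nonneg _)]
  unfold gp
  ring

end Vale.Agent.P249
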