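import Vale.Agent.P249.Mix

/-! P249 piece [GIBBS] (helper16): sparse Gibbs scales. -/

open Finset

namespace Vale.Agent.P249

namespace GibbsAux

variable {V ι : Type} [Fintype V] [Fintype ι] {p : ℝ}

/-- the partition function at inverse temperature `μ` -/
noncomputable def Z (p : ℝ) (f : V → ι → ℝ) (μ : ℝ) (x : V) : ℝ :=
  ∑ z, Real.exp (-(μ * dd p f x z))

/-- the Gibbs kernel at inverse temperature `μ` -/
noncomputable def kr (p : ℝ) (f : V → ι → ℝ) (μ : ℝ) (x z : V) : ℝ :=
  Real.exp (-(μ * dd p f x z)) / Z p f μ x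

/-- mean -/
noncomputable def av (p : ℝ) (f : V → ι → ℝ) (μ : ℝ) (x : V) (i : ι) : ℝ :=
  ∑ z, kr p f μ x z * f z i

/-- oscillation -/
noncomputable def os (p : ℝ) (f : V → ι → ℝ) (μ : ℝ) (x : V) (i : ι) : ℝ :=
  ∑ z, ∑ z', kr p f μ x z * kr p f μ x z' * |f z i - f z' i|

/-- mean distance -/
noncomputable def md (p : ℝ) (f : V → ι → ℝ) (μ : ℝ) (x : V) : ℝ :=
  ∑ z, kr p f μ x z * dd p f x z

theorem Z_pos (f : V → ι → ℝ) (μ : ℝ) (x : V) : 0 < Z p f μ x := by
  unfold Z
  exact sum_pos (fun z _ => Real.exp_pos _) ⟨x, mem_univ x⟩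

theorem one_le_Z (hp : 1 ≤ p) (f : V → ι → ℝ) (μ : ℝ) (x : V) : 1 ≤ Z p f μ x := by
  unfold Z
  have h := single_le_sum (f := fun z => Real.exp (-(μ * dd p f x z)))
    (fun z _ => (Real.exp_pos _).le) (mem_univ x)
  simp only [dd_self hp, mul_zero, neg_zero, Real.exp_zero] at h
  exact h

theorem Z_le {μ : ℝ} (hμ : 0 ≤ μ) (f : V → ι → ℝ) (x : V) :
    Z p f μ x ≤ Fintype.card V := by
  unfold Z
  calc ∑ z, Real.exp (-(μ * dd p f x z)) ≤ ∑ _z : V, (1 : ℝ) := by
        refine sum_le_sum fun z _ => ?_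
        rw [Real.exp_le_one_iff]
        have := mul_nonneg hμ (dd_nonneg p f x z)
        linarith
    _ = Fintype.card V := by simp

theorem Z_anti {μ ν : ℝ} (h : μ ≤ ν) (f : V → ι → ℝ) (x : V) : Z p f ν x ≤ Z p f μ x := by
  unfold Z
  refine sum_le_sum fun z _ => Real.exp_le_exp.2 ?_
  have := mul_le_mul_of_nonneg_right h (dd_nonneg p f x z)
  linarith

theorem kr_nonneg (f : V → ι → ℝ) (μ : ℝ) (x z : V) : 0 ≤ kr p f μ x z :=
  div_nonneg (Real.exp_pos _).le (Z_pos f μ x).le

theorem kr_sum (f : V → ι → ℝ) (μ : ℝ) (x : V) : ∑ z, kr p f μ x z = 1 := by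
  unfold kr
  rw [← sum_div]
  exact div_self (Z_pos f μ x).ne'

theorem kr_zero (f : V → ι → ℝ) (x y z : V) : kr p f 0 x z = kr p f 0 y z := by
  simp [kr, Z]

/-- `Z` is log-Lipschitz -/
theorem Z_ratio (hp : 1 ≤ p) {μ : ℝ} (hμ : 0 ≤ μ) (f : V → ι → ℝ) (x y : V) :
    Z p f μ y ≤ Real.exp (μ * dd p f x y) * Z p f μ x := by
  unfold Z
  rw [mul_sum]
  refine sum_le_sum fun z _ => ?_
  rw [← Real.exp_add, Real.exp_le_exp]
  have h3 := dd_triangle hp f x y z
  nlinarith

theorem logZ_diff (hp : 1 ≤ p) {μ : ℝ} (hμ : 0 ≤ μ) (f : V → ι → ℝ) (x y : V) :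
    |Real.log (Z p f μ x) - Real.log (Z p f μ y)| ≤ μ * dd p f x y := by
  have key : ∀ x y, Real.log (Z p f μ y) ≤ μ * dd p f x y + Real.log (Z p f μ x) := by
    intro x y
    have h1 := Real.log_le_log (Z_pos f μ y) (Z_ratio hp hμ f x y)
    rw [Real.log_mul (Real.exp_pos _).ne' (Z_pos f μ x).ne', Real.log_exp] at h1
    exact h1
  have h1 := key x y
  have h2 := key y x
  rw [dd_comm p f y x] at h2
  rw [abs_le]
  constructor <;> linarith

theorem kr_ratio (hp : 1 ≤ p) {μ : ℝ} (hμ : 0 ≤ μ) (f : V → ι → ℝ)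
    (x y z : V) : kr p f μ x z ≤ Real.exp (2 * (μ * dd p f x y)) * kr p f μ y z := by
  unfold kr
  have h1 : Real.exp (-(μ * dd p f x z)) ≤
      Real.exp (μ * dd p f x y) * Real.exp (-(μ * dd p f y z)) := by
    rw [← Real.exp_add, Real.exp_le_exp]
    have h2 := dd_triangle hp f y x z
    rw [dd_comm p f y x] at h2
    nlinarith
  have h2 := Z_ratio hp hμ f x y
  have hZx := Z_pos (p := p) f μ x
  have hZy := Z_pos (p := p) f μ y
  rw [div_le_iff₀ hZx]
  have h3 : Real.exp (2 * (μ * dd p f x y)) =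
      Real.exp (μ * dd p f x y) * Real.exp (μ * dd p f x y) := by
    rw [← Real.exp_add]; ring_nf
  rw [h3]
  calc Real.exp (-(μ * dd p f x z))
      ≤ Real.exp (μ * dd p f x y) * Real.exp (-(μ * dd p f y z)) := h1
    _ = Real.exp (μ * dd p f x y) * (Real.exp (-(μ * dd p f y z)) / Z p f μ y) *
        Z p f μ y := by field_simp
    _ ≤ Real.exp (μ * dd p f x y) * (Real.exp (-(μ * dd p f y z)) / Z p f μ y) *
        (Real.exp (μ * dd p f x y) * Z p f μ x) := by
        gcongr
    _ = _ := by ring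

theorem os_nonneg (f : V → ι → ℝ) (μ : ℝ) (x : V) (i : ι) : 0 ≤ os p f μ x i := by
  unfold os
  refine sum_nonneg fun z _ => sum_nonneg fun z' _ => ?_
  have h1 := kr_nonneg (p := p) f μ x z
  have h2 := kr_nonneg (p := p) f μ x z'
  positivity

theorem av_diff (hp : 1 ≤ p) {μ : ℝ} (hμ : 0 ≤ μ) (f : V → ι → ℝ) (x y : V) (i : ι) :
    |av p f μ x i - av p f μ y i| ≤ (Real.exp (2 * (μ * dd p f x y)) - 1) * os p f μ x i := by
  set E := Real.exp (2 * (μ * dd p f x y)) with hE
  have hE1 : 1 ≤ E := Real.one_le_exp (by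
    have := dd_nonneg p f x y
    positivity)
  set M := av p f μ x i with hM
  have h1 : M - av p f μ y i =
      ∑ z, (kr p f μ x z - kr p f μ y z) * (f z i - M) := by
    have e1 : ∑ z, (kr p f μ x z - kr p f μ y z) * (f z i - M) =
        (∑ z, kr p f μ x z * f z i - ∑ z, kr p f μ y z * f z i) -
        (∑ z, kr p f μ x z - ∑ z, kr p f μ y z) * M := by
      rw [← sum_sub_distrib, ← sum_sub_distrib, sum_mul, ← sum_sub_distrib]
      refine sum_congr rfl fun z _ => ?_
      ring
    rw [e1, kr_sum, kr_sum, sub_self, zero_mul, sub_zero]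
    rfl
  have h2 : ∀ z, |kr p f μ x z - kr p f μ y z| ≤ (E - 1) * kr p f μ x z := by
    intro z
    have a1 := kr_ratio hp hμ f x y z
    have a2 := kr_ratio hp hμ f y x z
    rw [dd_comm p f y x, ← hE] at a2
    rw [← hE] at a1
    have a3 := kr_nonneg (p := p) f μ x z
    have a4 := kr_nonneg (p := p) f μ y z
    rw [abs_le]
    constructor
    · nlinarith
    · nlinarith
  have h3 : ∀ z, |f z i - M| ≤ ∑ z', kr p f μ x z' * |f z i - f z' i| := by
    intro z
    have e1 : f z i - M = ∑ z', kr p f μ x z' * (f z i - f z' i) := by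
      simp only [mul_sub]
      rw [sum_sub_distrib, ← sum_mul, kr_sum, one_mul]
      rfl
    rw [e1]
    refine (abs_sum_le_sum_abs _ _).trans (sum_le_sum fun z' _ => ?_)
    rw [abs_mul, abs_of_nonneg (kr_nonneg _ _ _ _)]
  rw [h1]
  calc |∑ z, (kr p f μ x z - kr p f μ y z) * (f z i - M)|
      ≤ ∑ z, (E - 1) * kr p f μ x z * ∑ z', kr p f μ x z' * |f z i - f z' i| := by
        refine (abs_sum_le_sum_abs _ _).trans (sum_le_sum fun z _ => ?_)
        rw [abs_mul]
        exact mul_le_mul (h2 z) (h3 z) (abs_nonneg _)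
          (mul_nonneg (by linarith) (kr_nonneg _ _ _ _))
    _ = (E - 1) * os p f μ x i := by
        unfold os
        rw [mul_sum]
        refine sum_congr rfl fun z _ => ?_
        rw [mul_sum, mul_sum]
        refine sum_congr rfl fun z' _ => ?_
        ring

theorem os_ratio (hp : 1 ≤ p) {μ : ℝ} (hμ : 0 ≤ μ) (f : V → ι → ℝ) (x y : V) (i : ι) :
    os p f μ x i ≤ Real.exp (4 * (μ * dd p f x y)) * os p f μ y i := by
  have hE : Real.exp (4 * (μ * dd p f x y)) =
      Real.exp (2 * (μ * dd p f x y)) * Real.exp (2 * (μ * dd p f x y)) := by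
    rw [← Real.exp_add]; ring_nf
  unfold os
  rw [mul_sum]
  refine sum_le_sum fun z _ => ?_
  rw [mul_sum]
  refine sum_le_sum fun z' _ => ?_
  rw [hE]
  have h1 := kr_ratio hp hμ f x y z
  have h2 := kr_ratio hp hμ f x y z'
  have h3 := kr_nonneg (p := p) f μ x z'
  have h4 := kr_nonneg (p := p) f μ y z
  have h5 := (Real.exp_pos (2 * (μ * dd p f x y))).le
  calc kr p f μ x z * kr p f μ x z' * |f z i - f z' i|
      ≤ (Real.exp (2 * (μ * dd p f x y)) * kr p f μ y z) *
        (Real.exp (2 * (μ * dd p f x y)) * kr p f μ y z') * |f z i - f z' i| := by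
        gcongr
    _ = _ := by ring

theorem os_diff (hp : 1 ≤ p) {μ : ℝ} (hμ : 0 ≤ μ) (f : V → ι → ℝ) (x y : V) (i : ι) :
    |os p f μ x i - os p f μ y i| ≤ (Real.exp (4 * (μ * dd p f x y)) - 1) * os p f μ x i := by
  set E := Real.exp (4 * (μ * dd p f x y)) with hE
  have hE1 : 1 ≤ E := Real.one_le_exp (by
    have := dd_nonneg p f x y
    positivity)
  have a1 := os_ratio hp hμ f x y i
  have a2 := os_ratio hp hμ f y x i
  rw [dd_comm p f y x, ← hE] at a2
  rw [← hE] at a1
  have a3 := os_nonneg (p := p) f μ x i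
  have a4 := os_nonneg (p := p) f μ y i
  rw [abs_le]
  constructor
  · nlinarith
  · nlinarith

theorem md_nonneg (f : V → ι → ℝ) (μ : ℝ) (x : V) : 0 ≤ md p f μ x :=
  sum_nonneg fun z _ => mul_nonneg (kr_nonneg _ _ _ _) (dd_nonneg _ _ _ _)

theorem nrm_av (hp : 1 ≤ p) (f : V → ι → ℝ) (μ : ℝ) (x : V) :
    nrm p (fun i => av p f μ x i - f x i) ≤ md p f μ x := by
  have h1 : (fun i => av p f μ x i - f x i) =
      fun i => ∑ z, (fun z i => kr p f μ x z * (f z i - f x i)) z i := by
    funext i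
    simp only [mul_sub]
    rw [sum_sub_distrib, ← sum_mul, kr_sum, one_mul]
    rfl
  rw [h1]
  refine (nrm_sum_le hp univ _).trans ?_
  unfold md
  refine sum_le_sum fun z _ => ?_
  have h2 := nrm_const_mul hp (kr p f μ x z) (fun i => f z i - f x i)
  rw [abs_of_nonneg (kr_nonneg _ _ _ _)] at h2
  rw [dd_comm p f x z]
  exact h2.le

theorem nrm_os (hp : 1 ≤ p) (f : V → ι → ℝ) (μ : ℝ) (x : V) :
    nrm p (fun i => os p f μ x i) ≤ 2 * md p f μ x := by
  have h1 : nrm p (fun i => os p f μ x i) ≤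
      ∑ z, ∑ z', kr p f μ x z * kr p f μ x z' * dd p f z z' := by
    unfold os
    refine (nrm_sum_le hp univ
      (fun z i => ∑ z', kr p f μ x z * kr p f μ x z' * |f z i - f z' i|)).trans ?_
    refine sum_le_sum fun z _ => ?_
    refine (nrm_sum_le hp univ
      (fun z' i => kr p f μ x z * kr p f μ x z' * |f z i - f z' i|)).trans ?_
    refine sum_le_sum fun z' _ => ?_
    have h2 := nrm_const_mul hp (kr p f μ x z * kr p f μ x z')
      (fun i => |f z i - f z' i|)
    rw [abs_of_nonneg (mul_nonneg (kr_nonneg _ _ _ _) (kr_nonneg _ _ _ _))] at h2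
    refine h2.le.trans ?_
    refine mul_le_mul_of_nonneg_left ?_
      (mul_nonneg (kr_nonneg _ _ _ _) (kr_nonneg _ _ _ _))
    exact nrm_mono hp fun i => by rw [abs_abs]
  refine h1.trans ?_
  calc ∑ z, ∑ z', kr p f μ x z * kr p f μ x z' * dd p f z z'
      ≤ ∑ z, ∑ z', kr p f μ x z * kr p f μ x z' * (dd p f x z + dd p f x z') := by
        refine sum_le_sum fun z _ => sum_le_sum fun z' _ => ?_
        refine mul_le_mul_of_nonneg_left ?_
          (mul_nonneg (kr_nonneg _ _ _ _) (kr_nonneg _ _ _ _))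
        have := dd_triangle hp f z x z'
        rwa [dd_comm p f z x] at this
    _ = ∑ z, kr p f μ x z * dd p f x z + ∑ z, kr p f μ x z * dd p f x z := by
        have e1 : ∑ z, ∑ z', kr p f μ x z * kr p f μ x z' * (dd p f x z + dd p f x z') =
            ∑ z, ∑ z', kr p f μ x z * kr p f μ x z' * dd p f x z +
            ∑ z, ∑ z', kr p f μ x z * kr p f μ x z' * dd p f x z' := by
          rw [← sum_add_distrib]
          refine sum_congr rfl fun z _ => ?_
          rw [← sum_add_distrib]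
          refine sum_congr rfl fun z' _ => ?_
          ring
        rw [e1]
        congr 1
        · refine sum_congr rfl fun z _ => ?_
          rw [← sum_mul, ← mul_sum, kr_sum, mul_one]
        · rw [sum_comm]
          refine sum_congr rfl fun z _ => ?_
          rw [← sum_mul, ← sum_mul, kr_sum, one_mul]
    _ = 2 * md p f μ x := by
        unfold md
        ring

/-- growth of the partition function -/
theorem growth (f : V → ι → ℝ) (μ : ℝ) (x : V) : μ * md p f μ x / 2 ≤
      Real.log (Z p f (μ / 2) x) - Real.log (Z p f μ x) := by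
  have hZ := Z_pos (p := p) f μ x
  have hZ' := Z_pos (p := p) f (μ / 2) x
  rw [← Real.log_div hZ'.ne' hZ.ne']
  have h1 : Z p f (μ / 2) x / Z p f μ x =
      ∑ z, kr p f μ x z * Real.exp (μ / 2 * dd p f x z) := by
    unfold kr
    have e1 : Z p f (μ / 2) x = ∑ z, Real.exp (-(μ * dd p f x z)) *
        Real.exp (μ / 2 * dd p f x z) := by
      unfold Z
      refine sum_congr rfl fun z _ => ?_
      rw [← Real.exp_add]
      congr 1
      ring
    rw [e1, sum_div]
    refine sum_congr rfl fun z _ => ?_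
    ring
  set ν := μ / 2 * md p f μ x with hν
  have h2 : Real.exp ν ≤ ∑ z, kr p f μ x z * Real.exp (μ / 2 * dd p f x z) := by
    calc Real.exp ν = ∑ z, kr p f μ x z *
          (Real.exp ν * (1 + (μ / 2 * dd p f x z - ν))) := by
          have e1 : ∑ z, kr p f μ x z * (Real.exp ν * (1 + (μ / 2 * dd p f x z - ν))) =
              Real.exp ν * ((1 - ν) * ∑ z, kr p f μ x z +
                μ / 2 * ∑ z, kr p f μ x z * dd p f x z) := by
            rw [mul_sum, mul_sum, ← sum_add_distrib, mul_sum]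
            refine sum_congr rfl fun z _ => ?_
            ring
          rw [e1, kr_sum]
          have e2 : μ / 2 * ∑ z, kr p f μ x z * dd p f x z = ν := rfl
          rw [e2]
          ring
      _ ≤ ∑ z, kr p f μ x z * Real.exp (μ / 2 * dd p f x z) := by
          refine sum_le_sum fun z _ => ?_
          refine mul_le_mul_of_nonneg_left ?_ (kr_nonneg _ _ _ _)
          have e3 : Real.exp (μ / 2 * dd p f x z) =
              Real.exp ν * Real.exp (μ / 2 * dd p f x z - ν) := by
            rw [← Real.exp_add]; ring_nf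
          rw [e3]
          refine mul_le_mul_of_nonneg_left ?_ (Real.exp_pos _).le
          have := Real.add_one_le_exp (μ / 2 * dd p f x z - ν)
          linarith
  rw [h1]
  have h3 := Real.log_le_log (Real.exp_pos ν) h2
  rw [Real.log_exp] at h3
  calc μ * md p f μ x / 2 = ν := by rw [hν]; ring
    _ ≤ _ := h3

omit [Fintype V] in
theorem dd_pos (hp : 1 ≤ p) {f : V → ι → ℝ} (hf : Function.Injective f) {x y : V} (h : x ≠ y) :
    0 < dd p f x y := by
  rcases (dd_nonneg p f x y).lt_or_eq with h1 | h1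
  · exact h1
  · exfalso
    apply h
    apply hf
    funext i
    have h2 := abs_le_nrm hp (fun i => f x i - f y i) i
    unfold dd at h1
    rw [← h1] at h2
    have h3 : f x i - f y i = 0 := abs_nonpos_iff.1 h2
    linarith

theorem exists_low (hp : 1 ≤ p) {f : V → ι → ℝ} (hf : Function.Injective f) :
    ∃ δ : ℝ, 0 < δ ∧ ∀ x y, x ≠ y → δ ≤ dd p f x y := by
  classical
  by_cases hS : ((univ : Finset (V × V)).filter fun q => q.1 ≠ q.2).Nonempty
  · obtain ⟨q, hq, hmin⟩ := exists_min_image _ (fun q : V × V => dd p f q.1 q.2) hS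
    refine ⟨dd p f q.1 q.2, dd_pos hp hf (mem_filter.1 hq).2, ?_⟩
    intro x y hxy
    exact hmin (x, y) (mem_filter.2 ⟨mem_univ _, hxy⟩)
  · refine ⟨1, one_pos, ?_⟩
    intro x y hxy
    exfalso
    exact hS ⟨(x, y), mem_filter.2 ⟨mem_univ _, hxy⟩⟩

theorem exists_high (f : V → ι → ℝ) : ∃ Δ : ℝ, 0 ≤ Δ ∧ ∀ x y, dd p f x y ≤ Δ := by
  classical
  refine ⟨∑ x, ∑ z, dd p f x z, sum_nonneg fun x _ => sum_nonneg fun z _ => dd_nonneg _ _ _ _, ?_⟩
  intro x z
  have h1 : dd p f x z ≤ ∑ z, dd p f x z :=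
    single_le_sum (f := fun z => dd p f x z) (fun _ _ => dd_nonneg _ _ _ _) (mem_univ z)
  have h2 : ∑ z, dd p f x z ≤ ∑ x, ∑ z, dd p f x z :=
    single_le_sum (f := fun x => ∑ z, dd p f x z)
      (fun _ _ => sum_nonneg fun _ _ => dd_nonneg _ _ _ _) (mem_univ x)
  exact h1.trans h2

/-- the scales -/
noncomputable def lm (Λ : ℝ) (G o j : ℕ) : ℝ := Λ / 2 ^ (o + G * j)

theorem lm_pos {Λ : ℝ} (hΛ : 0 < Λ) (G o j : ℕ) : 0 < lm Λ G o j := by unfold lm; positivity

theorem lm_succ (Λ : ℝ) (G o j : ℕ) : lm Λ G o j = 2 ^ G * lm Λ G o (j + 1) := by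
  unfold lm
  have : o + G * (j + 1) = (o + G * j) + G := by ring
  rw [this, pow_add _ (o + G * j)]
  field_simp

/-- the inverse temperature used at step `j` -/
noncomputable def tm (Λ : ℝ) (G K o j : ℕ) : ℝ := if j < K then lm Λ G o j else 0

theorem tm_nonneg {Λ : ℝ} (hΛ : 0 < Λ) (G K o j : ℕ) : 0 ≤ tm Λ G K o j := by
  unfold tm
  split_ifs
  · exact (lm_pos hΛ G o j).le
  · exact le_rfl

theorem tm_le {Λ : ℝ} (hΛ : 0 < Λ) (G K o j : ℕ) : tm Λ G K o j ≤ lm Λ G o j := by
  unfold tm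
  split_ifs
  · exact le_rfl
  · exact (lm_pos hΛ G o j).le

end GibbsAux

open GibbsAux in
/-- the Gibbs scales with offset `o` -/
noncomputable def gibOf {V ι : Type} [Fintype V] [Fintype ι] {p : ℝ} (hp : 1 ≤ p) (f : V → ι → ℝ)
    (G K : ℕ) (hK : 1 < K) (Λ : ℝ) (hΛ : 0 < Λ) (o : ℕ)
    (hfar : ∀ x y, x ≠ y → 1 ≤ lm Λ G o 1 * dd p f x y)
    (hnear : ∀ x y, lm Λ G o K * dd p f x y < 1) : Gib p f (2 ^ G) K where
  lam := lm Λ G o
  m := fun j x i => if j = 0 then f x i else av p f (tm Λ G K o j) x i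
  e := fun j x i => if j = 0 then 0 else os p f (tm Λ G K o j) x i
  u := fun j x => if j = 0 then 0 else lm Λ G o j * md p f (tm Λ G K o j) x
  Γ := fun j x => Real.log (Z p f (lm Λ G o j / 2) x) - Real.log (Z p f (lm Λ G o j) x)
  lam_pos := lm_pos hΛ G o
  lam_succ := lm_succ Λ G o
  m_zero := fun x i => by simp
  e_zero := fun x i => by simp
  u_zero := fun x => by simp
  m_last := fun x y i => by
    have h0 : K ≠ 0 := by omega
    simp only [h0, if_false, tm, lt_irrefl, av]
    refine sum_congr rfl fun z _ => ?_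
    rw [kr_zero f x y z]
  e_nonneg := fun j x i => by
    split_ifs
    · exact le_rfl
    · exact os_nonneg _ _ _ _
  u_nonneg := fun j x => by
    split_ifs
    · exact le_rfl
    · exact mul_nonneg (lm_pos hΛ G o j).le (md_nonneg _ _ _)
  nrm_m := fun j x _ => by
    by_cases h0 : j = 0
    · simp only [h0, if_true, sub_self]
      rw [nrm_zero hp, mul_zero]
    · simp only [h0, if_false]
      exact mul_le_mul_of_nonneg_left (nrm_av hp f _ x) (lm_pos hΛ G o j).le
  nrm_e := fun j x _ => by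
    by_cases h0 : j = 0
    · simp only [h0, if_true]
      have : nrm p (fun _ : ι => (0:ℝ)) = 0 := nrm_zero hp
      rw [this]
      simp
    · simp only [h0, if_false]
      have h1 := mul_le_mul_of_nonneg_left (nrm_os hp f (tm Λ G K o j) x) (lm_pos hΛ G o j).le
      linarith
  m_diff := fun j x y i hj _ => by
    have h0 : j ≠ 0 := by omega
    simp only [h0, if_false]
    refine (av_diff hp (tm_nonneg hΛ G K o j) f x y i).trans ?_
    refine mul_le_mul_of_nonneg_right ?_ (os_nonneg _ _ _ _)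
    have h1 := mul_le_mul_of_nonneg_right (tm_le hΛ G K o j) (dd_nonneg p f x y)
    have h2 := Real.exp_le_exp.2 (mul_le_mul_of_nonneg_left h1 (by norm_num : (0:ℝ) ≤ 2))
    linarith
  e_diff := fun j x y i hj _ => by
    have h0 : j ≠ 0 := by omega
    simp only [h0, if_false]
    refine (os_diff hp (tm_nonneg hΛ G K o j) f x y i).trans ?_
    refine mul_le_mul_of_nonneg_right ?_ (os_nonneg _ _ _ _)
    have h1 := mul_le_mul_of_nonneg_right (tm_le hΛ G K o j) (dd_nonneg p f x y)
    have h2 := Real.exp_le_exp.2 (mul_le_mul_of_nonneg_left h1 (by norm_num : (0:ℝ) ≤ 4))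
    linarith
  far := hfar
  near := hnear
  Γ_nonneg := fun j x => by
    have h1 := lm_pos hΛ G o j
    have h3 : lm Λ G o j / 2 ≤ lm Λ G o j := by linarith
    have h2 := Real.log_le_log (Z_pos (p := p) f (lm Λ G o j) x) (Z_anti (p := p) h3 f x)
    linarith
  Γ_diff := fun j x y _ _ => by
    have h1 := lm_pos hΛ G o j
    have h2 := logZ_diff hp h1.le f x y
    have h3 := logZ_diff hp (by linarith : 0 ≤ lm Λ G o j / 2) f x y
    rw [abs_le] at h2 h3 ⊢
    constructor <;> nlinarith [h2.1, h2.2, h3.1, h3.2]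
  u_le := fun j x hj hjK => by
    have h0 : j ≠ 0 := by omega
    simp only [h0, if_false]
    have h1 := growth (p := p) f (lm Λ G o j) x
    have h2 : tm Λ G K o j = lm Λ G o j := by simp [tm, hjK]
    rw [h2]
    linarith
  u_last := fun x => by
    have h0 : K ≠ 0 := by omega
    simp only [h0, if_false]
    have h1 : lm Λ G o K * md p f (tm Λ G K o K) x =
        ∑ z, kr p f (tm Λ G K o K) x z * (lm Λ G o K * dd p f x z) := by
      unfold md
      rw [mul_sum]
      refine sum_congr rfl fun z _ => ?_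
      ring
    rw [h1]
    calc ∑ z, kr p f (tm Λ G K o K) x z * (lm Λ G o K * dd p f x z)
        ≤ ∑ z, kr p f (tm Λ G K o K) x z * 1 := by
          refine sum_le_sum fun z _ => ?_
          exact mul_le_mul_of_nonneg_left (hnear x z).le (kr_nonneg _ _ _ _)
      _ = 1 := by simp only [mul_one]; exact kr_sum _ _ _

open GibbsAux in
theorem exists_gib {V ι : Type} [Fintype V] [Fintype ι] [Nonempty V] {p : ℝ} (hp : 1 ≤ p)
    (f : V → ι → ℝ) (hf : Function.Injective f) (G : ℕ) (hG : 1 ≤ G) (c : ℝ) (hc : 0 < c) :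
    ∃ (K : ℕ) (_ : 1 < K) (S : Fin G → Gib p f (2 ^ G) K), (∀ o x, (S o).Γ 1 x ≤ c) ∧
      ∀ x, ∑ o, ∑ j ∈ Ico 1 K, (S o).Γ j x ≤ Real.log (Fintype.card V) := by
  classical
  obtain ⟨δ, hδ, hδl⟩ := exists_low hp hf
  obtain ⟨Δ, hΔ, hΔl⟩ := exists_high (p := p) f
  set n : ℝ := (Fintype.card V : ℝ) with hn
  have hn0 : 0 < n := by rw [hn]; exact_mod_cast Fintype.card_pos
  -- the largest scale
  set Λ : ℝ := 2 ^ (2 * G + 1) * (n / c + 1) / δ with hΛ
  have hΛ0 : 0 < Λ := by rw [hΛ]; positivity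
  -- the number of scales
  obtain ⟨k, hk⟩ := pow_unbounded_of_one_lt (Λ * Δ) (by norm_num : (1 : ℝ) < 2)
  set K := k + 2 with hK
  have hK1 : 1 < K := by omega
  have hlm1 : ∀ o, o < G → 2 * (n / c + 1) ≤ lm Λ G o 1 * δ := by
    intro o ho
    unfold lm
    rw [hΛ]
    have h1 : (2:ℝ) ^ (o + G * 1) ≤ 2 ^ (2 * G) := by
      apply pow_le_pow_right₀ (by norm_num)
      omega
    have h2 : (0:ℝ) < 2 ^ (o + G * 1) := by positivity
    have h3 : 0 < n / c + 1 := by positivity
    have h4 : 2 ^ (2 * G + 1) * (n / c + 1) / δ / 2 ^ (o + G * 1) * δ =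
        2 * (n / c + 1) * (2 ^ (2 * G) / 2 ^ (o + G * 1)) := by
      rw [pow_succ]
      field_simp
    rw [h4]
    have h5 : (1:ℝ) ≤ 2 ^ (2 * G) / 2 ^ (o + G * 1) := by
      rw [le_div_iff₀ h2]; linarith
    nlinarith
  have hfar : ∀ o, o < G → ∀ x y, x ≠ y → 1 ≤ lm Λ G o 1 * dd p f x y := by
    intro o ho x y hxy
    have h1 := hlm1 o ho
    have h2 := mul_le_mul_of_nonneg_left (hδl x y hxy) (lm_pos hΛ0 G o 1).le
    have h3 : 0 < n / c := by positivity
    linarith
  have hnear : ∀ o, ∀ x y, lm Λ G o K * dd p f x y < 1 := by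
    intro o x y
    have h1 := mul_le_mul_of_nonneg_left (hΔl x y) (lm_pos hΛ0 G o K).le
    have h2 : lm Λ G o K * Δ < 1 := by
      unfold lm
      have h3 : (0:ℝ) < 2 ^ (o + G * K) := by positivity
      have h4 : (2:ℝ) ^ k ≤ 2 ^ (o + G * K) := by
        apply pow_le_pow_right₀ (by norm_num)
        have : 1 * K ≤ G * K := Nat.mul_le_mul_right _ hG
        omega
      have h5 : Λ / 2 ^ (o + G * K) * Δ = Λ * Δ / 2 ^ (o + G * K) := by ring
      rw [h5, div_lt_one h3]
      linarith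
    linarith
  refine ⟨K, hK1, fun o => gibOf hp f G K hK1 Λ hΛ0 o (hfar o o.2) (hnear o), ?_, ?_⟩
  · intro o x
    show Real.log (Z p f (lm Λ G o 1 / 2) x) - Real.log (Z p f (lm Λ G o 1) x) ≤ c
    have h1 : 0 ≤ Real.log (Z p f (lm Λ G o 1) x) := Real.log_nonneg (one_le_Z hp f _ x)
    have h2 : Z p f (lm Λ G o 1 / 2) x ≤ 1 + c := by
      unfold Z
      rw [← add_sum_erase univ _ (mem_univ x), dd_self hp, mul_zero, neg_zero, Real.exp_zero]
      have h3 : ∀ z ∈ univ.erase x, Real.exp (-(lm Λ G o 1 / 2 * dd p f x z)) ≤ c / n := by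
        intro z hz
        have hzx : x ≠ z := (ne_of_mem_erase hz).symm
        have h4 := mul_le_mul_of_nonneg_left (hδl x z hzx) (lm_pos hΛ0 G o 1).le
        have h5 := hlm1 o o.2
        have h6 : n / c ≤ lm Λ G o 1 / 2 * dd p f x z := by linarith
        have h7 := Real.add_one_le_exp (lm Λ G o 1 / 2 * dd p f x z)
        rw [Real.exp_neg, inv_le_comm₀ (Real.exp_pos _) (by positivity), inv_div]
        linarith
      have h4 := sum_le_card_nsmul (univ.erase x) _ (c / n) h3
      have h5 : ((univ.erase x).card : ℝ) ≤ n := by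
        rw [hn]
        exact_mod_cast card_le_univ _
      rw [nsmul_eq_mul] at h4
      have h6 : ((univ.erase x).card : ℝ) * (c / n) ≤ n * (c / n) :=
        mul_le_mul_of_nonneg_right h5 (by positivity)
      have h7 : n * (c / n) = c := by field_simp
      linarith
    have h3 := Real.log_le_log (Z_pos f _ x) h2
    have h4 := Real.log_le_sub_one_of_pos (by linarith : 0 < 1 + c)
    linarith
  · intro x
    show ∑ o : Fin G, ∑ j ∈ Ico 1 K,
      (Real.log (Z p f (lm Λ G o j / 2) x) - Real.log (Z p f (lm Λ G o j) x)) ≤ Real.log n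
    set a : ℕ → ℝ := fun s => Real.log (Z p f (Λ / 2 ^ s) x) with ha
    have h1 : ∀ o j : ℕ, Real.log (Z p f (lm Λ G o j / 2) x) - Real.log (Z p f (lm Λ G o j) x) =
        a (o + G * j + 1) - a (o + G * j) := by
      intro o j
      simp only [ha, lm]
      rw [pow_succ, div_div]
    simp only [h1]
    rw [sum_comm]
    have h2 : ∀ j ∈ Ico 1 K, ∑ o : Fin G, (a (↑o + G * j + 1) - a (↑o + G * j)) =
        a (G * (j + 1)) - a (G * j) := by
      intro j _
      rw [Fin.sum_univ_eq_sum_range (fun o => a (o + G * j + 1) - a (o + G * j)) G]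
      have h3 := sum_range_sub (fun o => a (o + G * j)) G
      simp only [zero_add] at h3
      have h4 : G * (j + 1) = G + G * j := by ring
      rw [h4, ← h3]
      refine sum_congr rfl fun o _ => ?_
      congr 2
      ring
    rw [sum_congr rfl h2]
    have h3 := sum_Ico_sub (fun j => a (G * j)) hK1.le
    rw [h3]
    have h4 : a (G * K) ≤ Real.log n := by
      simp only [ha]
      exact Real.log_le_log (Z_pos f _ x) (Z_le (by positivity) f x)
    have h5 : 0 ≤ a (G * 1) := by
      simp only [ha]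
      exact Real.log_nonneg (one_le_Z hp f _ x)
    linarith

end Vale.Agent.P249
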