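import Vale.Agent.P249.Thin

open Finset

namespace Vale.Agent.P249

variable {V : Type*} [DecidableEq V]

/-- one growth step -/
lemma step (E : Finset (V × V)) (S T : Finset V) (ψ : V → ℝ) (t δ : ℝ) (hδ : 0 < δ) (k : ℕ)
    (e0 : V × V) (hsum : ∑ e ∈ (inn E S).erase e0, |ψ e.1 - ψ e.2| ^ k < 1)
    (hTS : T ⊆ S) (hT : ∀ z ∈ T, t ≤ ψ z) :
    ((inn E T).card : ℝ) + (bd E S T).card - 1 - (δ⁻¹) ^ k ≤
      (inn E (S.filter (fun z => t - δ ≤ ψ z))).card := by
  classical
  set T' := S.filter (fun z => t - δ ≤ ψ z) with hT'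
  set B := (bd E S T).erase e0 with hB
  set good := B.filter (fun e => e ∈ inn E T') with hgood
  set bad := B.filter (fun e => e ∉ inn E T') with hbad
  have hTT' : T ⊆ T' := by
    intro z hz
    rw [hT', mem_filter]
    exact ⟨hTS hz, by have := hT z hz; linarith⟩
  have h1 : (bd E S T).card ≤ B.card + 1 := by
    rw [hB]
    have := pred_card_le_card_erase (s := bd E S T) (a := e0)
    omega
  have h2 : good.card + bad.card = B.card := by
    rw [hgood, hbad]
    exact card_filter_add_card_filter_not _
  have h3 : (inn E T).card + good.card ≤ (inn E T').card := by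
    rw [← card_union_of_disjoint]
    · apply card_le_card
      apply union_subset (inn_mono hTT')
      intro e he
      rw [hgood, mem_filter] at he
      exact he.2
    · rw [disjoint_left]
      intro e he he'
      rw [hgood, mem_filter, hB, mem_erase] at he'
      have h5 := he'.1.2
      simp only [bd, inn, mem_filter] at h5 he
      rcases h5.2 with h6 | h6
      · exact h6.2 he.2.2
      · exact h6.1 he.2.1
  have h4 : (bad.card : ℝ) * δ ^ k ≤ 1 := by
    have h5 : ∑ e ∈ bad, δ ^ k ≤ ∑ e ∈ bad, |ψ e.1 - ψ e.2| ^ k := by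
      apply sum_le_sum
      intro e he
      rw [hbad, mem_filter, hB, mem_erase] at he
      obtain ⟨⟨_, hebd⟩, hnot⟩ := he
      have heS : e ∈ inn E S := by
        simp only [bd, mem_filter] at hebd
        exact hebd.1
      have hE : e ∈ E := by simp only [inn, mem_filter] at heS; exact heS.1
      simp only [bd, inn, mem_filter] at hebd
      apply pow_le_pow_left₀ hδ.le
      rcases hebd.2 with ⟨ha, hb⟩ | ⟨ha, hb⟩
      · have h7 : e.2 ∉ T' := by
          intro h8
          apply hnot
          simp only [inn, mem_filter]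
          exact ⟨hE, hTT' ha, h8⟩
        rw [hT', mem_filter] at h7
        have h8 : ψ e.2 < t - δ := by
          by_contra h9
          exact h7 ⟨hebd.1.2.2, not_lt.mp h9⟩
        have h9 := hT _ ha
        rw [abs_of_nonneg (by linarith)]
        linarith
      · have h7 : e.1 ∉ T' := by
          intro h8
          apply hnot
          simp only [inn, mem_filter]
          exact ⟨hE, h8, hTT' hb⟩
        rw [hT', mem_filter] at h7
        have h8 : ψ e.1 < t - δ := by
          by_contra h9
          exact h7 ⟨hebd.1.2.1, not_lt.mp h9⟩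
        have h9 := hT _ hb
        rw [abs_sub_comm, abs_of_nonneg (by linarith)]
        linarith
    have h6 : ∑ e ∈ bad, |ψ e.1 - ψ e.2| ^ k ≤ ∑ e ∈ (inn E S).erase e0, |ψ e.1 - ψ e.2| ^ k := by
      apply sum_le_sum_of_subset_of_nonneg
      · intro e he
        rw [hbad, mem_filter, hB, mem_erase] at he
        rw [mem_erase]
        refine ⟨he.1.1, ?_⟩
        have := he.1.2
        simp only [bd, mem_filter] at this
        exact this.1
      · intro e _ _
        positivity
    rw [sum_const, nsmul_eq_mul] at h5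
    linarith
  have h5 : (bad.card : ℝ) ≤ (δ⁻¹) ^ k := by
    rw [inv_pow, ← one_div, le_div_iff₀ (by positivity)]
    exact h4
  have h1' : ((bd E S T).card : ℝ) ≤ B.card + 1 := by exact_mod_cast h1
  have h2' : (good.card : ℝ) + bad.card = B.card := by exact_mod_cast h2
  have h3' : ((inn E T).card : ℝ) + good.card ≤ (inn E T').card := by exact_mod_cast h3
  linarith

/-- `θ_k = 1 - 1/(4k+2)`. -/
noncomputable def th (k : ℕ) : ℝ := 1 - 1 / (4 * k + 2)

lemma th_pos {k : ℕ} : 0 < th k := by
  unfold th
  have : (1 : ℝ) / (4 * k + 2) ≤ 1 / 2 := by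
    apply one_div_le_one_div_of_le (by norm_num)
    have : (0:ℝ) ≤ k := Nat.cast_nonneg _
    linarith
  linarith

lemma th_lt_one {k : ℕ} : th k < 1 := by
  unfold th
  have : (0 : ℝ) < 1 / (4 * k + 2) := by positivity
  linarith

lemma th_pow {k : ℕ} : 1 ≤ 2 * th k ^ (2 * k + 1) := by
  unfold th
  have h0 : (0:ℝ) ≤ k := Nat.cast_nonneg _
  have hle : (1 : ℝ) / (4 * k + 2) ≤ 1 / 2 := by
    apply one_div_le_one_div_of_le (by norm_num)
    linarith
  have h := one_add_mul_le_pow (a := -(1 / (4 * (k:ℝ) + 2))) (by linarith) (2 * k + 1)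
  have h2 : 1 + ((2 * k + 1 : ℕ) : ℝ) * -(1 / (4 * (k:ℝ) + 2)) = 1 / 2 := by
    push_cast
    field_simp
    ring
  rw [h2] at h
  have h3 : (1 + -(1 / (4 * (k:ℝ) + 2))) = 1 - 1 / (4 * (k:ℝ) + 2) := by ring
  rw [h3] at h
  linarith

lemma two_th_gt {k : ℕ} (hk : 1 ≤ k) : 5 / 3 ≤ 2 * th k := by
  unfold th
  have : (1 : ℝ) / (4 * k + 2) ≤ 1 / 6 := by
    apply one_div_le_one_div_of_le (by norm_num)
    have : (1:ℝ) ≤ k := by exact_mod_cast hk
    linarith
  linarith

/-- existence of the starting level -/
lemma exists_level (k : ℕ) (hk : 1 ≤ k) :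
    ∃ j0 : ℕ, (∀ j, j0 ≤ j → 40 / (1 - th k) ^ 3 * th k ^ j ≤ 3 / 8) ∧
      (∀ j, j0 ≤ j → 1 ≤ (2 * th k) ^ j * (1 - th k) / 8) := by
  have h0 := th_pos (k := k)
  have h1 := th_lt_one (k := k)
  have h2 := two_th_gt hk
  have l1 : Filter.Tendsto (fun j : ℕ => 40 / (1 - th k) ^ 3 * th k ^ j) Filter.atTop
      (nhds (40 / (1 - th k) ^ 3 * 0)) :=
    (tendsto_pow_atTop_nhds_zero_of_lt_one h0.le h1).const_mul _
  rw [mul_zero] at l1
  have l2 : Filter.Tendsto (fun j : ℕ => (2 * th k) ^ j) Filter.atTop Filter.atTop :=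
    tendsto_pow_atTop_atTop_of_one_lt (by linarith)
  have e1 := (l1.eventually (ge_mem_nhds (show (0:ℝ) < 3 / 8 by norm_num)))
  have e2 := l2.eventually_ge_atTop (8 / (1 - th k))
  obtain ⟨j0, hj0⟩ := Filter.eventually_atTop.mp (e1.and e2)
  refine ⟨j0, fun j hj => (hj0 j hj).1, fun j hj => ?_⟩
  have h3 := (hj0 j hj).2
  rw [div_le_iff₀ (by linarith)] at h3
  linarith

/-- the main growth lemma -/
lemma grow (k : ℕ) (hk : 1 ≤ k) (j0 : ℕ)
    (hj1 : ∀ j, j0 ≤ j → 40 / (1 - th k) ^ 3 * th k ^ j ≤ 3 / 8)
    (hj2 : ∀ j, j0 ≤ j → 1 ≤ (2 * th k) ^ j * (1 - th k) / 8)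
    (E : Finset (V × V)) (S : Finset V) (ψ : V → ℝ) (e0 : V × V)
    (hiso : ∀ T : Finset V, T ⊆ S →
      ((inn E T).card : ℝ) * (lam (th k) (inn E T).card - lam (th k) (inn E S).card)
        ≤ 2 * (bd E S T).card)
    (hsum : ∑ e ∈ (inn E S).erase e0, |ψ e.1 - ψ e.2| ^ k < 1)
    (hhalf : 2 * (inn E (S.filter (fun z => 1 / 2 < ψ z))).card ≤ (inn E S).card)
    (hstart : (2:ℝ) ^ j0 ≤ (inn E (S.filter (fun z => 7 / 8 ≤ ψ z))).card) : False := by
  classical
  set θ := th k with hθ
  have h0 : 0 < θ := th_pos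
  have h1 : θ < 1 := th_lt_one
  set G : ℝ := 40 / (1 - θ) ^ 3 with hG
  have h1θ : 0 < 1 - θ := by linarith
  have hGpos : 0 < G := by positivity
  -- the invariant
  have key : ∀ j, j0 ≤ j → ∃ t : ℝ, 1 / 2 + G * θ ^ j ≤ t ∧
      (2:ℝ) ^ j ≤ (inn E (S.filter (fun z => t ≤ ψ z))).card := by
    intro j hj
    induction j, hj using Nat.le_induction with
    | base => exact ⟨7 / 8, by have := hj1 j0 le_rfl; linarith, hstart⟩
    | succ j hj ih =>
      obtain ⟨t, ht, hcard⟩ := ih
      set δ : ℝ := 8 / (1 - θ) * θ ^ (2 * j) with hδ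
      have hδpos : 0 < δ := by positivity
      set N : ℕ := ⌈4 / (θ ^ j * (1 - θ))⌉₊ with hN
      have hN1 : 4 / (θ ^ j * (1 - θ)) ≤ N := Nat.le_ceil _
      have hθj : 0 < θ ^ j := by positivity
      have hθj1 : θ ^ j ≤ 1 := pow_le_one₀ h0.le h1.le
      have hN2 : (N : ℝ) ≤ 5 / (θ ^ j * (1 - θ)) := by
        have h3 : (N : ℝ) < 4 / (θ ^ j * (1 - θ)) + 1 := Nat.ceil_lt_add_one (by positivity)
        have h4 : 1 ≤ 1 / (θ ^ j * (1 - θ)) := by
          rw [le_div_iff₀ (by positivity)]
          nlinarith
        have h5 : 5 / (θ ^ j * (1 - θ)) = 4 / (θ ^ j * (1 - θ)) + 1 / (θ ^ j * (1 - θ)) := by ring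
        linarith
      -- total cost
      have hcost : (N : ℝ) * δ ≤ G * (1 - θ) * θ ^ j := by
        calc (N : ℝ) * δ ≤ 5 / (θ ^ j * (1 - θ)) * δ := mul_le_mul_of_nonneg_right hN2 hδpos.le
          _ = G * (1 - θ) * θ ^ j := by
            rw [hδ, hG, pow_mul']
            field_simp
            ring
      -- step inequality
      have hB : (δ⁻¹) ^ k + 1 ≤ (2 * θ) ^ j * (1 - θ) / 4 := by
        have h3 := hj2 j hj
        have h4 : (δ⁻¹) ^ k ≤ (2 * θ) ^ j * (1 - θ) / 8 := by
          have h5 : (δ⁻¹) ^ k = ((1 - θ) / 8) ^ k * ((θ ^ (2 * k))⁻¹) ^ j := by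
            rw [hδ, mul_inv, mul_pow, inv_div, ← inv_pow, ← inv_pow, ← pow_mul, ← pow_mul]
            congr 2
            ring
          rw [h5]
          have h6 : ((1 - θ) / 8) ^ k ≤ (1 - θ) / 8 := by
            have := pow_le_pow_of_le_one (a := (1 - θ) / 8) (by positivity) (by linarith) hk
            simpa using this
          have h7 : ((θ ^ (2 * k))⁻¹) ^ j ≤ (2 * θ) ^ j := by
            apply pow_le_pow_left₀ (by positivity)
            rw [inv_le_iff_one_le_mul₀ (by positivity)]
            have := th_pow (k := k)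
            rw [← hθ] at this
            calc (1:ℝ) ≤ 2 * θ ^ (2 * k + 1) := this
              _ = 2 * θ * θ ^ (2 * k) := by ring
          calc ((1 - θ) / 8) ^ k * ((θ ^ (2 * k))⁻¹) ^ j ≤ ((1 - θ) / 8) * (2 * θ) ^ j := by
                apply mul_le_mul h6 h7 (by positivity) (by positivity)
            _ = (2 * θ) ^ j * (1 - θ) / 8 := by ring
        linarith
      by_contra hcon
      push Not at hcon
      -- lower bound after i steps
      have hi : ∀ i : ℕ, i ≤ N → (2:ℝ) ^ j + i * ((2 * θ) ^ j * (1 - θ) / 4) ≤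
          (inn E (S.filter (fun z => t - i * δ ≤ ψ z))).card := by
        intro i
        induction i with
        | zero => intro _; simpa using hcard
        | succ i ihi =>
          intro hi'
          have hprev := ihi (by omega)
          set T := S.filter (fun z => t - i * δ ≤ ψ z) with hT
          have hTS : T ⊆ S := filter_subset _ _
          -- t - i δ is > 1/2 and ≥ 1/2 + G θ^(j+1)
          have hiN : (i : ℝ) * δ ≤ G * (1 - θ) * θ ^ j := by
            have : (i : ℝ) ≤ N := by exact_mod_cast (by omega : i ≤ N)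
            calc (i : ℝ) * δ ≤ N * δ := mul_le_mul_of_nonneg_right this hδpos.le
              _ ≤ _ := hcost
          have hti : 1 / 2 + G * θ ^ (j + 1) ≤ t - i * δ := by
            have : G * θ ^ (j + 1) = G * θ ^ j - G * (1 - θ) * θ ^ j := by ring
            linarith
          have hlt := hcon (t - i * δ) hti
          rw [← hT] at hlt
          -- level of card
          have hlog : Nat.log 2 (inn E T).card = j := by
            apply Nat.log_eq_of_pow_le_of_lt_pow
            · have : (2:ℝ) ^ j ≤ (inn E T).card := by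
                have : (0:ℝ) ≤ i * ((2 * θ) ^ j * (1 - θ) / 4) := by positivity
                linarith
              exact_mod_cast this
            · exact_mod_cast hlt
          have hle2 : 2 * (inn E T).card ≤ (inn E S).card := by
            refine le_trans ?_ hhalf
            apply Nat.mul_le_mul_left
            apply card_le_card
            apply inn_mono
            intro z hz
            rw [hT, mem_filter] at hz
            rw [mem_filter]
            refine ⟨hz.1, ?_⟩
            have : 0 < G * θ ^ (j + 1) := by positivity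
            linarith [hz.2]
          have hlamS : lam θ (inn E S).card ≤ 1 + θ ^ (j + 1) := by
            have h3 : (2:ℕ) ^ (j + 1) ≤ (inn E S).card := by
              have h4 : (2:ℕ) ^ j ≤ (inn E T).card := by
                have : (2:ℝ) ^ j ≤ (inn E T).card := by
                  have : (0:ℝ) ≤ i * ((2 * θ) ^ j * (1 - θ) / 4) := by positivity
                  linarith
                exact_mod_cast this
              calc 2 ^ (j + 1) = 2 * 2 ^ j := by ring
                _ ≤ 2 * (inn E T).card := Nat.mul_le_mul_left _ h4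
                _ ≤ _ := hle2
            have h5 := lam_antitone h0.le h1.le h3
            have h6 : lam θ (2 ^ (j + 1)) = 1 + θ ^ (j + 1) := by
              unfold lam
              rw [Nat.log_pow (by norm_num)]
            rw [h6] at h5
            exact h5
          have hlamT : lam θ (inn E T).card = 1 + θ ^ j := by
            unfold lam
            rw [hlog]
          have hiso' := hiso T hTS
          rw [hlamT] at hiso'
          have hbd : (2 * θ) ^ j * (1 - θ) / 2 ≤ (bd E S T).card := by
            have hTc : (2:ℝ) ^ j ≤ (inn E T).card := by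
              have : (0:ℝ) ≤ i * ((2 * θ) ^ j * (1 - θ) / 4) := by positivity
              linarith
            have h7 : θ ^ j * (1 - θ) ≤ 1 + θ ^ j - lam θ (inn E S).card := by
              have : θ ^ j * (1 - θ) = 1 + θ ^ j - (1 + θ ^ (j + 1)) := by ring
              linarith
            have h8 : (2:ℝ) ^ j * (θ ^ j * (1 - θ)) ≤
                (inn E T).card * (1 + θ ^ j - lam θ (inn E S).card) := by
              apply mul_le_mul hTc h7 (by positivity) (by positivity)
            have h9 : (2 * θ) ^ j * (1 - θ) = (2:ℝ) ^ j * (θ ^ j * (1 - θ)) := by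
              rw [mul_pow]; ring
            linarith
          have hst := step E S T ψ (t - i * δ) δ hδpos k e0 hsum hTS (by
            intro z hz
            rw [hT, mem_filter] at hz
            exact hz.2)
          have heq : t - i * δ - δ = t - ((i + 1 : ℕ) : ℝ) * δ := by push_cast; ring
          rw [heq] at hst
          have hcast : ((i + 1 : ℕ) : ℝ) = (i : ℝ) + 1 := by push_cast; ring
          rw [hcast] at hst ⊢
          linarith
      have hfin := hi N le_rfl
      have hNge : (2:ℝ) ^ j ≤ N * ((2 * θ) ^ j * (1 - θ) / 4) := by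
        calc (2:ℝ) ^ j = 4 / (θ ^ j * (1 - θ)) * ((2 * θ) ^ j * (1 - θ) / 4) := by
              rw [mul_pow]; field_simp
          _ ≤ N * ((2 * θ) ^ j * (1 - θ) / 4) := by
              apply mul_le_mul_of_nonneg_right hN1 (by positivity)
      have hlt := hcon (t - N * δ) (by
        have : G * θ ^ (j + 1) = G * θ ^ j - G * (1 - θ) * θ ^ j := by ring
        linarith)
      have : (2:ℝ) ^ (j + 1) = 2 ^ j + 2 ^ j := by ring
      linarith
  obtain ⟨j, hj⟩ := pow_unbounded_of_one_lt ((inn E S).card : ℝ) (one_lt_two)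
  obtain ⟨t, _, ht⟩ := key (max j0 j) (le_max_left _ _)
  have h3 : ((inn E (S.filter (fun z => t ≤ ψ z))).card : ℝ) ≤ (inn E S).card := by
    exact_mod_cast card_le_card (inn_mono (filter_subset _ _))
  have h4 : (2:ℝ) ^ j ≤ 2 ^ (max j0 j) := pow_le_pow_right₀ (by norm_num) (le_max_right _ _)
  linarith

end Vale.Agent.P249
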