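import Mathlib

open Finset

namespace Vale.Agent.P249

/-- cut-off function -/
noncomputable def cut (θ W H : ℝ) : ℝ := if H ≤ 0 then 1 else max 0 (min 1 (Real.log (θ / H) / W))

/-- tail sums -/
noncomputable def tail (T : ℕ) (τ : ℕ → ℝ) (s : ℕ) : ℝ := ∑ j ∈ Ico s T, τ j

/-- the cut-off telescoping sum -/
noncomputable def hsum (θ W : ℝ) (T : ℕ) (τ p : ℕ → ℝ) : ℝ :=
  ∑ s ∈ range T, cut θ W (tail T τ s) * (p s - p (s + 1))

lemma cut_nonneg (θ W H : ℝ) : 0 ≤ cut θ W H := by
  unfold cut
  split_ifs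
  · exact zero_le_one
  · exact le_max_left _ _

lemma cut_le_one (θ W H : ℝ) : cut θ W H ≤ 1 := by
  unfold cut
  split_ifs
  · exact le_refl _
  · exact max_le zero_le_one (min_le_left _ _)

lemma clamp01_lip (s t : ℝ) : |max 0 (min 1 s) - max 0 (min 1 t)| ≤ |s - t| := by
  have h1 := abs_max_sub_max_le_max (0:ℝ) (min 1 s) 0 (min 1 t)
  have h2 := abs_min_sub_min_le_max (1:ℝ) s 1 t
  simp only [sub_self, abs_zero] at h1 h2
  have h3 : max 0 |min 1 s - min 1 t| = |min 1 s - min 1 t| := max_eq_right (abs_nonneg _)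
  have h4 : max 0 |s - t| = |s - t| := max_eq_right (abs_nonneg _)
  rw [h3] at h1
  rw [h4] at h2
  exact h1.trans h2

lemma cut_anti {θ W : ℝ} (hθ : 0 < θ) (hW : 0 < W) {H H' : ℝ} (h : H ≤ H') :
    cut θ W H' ≤ cut θ W H := by
  by_cases h0 : H ≤ 0
  · have : cut θ W H = 1 := by unfold cut; rw [if_pos h0]
    rw [this]; exact cut_le_one _ _ _
  · have h0' : ¬ H' ≤ 0 := fun h' => h0 (h.trans h')
    unfold cut
    rw [if_neg h0, if_neg h0']
    push Not at h0 h0'
    apply max_le_max (le_refl _)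
    apply min_le_min (le_refl _)
    apply div_le_div_of_nonneg_right _ hW.le
    apply Real.log_le_log (by positivity)
    exact div_le_div_of_nonneg_left hθ.le h0 h

lemma cut_eq_zero {θ W : ℝ} (hθ : 0 < θ) (hW : 0 < W) {H : ℝ} (h : θ ≤ H) : cut θ W H = 0 := by
  have h0 : ¬ H ≤ 0 := by push Not; linarith
  unfold cut
  rw [if_neg h0]
  push Not at h0
  apply max_eq_left
  apply (min_le_right _ _).trans
  apply div_nonpos_of_nonpos_of_nonneg _ hW.le
  apply Real.log_nonpos (by positivity)
  rw [div_le_one h0]; exact h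

lemma cut_eq_one {θ W : ℝ} (hθ : 0 < θ) (hW : 0 < W) {H : ℝ} (h : H ≤ θ * Real.exp (-W)) :
    cut θ W H = 1 := by
  unfold cut
  split_ifs with h0
  · rfl
  · push Not at h0
    have h1 : 1 ≤ Real.log (θ / H) / W := by
      rw [le_div_iff₀ hW, one_mul, Real.le_log_iff_exp_le (by positivity), le_div_iff₀ h0]
      calc Real.exp W * H ≤ Real.exp W * (θ * Real.exp (-W)) :=
            mul_le_mul_of_nonneg_left h (Real.exp_pos _).le
        _ = θ * (Real.exp W * Real.exp (-W)) := by ring
        _ = θ := by rw [← Real.exp_add]; simp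
    rw [min_eq_left h1]
    exact max_eq_right zero_le_one

lemma cut_pos_lt {θ W : ℝ} (hθ : 0 < θ) (hW : 0 < W) {H : ℝ} (h : cut θ W H ≠ 0) : H < θ := by
  by_contra h'
  push Not at h'
  exact h (cut_eq_zero hθ hW h')

lemma cut_ratio {θ W H H' L : ℝ} (hθ : 0 < θ) (hW : 0 < W) (hL : 0 ≤ L)
    (h : H ≤ Real.exp L * H') (h' : H' ≤ Real.exp L * H) :
    |cut θ W H - cut θ W H'| ≤ L / W := by
  have hLW : 0 ≤ L / W := by positivity
  have hE := Real.exp_pos L
  by_cases h0 : H ≤ 0
  · have h0' : H' ≤ 0 := h'.trans (mul_nonpos_of_nonneg_of_nonpos hE.le h0)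
    unfold cut
    rw [if_pos h0, if_pos h0', sub_self, abs_zero]
    exact hLW
  · have h0' : ¬ H' ≤ 0 := fun hh => h0 (h.trans (mul_nonpos_of_nonneg_of_nonpos hE.le hh))
    unfold cut
    rw [if_neg h0, if_neg h0']
    push Not at h0 h0'
    refine (clamp01_lip _ _).trans ?_
    rw [← sub_div, abs_div, abs_of_pos hW]
    apply div_le_div_of_nonneg_right _ hW.le
    rw [Real.log_div hθ.ne' h0.ne', Real.log_div hθ.ne' h0'.ne']
    have h1 := Real.log_le_log h0 h
    have h2 := Real.log_le_log h0' h'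
    rw [Real.log_mul hE.ne' h0'.ne', Real.log_exp] at h1
    rw [Real.log_mul hE.ne' h0.ne', Real.log_exp] at h2
    rw [abs_le]
    constructor <;> linarith

section tail
variable {T : ℕ} {τ : ℕ → ℝ}

lemma tail_nonneg (hτ : ∀ s, 0 ≤ τ s) (s : ℕ) : 0 ≤ tail T τ s := sum_nonneg (fun _ _ => hτ _)

lemma tail_succ {s : ℕ} (hs : s < T) : tail T τ s = τ s + tail T τ (s + 1) := by
  unfold tail
  rw [← Finset.sum_Ioo_add_eq_sum_Ico hs, add_comm]
  congr 1

lemma tail_anti (hτ : ∀ s, 0 ≤ τ s) {s t : ℕ} (h : s ≤ t) : tail T τ t ≤ tail T τ s := by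
  unfold tail
  apply sum_le_sum_of_subset_of_nonneg
  · exact Ico_subset_Ico h (le_refl _)
  · intro i _ _; exact hτ i

lemma le_tail (hτ : ∀ s, 0 ≤ τ s) {s : ℕ} (hs : s < T) : τ s ≤ tail T τ s := by
  rw [tail_succ hs]
  have := tail_nonneg (T := T) hτ (s + 1)
  linarith

lemma weighted {k : ℕ} {g : ℕ → ℝ} {B : ℝ} (hB : 0 ≤ B) (hτ : ∀ s, 0 ≤ τ s)
    (hg0 : ∀ s, 0 ≤ g s) (hg1 : ∀ s, g s ≤ 1)
    (h : ∀ s, k ≤ s → s < T → g s ≠ 0 → tail T τ s ≤ B) : ∑ s ∈ Ico k T, g s * τ s ≤ B := by
  classical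
  by_cases hex : ∃ s, (k ≤ s ∧ s < T) ∧ g s ≠ 0
  · obtain ⟨hk, hne⟩ := Nat.find_spec hex
    set s0 := Nat.find hex with hs0
    have hmin : ∀ s, k ≤ s → s < s0 → g s = 0 := by
      intro s hs1 hs2
      by_contra hc
      have : s < T := by omega
      exact Nat.find_min hex hs2 ⟨⟨hs1, this⟩, hc⟩
    calc ∑ s ∈ Ico k T, g s * τ s = ∑ s ∈ Ico s0 T, g s * τ s := by
          rw [← Finset.sum_Ico_consecutive _ hk.1 hk.2.le]
          rw [sum_eq_zero, zero_add]
          intro s hs
          rw [mem_Ico] at hs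
          rw [hmin s hs.1 hs.2, zero_mul]
      _ ≤ ∑ s ∈ Ico s0 T, τ s := by
          apply sum_le_sum
          intro s _
          exact mul_le_of_le_one_left (hτ s) (hg1 s)
      _ ≤ B := h s0 hk.1 hk.2 hne
  · push Not at hex
    rw [sum_eq_zero]
    · exact hB
    · intro s hs
      rw [mem_Ico] at hs
      rw [hex s hs, zero_mul]

end tail

lemma abel (a δ : ℕ → ℝ) (n : ℕ) :
    ∑ s ∈ range (n + 1), a s * (δ s - δ (s + 1)) =
      a 0 * δ 0 + ∑ s ∈ range n, (a (s + 1) - a s) * δ (s + 1) - a n * δ (n + 1) := by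
  induction n with
  | zero => simp; ring
  | succ n ih => rw [sum_range_succ, ih, sum_range_succ]; ring

lemma exp_half_ineq {L : ℝ} (hL : 0 ≤ L) : L * Real.exp (L / 2) ≤ Real.exp L - 1 := by
  have h1 : L / 2 ≤ Real.sinh (L / 2) := Real.self_le_sinh_iff.mpr (by linarith)
  rw [Real.sinh_eq] at h1
  have h2 : Real.exp (L / 2) * Real.exp (L / 2) = Real.exp L := by
    rw [← Real.exp_add]; congr 1; ring
  have h3 : Real.exp (-(L / 2)) * Real.exp (L / 2) = 1 := by
    rw [← Real.exp_add]; simp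
  have h4 := mul_le_mul_of_nonneg_right h1 (Real.exp_pos (L / 2)).le
  nlinarith

/-- the key one-step estimate -/
lemma step_bound {θ W ρ l H H' t δ δ0 e : ℝ} (hθ : 0 < θ) (hW : 0 < W) (hρ : 0 ≤ ρ) (hl : 0 < l)
    (ht : 0 ≤ t) (htH : t ≤ H) (hH : H ≤ H')
    (h3 : |δ| ≤ 4 * (Real.exp (2 * l * ρ) - 1) * t / l) (hδ : |δ| ≤ |δ0| + e) (he : 0 ≤ e) :
    |(cut θ W H - cut θ W H') * δ| ≤ (cut θ W H - cut θ W H') * |δ0| + 8 * ρ / W * (H' - H) +
      4 * ρ / W * (l * e) := by
  have hc0 : 0 ≤ cut θ W H - cut θ W H' := by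
    have := cut_anti hθ hW hH; linarith
  have hH0 : 0 ≤ H := ht.trans htH
  rw [abs_mul, abs_of_nonneg hc0]
  set c := cut θ W H - cut θ W H' with hc
  have hterm1 : 0 ≤ 8 * ρ / W * (H' - H) := mul_nonneg (by positivity) (by linarith)
  have hterm2 : 0 ≤ 4 * ρ / W * (l * e) := by positivity
  have hterm3 : 0 ≤ c * |δ0| := by positivity
  by_cases hcase : c ≤ 4 * l * ρ / W
  · have h5 : c * |δ| ≤ c * |δ0| + c * e := by
      rw [← mul_add]; exact mul_le_mul_of_nonneg_left hδ hc0
    have h6 : c * e ≤ 4 * l * ρ / W * e := mul_le_mul_of_nonneg_right hcase he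
    have h7 : 4 * l * ρ / W * e = 4 * ρ / W * (l * e) := by ring
    linarith
  · push Not at hcase
    rcases eq_or_lt_of_le hH0 with hz | hpos
    · have ht0 : t = 0 := le_antisymm (by rw [hz]; exact htH) ht
      have hδ0 : |δ| = 0 := le_antisymm (by rw [ht0] at h3; simpa using h3) (abs_nonneg _)
      rw [hδ0, mul_zero]
      linarith
    · have hH'pos : 0 < H' := by linarith
      set L := Real.log (H' / H) with hL
      have hq1 : 1 ≤ H' / H := by rw [le_div_iff₀ hpos]; linarith
      have hL0 : 0 ≤ L := Real.log_nonneg hq1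
      have hexpL : Real.exp L = H' / H := Real.exp_log (by positivity)
      have hcL : c ≤ L / W := by
        have := cut_ratio (H := H) (H' := H') (L := L) hθ hW hL0
          (by rw [hexpL]
              calc H ≤ H' := hH
                _ = 1 * H' := (one_mul _).symm
                _ ≤ H' / H * H' := mul_le_mul_of_nonneg_right hq1 hH'pos.le)
          (by rw [hexpL]; field_simp; exact le_refl _)
        exact (le_abs_self _).trans this
      have hLbig : 4 * l * ρ < L := by
        have h8 : 4 * l * ρ / W < L / W := lt_of_lt_of_le hcase hcL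
        rwa [div_lt_div_iff_of_pos_right hW] at h8
      have h9 : Real.exp (2 * l * ρ) - 1 ≤ 2 * l * ρ * Real.exp (2 * l * ρ) := by
        have h10 := Real.add_one_le_exp (-(2 * l * ρ))
        have h11 : Real.exp (-(2 * l * ρ)) * Real.exp (2 * l * ρ) = 1 := by
          rw [← Real.exp_add]; simp
        have h12 := mul_le_mul_of_nonneg_right h10 (Real.exp_pos (2 * l * ρ)).le
        rw [h11] at h12
        linarith
      have h13 : |δ| ≤ 8 * ρ * Real.exp (L / 2) * H := by
        calc |δ| ≤ 4 * (Real.exp (2 * l * ρ) - 1) * t / l := h3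
          _ ≤ 4 * (2 * l * ρ * Real.exp (2 * l * ρ)) * t / l := by
              apply div_le_div_of_nonneg_right _ hl.le
              apply mul_le_mul_of_nonneg_right _ ht
              linarith
          _ = 8 * ρ * Real.exp (2 * l * ρ) * t := by field_simp; ring
          _ ≤ 8 * ρ * Real.exp (L / 2) * H := by
              apply mul_le_mul _ htH ht (by positivity)
              apply mul_le_mul_of_nonneg_left _ (by positivity)
              apply Real.exp_le_exp.mpr
              linarith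
      have h14 := exp_half_ineq hL0
      have h15 : c * |δ| ≤ 8 * ρ / W * (H' - H) := by
        calc c * |δ| ≤ L / W * (8 * ρ * Real.exp (L / 2) * H) :=
              mul_le_mul hcL h13 (abs_nonneg _) (by positivity)
          _ = 8 * ρ / W * H * (L * Real.exp (L / 2)) := by ring
          _ ≤ 8 * ρ / W * H * (Real.exp L - 1) := mul_le_mul_of_nonneg_left h14 (by positivity)
          _ = 8 * ρ / W * (H' - H) := by rw [hexpL]; field_simp
      linarith

theorem scalar_energy {θ W ρ : ℝ} {T : ℕ} {lam τ τ' p q : ℕ → ℝ} (hθ : 0 < θ) (hW : 0 < W)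
    (hρ : 0 ≤ ρ) (hlam : ∀ s, 0 < lam s) (hτ : ∀ s, 0 ≤ τ s) (hτ' : ∀ s, 0 ≤ τ' s)
    (h1 : ∀ s, 1 ≤ s → s < T → tail T τ s ≤ Real.exp (4 * lam s * ρ) * tail T τ' s)
    (h1' : ∀ s, 1 ≤ s → s < T → tail T τ' s ≤ Real.exp (4 * lam s * ρ) * tail T τ s)
    (h2 : ∀ s, s < T → |q s - q (s + 1)| ≤ 2 * τ' s / lam s)
    (h3 : ∀ s, 1 ≤ s → s < T → |p s - q s| ≤ 4 * (Real.exp (2 * lam s * ρ) - 1) * τ s / lam s)
    (hT : p T = q T) (h0 : W ≤ lam 0 * ρ) :
    |hsum θ W T τ p - hsum θ W T τ' q| ≤ |p 0 - q 0| + 8 * ρ / W * (tail T τ 0 + tail T τ' 0) +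
      4 * ρ / W * ∑ s ∈ Ico 1 T, lam s * (|p s - p 0| + |q s - q 0|) := by
  set a : ℕ → ℝ := fun s => cut θ W (tail T τ s) with ha
  set a' : ℕ → ℝ := fun s => cut θ W (tail T τ' s) with ha'
  set δ : ℕ → ℝ := fun s => p s - q s with hδ
  have hsplit : hsum θ W T τ p - hsum θ W T τ' q =
      ∑ s ∈ range T, a s * (δ s - δ (s + 1)) + ∑ s ∈ range T, (a s - a' s) * (q s - q (s + 1)) := by
    unfold hsum
    rw [← sum_sub_distrib, ← sum_add_distrib]
    apply sum_congr rfl
    intro s _
    simp only [ha, ha', hδ]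
    ring
  -- Part A
  have hA : |∑ s ∈ range T, (a s - a' s) * (q s - q (s + 1))| ≤ 8 * ρ / W * tail T τ' 0 := by
    have h4 : ∀ s ∈ range T, |(a s - a' s) * (q s - q (s + 1))| ≤ 8 * ρ / W * τ' s := by
      intro s hs
      rw [mem_range] at hs
      have h5 : |a s - a' s| ≤ 4 * lam s * ρ / W := by
        rcases Nat.eq_zero_or_pos s with h | h
        · subst h
          have h6 : |a 0 - a' 0| ≤ 1 := by
            rw [abs_le]
            have b1 := cut_nonneg θ W (tail T τ 0)
            have b2 := cut_le_one θ W (tail T τ 0)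
            have b3 := cut_nonneg θ W (tail T τ' 0)
            have b4 := cut_le_one θ W (tail T τ' 0)
            simp only [ha, ha']
            constructor <;> linarith
          refine h6.trans ?_
          rw [le_div_iff₀ hW]
          nlinarith
        · exact cut_ratio hθ hW (by have := hlam s; positivity) (h1 s h hs) (h1' s h hs)
      rw [abs_mul]
      calc |a s - a' s| * |q s - q (s + 1)| ≤ (4 * lam s * ρ / W) * (2 * τ' s / lam s) :=
            mul_le_mul h5 (h2 s hs) (abs_nonneg _) (by have := hlam s; positivity)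
        _ = 8 * ρ / W * τ' s := by have := (hlam s).ne'; field_simp; ring
    calc _ ≤ ∑ s ∈ range T, |(a s - a' s) * (q s - q (s + 1))| := abs_sum_le_sum_abs _ _
      _ ≤ ∑ s ∈ range T, 8 * ρ / W * τ' s := sum_le_sum h4
      _ = 8 * ρ / W * tail T τ' 0 := by
          rw [← mul_sum]; unfold tail; rw [Finset.range_eq_Ico]
  -- Part B
  have hB : |∑ s ∈ range T, a s * (δ s - δ (s + 1))| ≤ |p 0 - q 0| + 8 * ρ / W * tail T τ 0 +
      4 * ρ / W * ∑ s ∈ Ico 1 T, lam s * (|p s - p 0| + |q s - q 0|) := by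
    rcases Nat.eq_zero_or_pos T with hT0 | hTpos
    · subst hT0
      simp only [range_zero, sum_empty, abs_zero]
      have := tail_nonneg (T := 0) hτ 0
      have h6 : Ico 1 0 = (∅ : Finset ℕ) := by simp
      rw [h6, sum_empty]
      positivity
    · obtain ⟨n, rfl⟩ : ∃ n, T = n + 1 := ⟨T - 1, by omega⟩
      rw [abel a δ n]
      have hδT : δ (n + 1) = 0 := by simp only [hδ]; rw [hT]; ring
      rw [hδT, mul_zero, sub_zero]
      have hstep : ∀ s ∈ range n, |(a (s + 1) - a s) * δ (s + 1)| ≤ (a (s + 1) - a s) * |δ 0| +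
          8 * ρ / W * (tail (n + 1) τ s - tail (n + 1) τ (s + 1)) +
          4 * ρ / W * (lam (s + 1) * (|p (s + 1) - p 0| + |q (s + 1) - q 0|)) := by
        intro s hs
        rw [mem_range] at hs
        have hs1 : s + 1 < n + 1 := by omega
        apply step_bound hθ hW hρ (hlam (s + 1)) (hτ (s + 1)) (le_tail hτ hs1)
          (tail_anti hτ (Nat.le_succ s)) (h3 (s + 1) (by omega) hs1)
        · simp only [hδ]
          have h7 : p (s + 1) - q (s + 1) = (p 0 - q 0) + (p (s + 1) - p 0) - (q (s + 1) - q 0) := by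
            ring
          rw [h7]
          calc |(p 0 - q 0) + (p (s + 1) - p 0) - (q (s + 1) - q 0)|
              ≤ |(p 0 - q 0) + (p (s + 1) - p 0)| + |q (s + 1) - q 0| := abs_sub _ _
            _ ≤ |p 0 - q 0| + |p (s + 1) - p 0| + |q (s + 1) - q 0| := by
                linarith [abs_add_le (p 0 - q 0) (p (s + 1) - p 0)]
            _ = _ := by ring
        · positivity
      have hsum1 : ∑ s ∈ range n, (a (s + 1) - a s) = a n - a 0 := sum_range_sub a n
      have hsum2 : ∑ s ∈ range n, (tail (n + 1) τ s - tail (n + 1) τ (s + 1)) =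
          tail (n + 1) τ 0 - tail (n + 1) τ n := by
        have := sum_range_sub' (fun s => tail (n + 1) τ s) n
        simpa using this
      have hsum3 : ∑ s ∈ range n, lam (s + 1) * (|p (s + 1) - p 0| + |q (s + 1) - q 0|) =
          ∑ s ∈ Ico 1 (n + 1), lam s * (|p s - p 0| + |q s - q 0|) := by
        rw [Finset.sum_Ico_eq_sum_range]
        apply sum_congr (by simp)
        intro s _
        rw [add_comm 1 s]
      have han1 : a n ≤ 1 := cut_le_one _ _ _
      have ha00 : 0 ≤ a 0 := cut_nonneg _ _ _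
      have htn : 0 ≤ tail (n + 1) τ n := tail_nonneg hτ n
      have hρW : 0 ≤ 8 * ρ / W := by positivity
      calc |a 0 * δ 0 + ∑ s ∈ range n, (a (s + 1) - a s) * δ (s + 1)|
          ≤ |a 0 * δ 0| + |∑ s ∈ range n, (a (s + 1) - a s) * δ (s + 1)| := abs_add_le _ _
        _ ≤ a 0 * |δ 0| + ∑ s ∈ range n, |(a (s + 1) - a s) * δ (s + 1)| := by
            rw [abs_mul, abs_of_nonneg ha00]
            linarith [abs_sum_le_sum_abs (fun s => (a (s + 1) - a s) * δ (s + 1)) (range n)]
        _ ≤ a 0 * |δ 0| + ∑ s ∈ range n, ((a (s + 1) - a s) * |δ 0| +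
          8 * ρ / W * (tail (n + 1) τ s - tail (n + 1) τ (s + 1)) +
          4 * ρ / W * (lam (s + 1) * (|p (s + 1) - p 0| + |q (s + 1) - q 0|))) := by
            linarith [sum_le_sum hstep]
        _ = a 0 * |δ 0| + ((a n - a 0) * |δ 0| + 8 * ρ / W * (tail (n + 1) τ 0 - tail (n + 1) τ n)
            + 4 * ρ / W * ∑ s ∈ Ico 1 (n + 1), lam s * (|p s - p 0| + |q s - q 0|)) := by
            rw [sum_add_distrib, sum_add_distrib, ← sum_mul, ← mul_sum, ← mul_sum, hsum1, hsum2,
              hsum3]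
        _ ≤ _ := by
            have h8 : (a n) * |δ 0| ≤ 1 * |δ 0| := mul_le_mul_of_nonneg_right han1 (abs_nonneg _)
            have h9 : 8 * ρ / W * (tail (n + 1) τ 0 - tail (n + 1) τ n) ≤
                8 * ρ / W * tail (n + 1) τ 0 := mul_le_mul_of_nonneg_left (by linarith) hρW
            have h10 : |δ 0| = |p 0 - q 0| := rfl
            rw [h10] at h8 ⊢
            linarith
  rw [hsplit]
  calc _ ≤ |∑ s ∈ range T, a s * (δ s - δ (s + 1))| +
        |∑ s ∈ range T, (a s - a' s) * (q s - q (s + 1))| := abs_add_le _ _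
    _ ≤ _ := by
        rw [mul_add]
        linarith

lemma fine_part {θ W ρ : ℝ} {T k : ℕ} {lam τ p : ℕ → ℝ} (hθ : 0 < θ) (hW : 0 < W)
    (hρ : 0 ≤ ρ) (hlam : ∀ s, 0 < lam s) (hk : k ≤ T) (hτ : ∀ s, 0 ≤ τ s)
    (h2 : ∀ s, s < T → |p s - p (s + 1)| ≤ 2 * τ s / lam s)
    (hfine : ∀ s, s < k → 1 ≤ lam s * ρ) :
    |∑ s ∈ range k, cut θ W (tail T τ s) * (p s - p (s + 1))| ≤ 2 * ρ * θ := by
  calc |∑ s ∈ range k, cut θ W (tail T τ s) * (p s - p (s + 1))|
      ≤ ∑ s ∈ range k, |cut θ W (tail T τ s) * (p s - p (s + 1))| := abs_sum_le_sum_abs _ _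
    _ ≤ ∑ s ∈ range k, 2 * ρ * (cut θ W (tail T τ s) * τ s) := by
        apply sum_le_sum
        intro s hs
        rw [mem_range] at hs
        have h3 := hlam s
        have h4 := hfine s hs
        have h5 := cut_nonneg θ W (tail T τ s)
        have h7 := hτ s
        rw [abs_mul, abs_of_nonneg h5]
        have h6 : |p s - p (s + 1)| ≤ 2 * ρ * τ s := by
          refine (h2 s (by omega)).trans ?_
          rw [div_le_iff₀ h3]
          nlinarith
        calc _ ≤ cut θ W (tail T τ s) * (2 * ρ * τ s) := mul_le_mul_of_nonneg_left h6 h5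
          _ = _ := by ring
    _ ≤ ∑ s ∈ range T, 2 * ρ * (cut θ W (tail T τ s) * τ s) := by
        apply sum_le_sum_of_subset_of_nonneg
        · exact range_subset_range.mpr hk
        · intro s _ _
          have h5 := cut_nonneg θ W (tail T τ s)
          have h7 := hτ s
          positivity
    _ ≤ 2 * ρ * θ := by
        rw [← mul_sum]
        apply mul_le_mul_of_nonneg_left _ (by positivity)
        rw [Finset.range_eq_Ico]
        apply weighted hθ.le hτ (fun s => cut_nonneg _ _ _) (fun s => cut_le_one _ _ _)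
        intro s _ _ hne
        exact (cut_pos_lt hθ hW hne).le

lemma exp_two_le : Real.exp 2 ≤ 74 / 10 := by
  have h : Real.exp 2 = Real.exp 1 ^ 2 := by rw [← Real.exp_nat_mul]; norm_num
  rw [h]
  have h1 := Real.exp_one_lt_d9
  have h2 := Real.exp_pos 1
  nlinarith

lemma exp_four_le : Real.exp 4 ≤ 55 := by
  have h : Real.exp 4 = Real.exp 2 ^ 2 := by rw [← Real.exp_nat_mul]; norm_num
  rw [h]
  have h1 := exp_two_le
  have h2 := Real.exp_pos 2
  nlinarith

theorem scalar_lip {θ W ρ : ℝ} {T : ℕ} {lam τ τ' p q : ℕ → ℝ} (hθ : 0 < θ) (hW : 1 ≤ W)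
    (hρ : 0 ≤ ρ) (hlam : ∀ s, 0 < lam s) (hanti : Antitone lam)
    (hτ : ∀ s, 0 ≤ τ s) (hτ' : ∀ s, 0 ≤ τ' s)
    (h1 : ∀ s, 1 ≤ s → s < T → tail T τ s ≤ Real.exp (4 * lam s * ρ) * tail T τ' s)
    (h1' : ∀ s, 1 ≤ s → s < T → tail T τ' s ≤ Real.exp (4 * lam s * ρ) * tail T τ s)
    (h2 : ∀ s, s < T → |p s - p (s + 1)| ≤ 2 * τ s / lam s)
    (h2' : ∀ s, s < T → |q s - q (s + 1)| ≤ 2 * τ' s / lam s)
    (h3 : ∀ s, 1 ≤ s → s < T → |p s - q s| ≤ 4 * (Real.exp (2 * lam s * ρ) - 1) * τ s / lam s)
    (hT : p T = q T) (h0 : W ≤ lam 0 * ρ) :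
    |hsum θ W T τ p - hsum θ W T τ' q| ≤ 600 * θ * ρ := by
  classical
  have hW0 : 0 < W := by linarith
  -- choose the splitting index
  obtain ⟨k, hkT, hfine, hcoarse, hk1⟩ : ∃ k, k ≤ T ∧ (∀ s, s < k → 1 ≤ lam s * ρ) ∧
      (∀ s, k ≤ s → s < T → lam s * ρ < 1) ∧ (T = 0 ∨ 1 ≤ k) := by
    by_cases hex : ∃ s, s < T ∧ lam s * ρ < 1
    · refine ⟨Nat.find hex, (Nat.find_spec hex).1.le, ?_, ?_, ?_⟩
      · intro s hs
        have := Nat.find_min hex hs
        push Not at this
        exact this (lt_trans hs (Nat.find_spec hex).1)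
      · intro s hs _
        have h4 := (Nat.find_spec hex).2
        have h5 := mul_le_mul_of_nonneg_right (hanti hs) hρ
        linarith
      · right
        rw [Nat.one_le_iff_ne_zero]
        intro h6
        have h4 := (Nat.find_spec hex).2
        rw [h6] at h4
        linarith
    · push Not at hex
      refine ⟨T, le_refl _, fun s hs => hex s hs, fun s h4 h5 => by omega, ?_⟩
      omega
  set a : ℕ → ℝ := fun s => cut θ W (tail T τ s) with ha
  set a' : ℕ → ℝ := fun s => cut θ W (tail T τ' s) with ha'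
  set δ : ℕ → ℝ := fun s => p s - q s with hδ
  have hsplit : hsum θ W T τ p - hsum θ W T τ' q =
      ∑ s ∈ range k, a s * (p s - p (s + 1)) - ∑ s ∈ range k, a' s * (q s - q (s + 1)) +
      (∑ s ∈ Ico k T, a s * (δ s - δ (s + 1)) + ∑ s ∈ Ico k T, (a s - a' s) * (q s - q (s + 1))) := by
    unfold hsum
    rw [Finset.range_eq_Ico, Finset.range_eq_Ico, ← Finset.sum_Ico_consecutive _ (Nat.zero_le k) hkT,
      ← Finset.sum_Ico_consecutive _ (Nat.zero_le k) hkT]
    have : ∑ s ∈ Ico k T, a s * (p s - p (s + 1)) - ∑ s ∈ Ico k T, a' s * (q s - q (s + 1)) =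
        ∑ s ∈ Ico k T, a s * (δ s - δ (s + 1)) + ∑ s ∈ Ico k T, (a s - a' s) * (q s - q (s + 1)) := by
      rw [← sum_sub_distrib, ← sum_add_distrib]
      apply sum_congr rfl
      intro s _
      simp only [hδ]
      ring
    rw [← this]
    ring
  have hf1 := fine_part hθ hW0 hρ hlam hkT hτ h2 hfine
  have hf2 := fine_part hθ hW0 hρ hlam hkT hτ' h2' hfine
  -- Part A
  have hA : |∑ s ∈ Ico k T, (a s - a' s) * (q s - q (s + 1))| ≤ 8 * ρ * (55 * θ) := by
    set g : ℕ → ℝ := fun s => if a s = a' s then 0 else 1 with hg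
    have h4 : ∀ s ∈ Ico k T, |(a s - a' s) * (q s - q (s + 1))| ≤ 8 * ρ * (g s * τ' s) := by
      intro s hs
      rw [mem_Ico] at hs
      have hs1 : 1 ≤ s := by omega
      by_cases heq : a s = a' s
      · have : g s = 0 := by simp only [hg]; rw [if_pos heq]
        rw [this, heq]; simp
      · have hg1 : g s = 1 := by simp only [hg]; rw [if_neg heq]
        rw [hg1, one_mul, abs_mul]
        have h5 : |a s - a' s| ≤ 4 * lam s * ρ / W :=
          cut_ratio hθ hW0 (by have := hlam s; positivity) (h1 s hs1 hs.2) (h1' s hs1 hs.2)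
        have h6 : 4 * lam s * ρ / W ≤ 4 * lam s * ρ := by
          have := hlam s
          exact div_le_self (by positivity) hW
        calc |a s - a' s| * |q s - q (s + 1)| ≤ (4 * lam s * ρ) * (2 * τ' s / lam s) :=
              mul_le_mul (h5.trans h6) (h2' s hs.2) (abs_nonneg _) (by have := hlam s; positivity)
          _ = 8 * ρ * τ' s := by have := (hlam s).ne'; field_simp; ring
    calc _ ≤ ∑ s ∈ Ico k T, |(a s - a' s) * (q s - q (s + 1))| := abs_sum_le_sum_abs _ _
      _ ≤ ∑ s ∈ Ico k T, 8 * ρ * (g s * τ' s) := sum_le_sum h4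
      _ = 8 * ρ * ∑ s ∈ Ico k T, g s * τ' s := by rw [mul_sum]
      _ ≤ _ := by
          apply mul_le_mul_of_nonneg_left _ (by positivity)
          apply weighted (by positivity) hτ'
          · intro s; simp only [hg]; split_ifs <;> norm_num
          · intro s; simp only [hg]; split_ifs <;> norm_num
          · intro s hks hsT hne
            have hne' : a s ≠ a' s := by
              intro h; apply hne; simp only [hg]; rw [if_pos h]
            have hs1 : 1 ≤ s := by omega
            have hlt : tail T τ s < θ ∨ tail T τ' s < θ := by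
              by_contra hcon
              push Not at hcon
              apply hne'
              simp only [ha, ha']
              rw [cut_eq_zero hθ hW0 hcon.1, cut_eq_zero hθ hW0 hcon.2]
            rcases hlt with h | h
            · have h7 : Real.exp (4 * lam s * ρ) ≤ 55 := by
                refine le_trans ?_ exp_four_le
                apply Real.exp_le_exp.mpr
                have := hcoarse s hks hsT
                linarith
              have h8 := tail_nonneg (T := T) hτ s
              calc tail T τ' s ≤ Real.exp (4 * lam s * ρ) * tail T τ s := h1' s hs1 hsT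
                _ ≤ 55 * θ := mul_le_mul h7 h.le h8 (by norm_num)
            · linarith
  -- Part B
  have hB : |∑ s ∈ Ico k T, a s * (δ s - δ (s + 1))| ≤ 8 * (74 / 10) * ρ * θ := by
    rcases Nat.lt_or_ge k T with hlt | hge
    · obtain ⟨n, hn⟩ : ∃ n, T - k = n + 1 := ⟨T - k - 1, by omega⟩
      rw [Finset.sum_Ico_eq_sum_range, hn]
      have hab := abel (fun s => a (k + s)) (fun s => δ (k + s)) n
      simp only [Nat.add_zero, ← Nat.add_assoc] at hab
      have hrw : ∑ s ∈ range (n + 1), a (k + s) * (δ (k + s) - δ (k + s + 1)) =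
          a k * δ k + ∑ s ∈ range n, (a (k + s + 1) - a (k + s)) * δ (k + s + 1) -
            a (k + n) * δ (k + n + 1) := hab
      rw [hrw]
      have hδT : δ (k + n + 1) = 0 := by
        have : k + n + 1 = T := by omega
        rw [this]; simp only [hδ]; rw [hT]; ring
      rw [hδT, mul_zero, sub_zero]
      have hδb : ∀ s, k ≤ s → s < T → |δ s| ≤ 8 * (74 / 10) * ρ * tail T τ s := by
        intro s hs1 hs2
        have hs0 : 1 ≤ s := by omega
        have hl := hlam s
        have hc := hcoarse s hs1 hs2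
        have h9 : Real.exp (2 * lam s * ρ) - 1 ≤ 2 * lam s * ρ * Real.exp (2 * lam s * ρ) := by
          have h10 := Real.add_one_le_exp (-(2 * lam s * ρ))
          have h11 : Real.exp (-(2 * lam s * ρ)) * Real.exp (2 * lam s * ρ) = 1 := by
            rw [← Real.exp_add]; simp
          have h12 := mul_le_mul_of_nonneg_right h10 (Real.exp_pos (2 * lam s * ρ)).le
          rw [h11] at h12
          linarith
        have h13 : Real.exp (2 * lam s * ρ) ≤ 74 / 10 := by
          refine le_trans ?_ exp_two_le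
          apply Real.exp_le_exp.mpr
          linarith
        calc |δ s| ≤ 4 * (Real.exp (2 * lam s * ρ) - 1) * τ s / lam s := h3 s hs0 hs2
          _ ≤ 4 * (2 * lam s * ρ * (74 / 10)) * τ s / lam s := by
              apply div_le_div_of_nonneg_right _ hl.le
              apply mul_le_mul_of_nonneg_right _ (hτ s)
              have h14 : 2 * lam s * ρ * Real.exp (2 * lam s * ρ) ≤ 2 * lam s * ρ * (74 / 10) :=
                mul_le_mul_of_nonneg_left h13 (by positivity)
              linarith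
          _ = 8 * (74 / 10) * ρ * τ s := by field_simp; ring
          _ ≤ _ := mul_le_mul_of_nonneg_left (le_tail hτ hs2) (by positivity)
      have hterm : ∀ s, k ≤ s → s < T → ∀ c : ℝ, 0 ≤ c → c ≤ a s →
          |c * δ s| ≤ c * (8 * (74 / 10) * ρ * θ) := by
        intro s hs1 hs2 c hc0 hc1
        rw [abs_mul, abs_of_nonneg hc0]
        rcases eq_or_lt_of_le hc0 with h | h
        · rw [← h]; simp
        · apply mul_le_mul_of_nonneg_left _ hc0
          refine (hδb s hs1 hs2).trans ?_
          apply mul_le_mul_of_nonneg_left _ (by positivity)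
          have : a s ≠ 0 := by linarith
          exact (cut_pos_lt hθ hW0 this).le
      have hcnn : ∀ s, 0 ≤ a (s + 1) - a s := by
        intro s
        have := cut_anti hθ hW0 (tail_anti (T := T) hτ (Nat.le_succ s))
        simp only [ha]
        linarith
      have hann : ∀ s, 0 ≤ a s := fun s => cut_nonneg _ _ _
      have hk' := hterm k (le_refl _) hlt (a k) (hann k) (le_refl _)
      have hs' : ∀ s ∈ range n, |(a (k + s + 1) - a (k + s)) * δ (k + s + 1)| ≤
          (a (k + s + 1) - a (k + s)) * (8 * (74 / 10) * ρ * θ) := by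
        intro s hs
        rw [mem_range] at hs
        apply hterm (k + s + 1) (by omega) (by omega) _ (hcnn _)
        have := hann (k + s)
        linarith
      have hsum1 : ∑ s ∈ range n, (a (k + s + 1) - a (k + s)) = a (k + n) - a k := by
        have := sum_range_sub (fun s => a (k + s)) n
        simpa [← Nat.add_assoc] using this
      calc |a k * δ k + ∑ s ∈ range n, (a (k + s + 1) - a (k + s)) * δ (k + s + 1)|
          ≤ |a k * δ k| + |∑ s ∈ range n, (a (k + s + 1) - a (k + s)) * δ (k + s + 1)| :=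
            abs_add_le _ _
        _ ≤ a k * (8 * (74 / 10) * ρ * θ) +
            ∑ s ∈ range n, (a (k + s + 1) - a (k + s)) * (8 * (74 / 10) * ρ * θ) := by
              have h15 := abs_sum_le_sum_abs
                (fun s => (a (k + s + 1) - a (k + s)) * δ (k + s + 1)) (range n)
              linarith [sum_le_sum hs']
        _ = a (k + n) * (8 * (74 / 10) * ρ * θ) := by rw [← sum_mul, hsum1]; ring
        _ ≤ 1 * (8 * (74 / 10) * ρ * θ) :=
            mul_le_mul_of_nonneg_right (cut_le_one _ _ _) (by positivity)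
        _ = _ := one_mul _
    · have : Ico k T = ∅ := by rw [Ico_eq_empty]; omega
      rw [this, sum_empty, abs_zero]
      positivity
  rw [hsplit]
  have h5 := abs_add_le (∑ s ∈ range k, a s * (p s - p (s + 1)) - ∑ s ∈ range k, a' s * (q s - q (s + 1)))
    (∑ s ∈ Ico k T, a s * (δ s - δ (s + 1)) + ∑ s ∈ Ico k T, (a s - a' s) * (q s - q (s + 1)))
  have h6 := abs_sub (∑ s ∈ range k, a s * (p s - p (s + 1))) (∑ s ∈ range k, a' s * (q s - q (s + 1)))
  have h7 := abs_add_le (∑ s ∈ Ico k T, a s * (δ s - δ (s + 1)))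
    (∑ s ∈ Ico k T, (a s - a' s) * (q s - q (s + 1)))
  have h8 : 0 ≤ θ * ρ := by positivity
  linarith

end Vale.Agent.P249
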