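import Vale.Agent.P249.Nrm
import Vale.Agent.P249.Scalar

/-! P249 piece [K] (helper15): the multiscale Gibbs averages. -/

open Finset

namespace Vale.Agent.P249

namespace KernelAux

variable {V ι : Type} [Fintype V] [Fintype ι] [Nonempty V] {p : ℝ}

/-- the distance -/
noncomputable def D (p : ℝ) (f : V → ι → ℝ) (x z : V) : ℝ := nrm p (fun i => f x i - f z i)

/-- the scales -/
noncomputable def lam (L : ℝ) (s : ℕ) : ℝ := L / 2 ^ s

/-- the partition functions -/
noncomputable def Z (p : ℝ) (f : V → ι → ℝ) (L : ℝ) (s : ℕ) (x : V) : ℝ :=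
  ∑ z, Real.exp (-(lam L s * D p f x z))

open Classical in
/-- the Gibbs kernels -/
noncomputable def ker (p : ℝ) (f : V → ι → ℝ) (L : ℝ) (T s : ℕ) (x z : V) : ℝ :=
  if s = 0 then (if z = x then 1 else 0)
  else if s < T then Real.exp (-(lam L s * D p f x z)) / Z p f L s x
  else 1 / (Fintype.card V : ℝ)

omit [Fintype V] [Nonempty V] in
theorem D_nonneg (f : V → ι → ℝ) (x z : V) : 0 ≤ D p f x z := nrm_nonneg _

omit [Fintype V] [Nonempty V] in
theorem D_self (hp : 1 ≤ p) (f : V → ι → ℝ) (x : V) : D p f x x = 0 := by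
  unfold D
  simp only [sub_self]
  exact nrm_zero hp

omit [Fintype V] [Nonempty V] in
theorem D_symm (f : V → ι → ℝ) (x z : V) : D p f x z = D p f z x := nrm_sub_comm _ _

omit [Fintype V] [Nonempty V] in
theorem D_tri (hp : 1 ≤ p) (f : V → ι → ℝ) (x y z : V) :
    D p f x z ≤ D p f x y + D p f y z := nrm_triangle hp _ _ _

theorem lam_pos {L : ℝ} (hL : 0 < L) (s : ℕ) : 0 < lam L s := by unfold lam; positivity

theorem lam_succ (L : ℝ) (s : ℕ) : lam L s = 2 * lam L (s + 1) := by
  unfold lam
  rw [pow_succ]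
  field_simp

theorem lam_anti {L : ℝ} (hL : 0 < L) : Antitone (lam L) := by
  refine antitone_nat_of_succ_le fun s => ?_
  have := lam_pos hL (s + 1)
  rw [lam_succ L s]
  linarith

theorem Z_pos (f : V → ι → ℝ) (L : ℝ) (s : ℕ) (x : V) : 0 < Z p f L s x := by
  unfold Z
  exact sum_pos (fun z _ => Real.exp_pos _) univ_nonempty

omit [Nonempty V] in
theorem one_le_Z (hp : 1 ≤ p) (f : V → ι → ℝ) (L : ℝ) (s : ℕ) (x : V) : 1 ≤ Z p f L s x := by
  unfold Z
  have h := single_le_sum (f := fun z => Real.exp (-(lam L s * D p f x z)))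
    (fun z _ => (Real.exp_pos _).le) (mem_univ x)
  simp only [D_self hp, mul_zero, neg_zero, Real.exp_zero] at h
  exact h

omit [Nonempty V] in
theorem Z_le {L : ℝ} (hL : 0 < L) (f : V → ι → ℝ) (s : ℕ) (x : V) :
    Z p f L s x ≤ Fintype.card V := by
  unfold Z
  calc ∑ z, Real.exp (-(lam L s * D p f x z)) ≤ ∑ _z : V, (1 : ℝ) := by
        refine sum_le_sum fun z _ => ?_
        rw [Real.exp_le_one_iff]
        have := mul_nonneg (lam_pos hL s).le (D_nonneg (p := p) f x z)
        linarith
    _ = Fintype.card V := by simp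

theorem ker_nonneg (f : V → ι → ℝ) (L : ℝ) (T s : ℕ) (x z : V) : 0 ≤ ker p f L T s x z := by
  unfold ker
  split_ifs
  · exact zero_le_one
  · exact le_rfl
  · exact div_nonneg (Real.exp_pos _).le (Z_pos f L s x).le
  · positivity

theorem ker_sum (f : V → ι → ℝ) (L : ℝ) (T s : ℕ) (x : V) : ∑ z, ker p f L T s x z = 1 := by
  classical
  unfold ker
  by_cases h0 : s = 0
  · simp [h0]
  · by_cases hT : s < T
    · simp only [h0, hT, if_false, if_true]
      rw [← sum_div]
      exact div_self (Z_pos f L s x).ne'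
    · simp only [h0, hT, if_false]
      rw [sum_const, card_univ, nsmul_eq_mul]
      have : (0 : ℝ) < Fintype.card V := by exact_mod_cast Fintype.card_pos
      field_simp

theorem ker_ratio (hp : 1 ≤ p) {L : ℝ} (hL : 0 < L) (f : V → ι → ℝ) (T s : ℕ) (hs : 1 ≤ s)
    (x y z : V) : ker p f L T s x z ≤ Real.exp (2 * lam L s * D p f x y) * ker p f L T s y z := by
  have hl := lam_pos hL s
  have hD := D_nonneg (p := p) f x y
  unfold ker
  have h0 : s ≠ 0 := by omega
  by_cases hT : s < T
  · simp only [h0, hT, if_false, if_true]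
    have h1 : Real.exp (-(lam L s * D p f x z)) ≤
        Real.exp (lam L s * D p f x y) * Real.exp (-(lam L s * D p f y z)) := by
      rw [← Real.exp_add, Real.exp_le_exp]
      have h2 := D_tri hp f y x z
      rw [D_symm f y x] at h2
      nlinarith
    have h2 : Z p f L s y ≤ Real.exp (lam L s * D p f x y) * Z p f L s x := by
      unfold Z
      rw [mul_sum]
      refine sum_le_sum fun z _ => ?_
      rw [← Real.exp_add, Real.exp_le_exp]
      have h3 := D_tri hp f x y z
      nlinarith
    have hZx := Z_pos (p := p) f L s x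
    have hZy := Z_pos (p := p) f L s y
    rw [div_le_iff₀ hZx]
    have h3 : Real.exp (2 * lam L s * D p f x y) =
        Real.exp (lam L s * D p f x y) * Real.exp (lam L s * D p f x y) := by
      rw [← Real.exp_add]; ring_nf
    rw [h3]
    calc Real.exp (-(lam L s * D p f x z))
        ≤ Real.exp (lam L s * D p f x y) * Real.exp (-(lam L s * D p f y z)) := h1
      _ = Real.exp (lam L s * D p f x y) * (Real.exp (-(lam L s * D p f y z)) / Z p f L s y) *
          Z p f L s y := by field_simp
      _ ≤ Real.exp (lam L s * D p f x y) * (Real.exp (-(lam L s * D p f y z)) / Z p f L s y) *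
          (Real.exp (lam L s * D p f x y) * Z p f L s x) := by gcongr
      _ = _ := by ring
  · simp only [h0, hT, if_false]
    have h1 : 1 ≤ Real.exp (2 * lam L s * D p f x y) := Real.one_le_exp (by positivity)
    have h2 : (0 : ℝ) ≤ 1 / Fintype.card V := by positivity
    nlinarith

/-- averages -/
noncomputable def avg (p : ℝ) (f : V → ι → ℝ) (L : ℝ) (T : ℕ) (x : V) (i : ι) (s : ℕ) : ℝ :=
  ∑ z, ker p f L T s x z * f z i

/-- averaged kernels -/
noncomputable def kt (p : ℝ) (f : V → ι → ℝ) (L : ℝ) (T s : ℕ) (x z : V) : ℝ :=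
  (ker p f L T s x z + ker p f L T (s + 1) x z) / 2

/-- local oscillation -/
noncomputable def osc (p : ℝ) (f : V → ι → ℝ) (L : ℝ) (T : ℕ) (x : V) (i : ι) (s : ℕ) : ℝ :=
  ∑ z, ∑ z', kt p f L T s x z * kt p f L T s x z' * |f z i - f z' i|

theorem kt_nonneg (f : V → ι → ℝ) (L : ℝ) (T s : ℕ) (x z : V) : 0 ≤ kt p f L T s x z := by
  have h1 := ker_nonneg (p := p) f L T s x z
  have h2 := ker_nonneg (p := p) f L T (s + 1) x z
  unfold kt
  linarith

theorem kt_sum (f : V → ι → ℝ) (L : ℝ) (T s : ℕ) (x : V) : ∑ z, kt p f L T s x z = 1 := by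
  unfold kt
  rw [← sum_div, sum_add_distrib, ker_sum, ker_sum]
  norm_num

theorem osc_nonneg (f : V → ι → ℝ) (L : ℝ) (T : ℕ) (x : V) (i : ι) (s : ℕ) :
    0 ≤ osc p f L T x i s := by
  unfold osc
  refine sum_nonneg fun z _ => sum_nonneg fun z' _ => ?_
  have h1 := kt_nonneg (p := p) f L T s x z
  have h2 := kt_nonneg (p := p) f L T s x z'
  positivity

/-- bound of a bilinear average by `osc` -/
theorem bil_le (f : V → ι → ℝ) (L : ℝ) (T : ℕ) (x : V) (i : ι) (s : ℕ) (a b : V → ℝ)
    (C : ℝ) (h : ∀ z z', a z * b z' + a z' * b z ≤ C * (kt p f L T s x z * kt p f L T s x z')) :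
    ∑ z, ∑ z', a z * b z' * |f z i - f z' i| ≤ C / 2 * osc p f L T x i s := by
  have h1 : ∑ z, ∑ z', a z * b z' * |f z i - f z' i| =
      ∑ z, ∑ z', a z' * b z * |f z i - f z' i| := by
    rw [sum_comm]
    refine sum_congr rfl fun z _ => sum_congr rfl fun z' _ => ?_
    rw [abs_sub_comm]
  have h2 : 2 * ∑ z, ∑ z', a z * b z' * |f z i - f z' i| ≤ C * osc p f L T x i s := by
    rw [two_mul]
    nth_rewrite 2 [h1]
    rw [← sum_add_distrib, osc, mul_sum]
    refine sum_le_sum fun z _ => ?_
    rw [← sum_add_distrib, mul_sum]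
    refine sum_le_sum fun z' _ => ?_
    have h3 := h z z'
    have h4 := abs_nonneg (f z i - f z' i)
    nlinarith
  linarith

theorem avg_sub (f : V → ι → ℝ) (L : ℝ) (T : ℕ) (x : V) (i : ι) (s : ℕ) :
    |avg p f L T x i s - avg p f L T x i (s + 1)| ≤ 2 * osc p f L T x i s := by
  have h1 : avg p f L T x i s - avg p f L T x i (s + 1) =
      ∑ z, ∑ z', ker p f L T s x z * ker p f L T (s + 1) x z' * (f z i - f z' i) := by
    have e1 : avg p f L T x i s = ∑ z, ∑ z', ker p f L T s x z * ker p f L T (s + 1) x z' *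
        f z i := by
      unfold avg
      refine sum_congr rfl fun z _ => ?_
      rw [← sum_mul, ← mul_sum, ker_sum, mul_one]
    have e2 : avg p f L T x i (s + 1) = ∑ z, ∑ z', ker p f L T s x z *
        ker p f L T (s + 1) x z' * f z' i := by
      unfold avg
      rw [sum_comm]
      refine sum_congr rfl fun z _ => ?_
      rw [← sum_mul, ← sum_mul, ker_sum, one_mul]
    rw [e1, e2, ← sum_sub_distrib]
    refine sum_congr rfl fun z _ => ?_
    rw [← sum_sub_distrib]
    refine sum_congr rfl fun z' _ => ?_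
    ring
  rw [h1]
  calc |∑ z, ∑ z', ker p f L T s x z * ker p f L T (s + 1) x z' * (f z i - f z' i)|
      ≤ ∑ z, ∑ z', ker p f L T s x z * ker p f L T (s + 1) x z' * |f z i - f z' i| := by
        refine (abs_sum_le_sum_abs _ _).trans (sum_le_sum fun z _ => ?_)
        refine (abs_sum_le_sum_abs _ _).trans (sum_le_sum fun z' _ => ?_)
        rw [abs_mul, abs_mul, abs_of_nonneg (ker_nonneg _ _ _ _ _ _),
          abs_of_nonneg (ker_nonneg _ _ _ _ _ _)]
    _ ≤ 4 / 2 * osc p f L T x i s := by
        refine bil_le f L T x i s _ _ 4 fun z z' => ?_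
        have a1 := ker_nonneg (p := p) f L T s x z
        have a2 := ker_nonneg (p := p) f L T s x z'
        have a3 := ker_nonneg (p := p) f L T (s + 1) x z
        have a4 := ker_nonneg (p := p) f L T (s + 1) x z'
        unfold kt
        nlinarith [mul_nonneg a1 a2, mul_nonneg a3 a4]
    _ = 2 * osc p f L T x i s := by norm_num

theorem avg_diff (hp : 1 ≤ p) {L : ℝ} (hL : 0 < L) (f : V → ι → ℝ) (T : ℕ) (x y : V) (i : ι)
    (s : ℕ) (hs : 1 ≤ s) : |avg p f L T x i s - avg p f L T y i s| ≤
      4 * (Real.exp (2 * lam L s * D p f x y) - 1) * osc p f L T x i s := by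
  set E := Real.exp (2 * lam L s * D p f x y) with hE
  have hE1 : 1 ≤ E := Real.one_le_exp (by
    have := lam_pos hL s
    have := D_nonneg (p := p) f x y
    positivity)
  set M := avg p f L T x i s with hM
  have h1 : M - avg p f L T y i s =
      ∑ z, (ker p f L T s x z - ker p f L T s y z) * (f z i - M) := by
    have e1 : ∑ z, (ker p f L T s x z - ker p f L T s y z) * (f z i - M) =
        (∑ z, ker p f L T s x z * f z i - ∑ z, ker p f L T s y z * f z i) -
        (∑ z, ker p f L T s x z - ∑ z, ker p f L T s y z) * M := by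
      rw [← sum_sub_distrib, ← sum_sub_distrib, sum_mul, ← sum_sub_distrib]
      refine sum_congr rfl fun z _ => ?_
      ring
    rw [e1, ker_sum, ker_sum, sub_self, zero_mul, sub_zero]
    rfl
  have h2 : ∀ z, |ker p f L T s x z - ker p f L T s y z| ≤ (E - 1) * ker p f L T s x z := by
    intro z
    have a1 := ker_ratio hp hL f T s hs x y z
    have a2 := ker_ratio hp hL f T s hs y x z
    rw [D_symm f y x, ← hE] at a2
    rw [← hE] at a1
    have a3 := ker_nonneg (p := p) f L T s x z
    have a4 := ker_nonneg (p := p) f L T s y z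
    rw [abs_le]
    constructor
    · nlinarith
    · nlinarith
  have h3 : ∀ z, |f z i - M| ≤ ∑ z', ker p f L T s x z' * |f z i - f z' i| := by
    intro z
    have e1 : f z i - M = ∑ z', ker p f L T s x z' * (f z i - f z' i) := by
      simp only [mul_sub]
      rw [sum_sub_distrib, ← sum_mul, ker_sum, one_mul]
      rfl
    rw [e1]
    refine (abs_sum_le_sum_abs _ _).trans (sum_le_sum fun z' _ => ?_)
    rw [abs_mul, abs_of_nonneg (ker_nonneg _ _ _ _ _ _)]
  rw [h1]
  calc |∑ z, (ker p f L T s x z - ker p f L T s y z) * (f z i - M)|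
      ≤ ∑ z, (E - 1) * ker p f L T s x z * ∑ z', ker p f L T s x z' * |f z i - f z' i| := by
        refine (abs_sum_le_sum_abs _ _).trans (sum_le_sum fun z _ => ?_)
        rw [abs_mul]
        exact mul_le_mul (h2 z) (h3 z) (abs_nonneg _)
          (mul_nonneg (by linarith) (ker_nonneg _ _ _ _ _ _))
    _ = (E - 1) * ∑ z, ∑ z', ker p f L T s x z * ker p f L T s x z' * |f z i - f z' i| := by
        rw [mul_sum]
        refine sum_congr rfl fun z _ => ?_
        rw [mul_sum, mul_sum]
        refine sum_congr rfl fun z' _ => ?_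
        ring
    _ ≤ (E - 1) * (8 / 2 * osc p f L T x i s) := by
        refine mul_le_mul_of_nonneg_left ?_ (by linarith)
        refine bil_le f L T x i s _ _ 8 fun z z' => ?_
        have a1 := ker_nonneg (p := p) f L T s x z
        have a2 := ker_nonneg (p := p) f L T s x z'
        have a3 := ker_nonneg (p := p) f L T (s + 1) x z
        have a4 := ker_nonneg (p := p) f L T (s + 1) x z'
        unfold kt
        nlinarith [mul_nonneg a1 a4, mul_nonneg a3 a4, mul_nonneg a2 a3]
    _ = 4 * (E - 1) * osc p f L T x i s := by ring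

theorem osc_ratio (hp : 1 ≤ p) {L : ℝ} (hL : 0 < L) (f : V → ι → ℝ) (T : ℕ) (x y : V) (i : ι)
    (s j : ℕ) (hs : 1 ≤ s) (hj : s ≤ j) : osc p f L T x i j ≤
      Real.exp (4 * lam L s * D p f x y) * osc p f L T y i j := by
  have hD := D_nonneg (p := p) f x y
  have hk : ∀ k, s ≤ k → ∀ z, ker p f L T k x z ≤
      Real.exp (2 * lam L s * D p f x y) * ker p f L T k y z := by
    intro k hk z
    refine (ker_ratio hp hL f T k (hs.trans hk) x y z).trans ?_
    refine mul_le_mul_of_nonneg_right (Real.exp_le_exp.2 ?_) (ker_nonneg _ _ _ _ _ _)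
    have := lam_anti hL hk
    gcongr
  have hkt : ∀ z, kt p f L T j x z ≤
      Real.exp (2 * lam L s * D p f x y) * kt p f L T j y z := by
    intro z
    have h1 := hk j hj z
    have h2 := hk (j + 1) (by omega) z
    unfold kt
    linarith
  have hE : Real.exp (4 * lam L s * D p f x y) =
      Real.exp (2 * lam L s * D p f x y) * Real.exp (2 * lam L s * D p f x y) := by
    rw [← Real.exp_add]; ring_nf
  unfold osc
  rw [mul_sum]
  refine sum_le_sum fun z _ => ?_
  rw [mul_sum]
  refine sum_le_sum fun z' _ => ?_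
  rw [hE]
  have h1 := hkt z
  have h2 := hkt z'
  have h3 := kt_nonneg (p := p) f L T j x z'
  have h4 := kt_nonneg (p := p) f L T j y z
  have h5 := (Real.exp_pos (2 * lam L s * D p f x y)).le
  calc kt p f L T j x z * kt p f L T j x z' * |f z i - f z' i|
      ≤ (Real.exp (2 * lam L s * D p f x y) * kt p f L T j y z) *
        (Real.exp (2 * lam L s * D p f x y) * kt p f L T j y z') * |f z i - f z' i| := by
        gcongr
    _ = _ := by ring

/-- mean distance -/
noncomputable def md (p : ℝ) (f : V → ι → ℝ) (L : ℝ) (T s : ℕ) (x : V) : ℝ :=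
  ∑ z, ker p f L T s x z * D p f x z

theorem md_nonneg (f : V → ι → ℝ) (L : ℝ) (T s : ℕ) (x : V) : 0 ≤ md p f L T s x :=
  sum_nonneg fun z _ => mul_nonneg (ker_nonneg _ _ _ _ _ _) (D_nonneg _ _ _)

theorem md_zero (hp : 1 ≤ p) (f : V → ι → ℝ) (L : ℝ) (T : ℕ) (x : V) : md p f L T 0 x = 0 := by
  classical
  unfold md ker
  refine sum_eq_zero fun z _ => ?_
  simp only [if_true]
  by_cases h : z = x
  · rw [h, D_self hp, mul_zero]
  · simp [h]

theorem nrm_avg (hp : 1 ≤ p) (f : V → ι → ℝ) (L : ℝ) (T s : ℕ) (x : V) :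
    nrm p (fun i => avg p f L T x i s - f x i) ≤ md p f L T s x := by
  have h1 : (fun i => avg p f L T x i s - f x i) =
      fun i => ∑ z, (fun z i => ker p f L T s x z * (f z i - f x i)) z i := by
    funext i
    simp only [mul_sub]
    rw [sum_sub_distrib, ← sum_mul, ker_sum, one_mul]
    rfl
  rw [h1]
  refine (nrm_sum_le hp univ _).trans ?_
  unfold md
  refine sum_le_sum fun z _ => ?_
  have h2 := nrm_const_mul hp (ker p f L T s x z) (fun i => f z i - f x i)
  rw [abs_of_nonneg (ker_nonneg _ _ _ _ _ _)] at h2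
  rw [D_symm f x z]
  exact h2.le

theorem nrm_osc (hp : 1 ≤ p) (f : V → ι → ℝ) (L : ℝ) (T s : ℕ) (x : V) :
    nrm p (fun i => osc p f L T x i s) ≤ md p f L T s x + md p f L T (s + 1) x := by
  have h1 : nrm p (fun i => osc p f L T x i s) ≤
      ∑ z, ∑ z', kt p f L T s x z * kt p f L T s x z' * D p f z z' := by
    unfold osc
    refine (nrm_sum_le hp univ
      (fun z i => ∑ z', kt p f L T s x z * kt p f L T s x z' * |f z i - f z' i|)).trans ?_
    refine sum_le_sum fun z _ => ?_
    refine (nrm_sum_le hp univ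
      (fun z' i => kt p f L T s x z * kt p f L T s x z' * |f z i - f z' i|)).trans ?_
    refine sum_le_sum fun z' _ => ?_
    have h2 := nrm_const_mul hp (kt p f L T s x z * kt p f L T s x z')
      (fun i => |f z i - f z' i|)
    rw [abs_of_nonneg (mul_nonneg (kt_nonneg _ _ _ _ _ _) (kt_nonneg _ _ _ _ _ _))] at h2
    refine h2.le.trans ?_
    refine mul_le_mul_of_nonneg_left ?_
      (mul_nonneg (kt_nonneg _ _ _ _ _ _) (kt_nonneg _ _ _ _ _ _))
    exact nrm_mono hp fun i => by rw [abs_abs]
  refine h1.trans ?_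
  calc ∑ z, ∑ z', kt p f L T s x z * kt p f L T s x z' * D p f z z'
      ≤ ∑ z, ∑ z', kt p f L T s x z * kt p f L T s x z' * (D p f x z + D p f x z') := by
        refine sum_le_sum fun z _ => sum_le_sum fun z' _ => ?_
        refine mul_le_mul_of_nonneg_left ?_
          (mul_nonneg (kt_nonneg _ _ _ _ _ _) (kt_nonneg _ _ _ _ _ _))
        have := D_tri hp f z x z'
        rwa [D_symm f z x] at this
    _ = ∑ z, kt p f L T s x z * D p f x z + ∑ z, kt p f L T s x z * D p f x z := by
        have e1 : ∑ z, ∑ z', kt p f L T s x z * kt p f L T s x z' * (D p f x z + D p f x z') =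
            ∑ z, ∑ z', kt p f L T s x z * kt p f L T s x z' * D p f x z +
            ∑ z, ∑ z', kt p f L T s x z * kt p f L T s x z' * D p f x z' := by
          rw [← sum_add_distrib]
          refine sum_congr rfl fun z _ => ?_
          rw [← sum_add_distrib]
          refine sum_congr rfl fun z' _ => ?_
          ring
        rw [e1]
        congr 1
        · refine sum_congr rfl fun z _ => ?_
          rw [← sum_mul, ← mul_sum, kt_sum, mul_one]
        · rw [sum_comm]
          refine sum_congr rfl fun z _ => ?_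
          rw [← sum_mul, ← sum_mul, kt_sum, one_mul]
    _ = md p f L T s x + md p f L T (s + 1) x := by
        unfold md kt
        rw [← sum_add_distrib, ← sum_add_distrib]
        refine sum_congr rfl fun z _ => ?_
        ring

/-- growth of the partition function -/
theorem growth {L : ℝ} (f : V → ι → ℝ) (T s : ℕ) (hs : 1 ≤ s) (hT : s < T)
    (x : V) : lam L s * md p f L T s x / 2 ≤
      Real.log (Z p f L (s + 1) x) - Real.log (Z p f L s x) := by
  have hZ := Z_pos (p := p) f L s x
  have hZ' := Z_pos (p := p) f L (s + 1) x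
  have hs0 : s ≠ 0 := by omega
  rw [← Real.log_div hZ'.ne' hZ.ne']
  have h1 : Z p f L (s + 1) x / Z p f L s x =
      ∑ z, ker p f L T s x z * Real.exp (lam L s / 2 * D p f x z) := by
    unfold ker
    simp only [hs0, hT, if_false, if_true]
    have e1 : Z p f L (s + 1) x = ∑ z, Real.exp (-(lam L s * D p f x z)) *
        Real.exp (lam L s / 2 * D p f x z) := by
      unfold Z
      refine sum_congr rfl fun z _ => ?_
      rw [← Real.exp_add]
      congr 1
      rw [lam_succ L s]
      ring
    rw [e1, sum_div]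
    refine sum_congr rfl fun z _ => ?_
    ring
  set μ := lam L s / 2 * md p f L T s x with hμ
  have h2 : Real.exp μ ≤ ∑ z, ker p f L T s x z * Real.exp (lam L s / 2 * D p f x z) := by
    calc Real.exp μ = ∑ z, ker p f L T s x z *
          (Real.exp μ * (1 + (lam L s / 2 * D p f x z - μ))) := by
          have e1 : ∑ z, ker p f L T s x z * (Real.exp μ * (1 + (lam L s / 2 * D p f x z - μ))) =
              Real.exp μ * ((1 - μ) * ∑ z, ker p f L T s x z +
                lam L s / 2 * ∑ z, ker p f L T s x z * D p f x z) := by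
            rw [mul_sum, mul_sum, ← sum_add_distrib, mul_sum]
            refine sum_congr rfl fun z _ => ?_
            ring
          rw [e1, ker_sum]
          have e2 : lam L s / 2 * ∑ z, ker p f L T s x z * D p f x z = μ := rfl
          rw [e2]
          ring
      _ ≤ ∑ z, ker p f L T s x z * Real.exp (lam L s / 2 * D p f x z) := by
          refine sum_le_sum fun z _ => ?_
          refine mul_le_mul_of_nonneg_left ?_ (ker_nonneg _ _ _ _ _ _)
          have e3 : Real.exp (lam L s / 2 * D p f x z) =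
              Real.exp μ * Real.exp (lam L s / 2 * D p f x z - μ) := by
            rw [← Real.exp_add]; ring_nf
          rw [e3]
          refine mul_le_mul_of_nonneg_left ?_ (Real.exp_pos _).le
          have := Real.add_one_le_exp (lam L s / 2 * D p f x z - μ)
          linarith
  rw [h1]
  have h3 := Real.log_le_log (Real.exp_pos μ) h2
  rw [Real.log_exp] at h3
  calc lam L s * md p f L T s x / 2 = μ := by rw [hμ]; ring
    _ ≤ _ := h3

theorem sum_md (hp : 1 ≤ p) {L : ℝ} (hL : 0 < L) (f : V → ι → ℝ) (T : ℕ) (hT : 1 ≤ T) (x : V) :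
    ∑ s ∈ Ico 1 T, lam L s * md p f L T s x ≤ 2 * Real.log (Fintype.card V) := by
  have h1 : ∑ s ∈ Ico 1 T, lam L s * md p f L T s x / 2 ≤
      ∑ s ∈ Ico 1 T, (Real.log (Z p f L (s + 1) x) - Real.log (Z p f L s x)) := by
    refine sum_le_sum fun s hs => ?_
    rw [mem_Ico] at hs
    exact growth f T s hs.1 hs.2 x
  rw [sum_Ico_sub (fun s => Real.log (Z p f L s x)) hT] at h1
  have h2 : Real.log (Z p f L T x) ≤ Real.log (Fintype.card V) :=
    Real.log_le_log (Z_pos f L T x) (Z_le hL f T x)
  have h3 : 0 ≤ Real.log (Z p f L 1 x) := Real.log_nonneg (one_le_Z hp f L 1 x)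
  rw [← sum_div] at h1
  linarith

end KernelAux

open KernelAux in
theorem exists_scales {V ι : Type} [Fintype V] [Fintype ι] [Nonempty V] {p : ℝ} (hp : 1 ≤ p)
    (f : V → ι → ℝ) (Λ : ℝ) (hΛ : 0 < Λ) :
    ∃ (T : ℕ) (lam : ℕ → ℝ) (τ : V → ι → ℕ → ℝ) (m : V → ι → ℕ → ℝ),
      (∀ s, 0 < lam s) ∧ Antitone lam ∧ lam 0 = Λ ∧ (∀ x i s, 0 ≤ τ x i s) ∧
      (∀ x i, m x i 0 = f x i) ∧ (∀ x y i, m x i T = m y i T) ∧
      (∀ x y i s, 1 ≤ s → s < T → tail T (τ x i) s ≤
        Real.exp (4 * lam s * nrm p (fun i => f x i - f y i)) * tail T (τ y i) s) ∧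
      (∀ x i s, s < T → |m x i s - m x i (s + 1)| ≤ 2 * τ x i s / lam s) ∧
      (∀ x y i s, 1 ≤ s → s < T → |m x i s - m y i s| ≤
        4 * (Real.exp (2 * lam s * nrm p (fun i => f x i - f y i)) - 1) * τ x i s / lam s) ∧
      (∀ x, nrm p (fun i => tail T (τ x i) 0) ≤ 6 * Real.log (Fintype.card V) + 1) ∧
      (∀ x, ∑ s ∈ Ico 1 T, lam s * nrm p (fun i => m x i s - f x i) ≤
        2 * Real.log (Fintype.card V)) := by
  classical
  set Δ : ℝ := ∑ x, ∑ z, D p f x z with hΔ
  have hΔ0 : 0 ≤ Δ := sum_nonneg fun x _ => sum_nonneg fun z _ => D_nonneg _ _ _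
  have hDΔ : ∀ x z, D p f x z ≤ Δ := by
    intro x z
    have h1 : D p f x z ≤ ∑ z, D p f x z :=
      single_le_sum (f := fun z => D p f x z) (fun _ _ => D_nonneg _ _ _) (mem_univ z)
    have h2 : ∑ z, D p f x z ≤ Δ :=
      single_le_sum (f := fun x => ∑ z, D p f x z)
        (fun _ _ => sum_nonneg fun _ _ => D_nonneg _ _ _) (mem_univ x)
    exact h1.trans h2
  obtain ⟨k, hk⟩ := pow_unbounded_of_one_lt (Λ * Δ) (by norm_num : (1 : ℝ) < 2)
  set T := k + 1 with hT
  refine ⟨T, KernelAux.lam Λ, fun x i s => KernelAux.lam Λ s * osc p f Λ T x i s,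
    avg p f Λ T, lam_pos hΛ, lam_anti hΛ, by simp [KernelAux.lam],
    fun x i s => mul_nonneg (lam_pos hΛ s).le (osc_nonneg _ _ _ _ _ _), ?_, ?_, ?_, ?_, ?_, ?_, ?_⟩
  · intro x i
    simp [avg, ker]
  · intro x y i
    simp [avg, ker, hT]
  · intro x y i s hs _
    unfold tail
    rw [mul_sum]
    refine sum_le_sum fun j hj => ?_
    rw [mem_Ico] at hj
    have h1 := osc_ratio hp hΛ f T x y i s j hs hj.1
    have h2 := (lam_pos hΛ j).le
    calc KernelAux.lam Λ j * osc p f Λ T x i j
        ≤ KernelAux.lam Λ j * (Real.exp (4 * KernelAux.lam Λ s * D p f x y) *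
          osc p f Λ T y i j) := mul_le_mul_of_nonneg_left h1 h2
      _ = Real.exp (4 * KernelAux.lam Λ s * D p f x y) *
          (KernelAux.lam Λ j * osc p f Λ T y i j) := by ring
  · intro x i s _
    have h1 := avg_sub (p := p) f Λ T x i s
    have h2 := lam_pos hΛ s
    calc |avg p f Λ T x i s - avg p f Λ T x i (s + 1)| ≤ 2 * osc p f Λ T x i s := h1
      _ = 2 * (KernelAux.lam Λ s * osc p f Λ T x i s) / KernelAux.lam Λ s := by
          field_simp
  · intro x y i s hs _
    have h1 := avg_diff hp hΛ f T x y i s hs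
    have h2 := lam_pos hΛ s
    calc |avg p f Λ T x i s - avg p f Λ T y i s|
        ≤ 4 * (Real.exp (2 * KernelAux.lam Λ s * D p f x y) - 1) * osc p f Λ T x i s := h1
      _ = 4 * (Real.exp (2 * KernelAux.lam Λ s * D p f x y) - 1) *
          (KernelAux.lam Λ s * osc p f Λ T x i s) / KernelAux.lam Λ s := by
          field_simp
  · intro x
    have h1 : nrm p (fun i => tail T (fun s => KernelAux.lam Λ s * osc p f Λ T x i s) 0) ≤
        ∑ s ∈ range T, KernelAux.lam Λ s * (md p f Λ T s x + md p f Λ T (s + 1) x) := by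
      unfold tail
      rw [← range_eq_Ico]
      refine (nrm_sum_le hp (range T)
        (fun s i => KernelAux.lam Λ s * osc p f Λ T x i s)).trans ?_
      refine sum_le_sum fun s _ => ?_
      have h2 := nrm_const_mul hp (KernelAux.lam Λ s) (fun i => osc p f Λ T x i s)
      rw [abs_of_nonneg (lam_pos hΛ s).le] at h2
      refine h2.le.trans ?_
      exact mul_le_mul_of_nonneg_left (nrm_osc hp f Λ T s x) (lam_pos hΛ s).le
    refine h1.trans ?_
    have hIco : ∑ s ∈ Ico 1 T, KernelAux.lam Λ s * md p f Λ T s x =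
        ∑ s ∈ range k, KernelAux.lam Λ (s + 1) * md p f Λ T (s + 1) x := by
      rw [sum_Ico_eq_sum_range, hT, Nat.add_sub_cancel]
      refine sum_congr rfl fun s _ => ?_
      rw [add_comm 1 s]
    have h2 : ∑ s ∈ range T, KernelAux.lam Λ s * md p f Λ T s x =
        ∑ s ∈ Ico 1 T, KernelAux.lam Λ s * md p f Λ T s x := by
      rw [hIco, hT, sum_range_succ', md_zero hp, mul_zero, add_zero]
    have h3 : ∑ s ∈ range T, KernelAux.lam Λ s * md p f Λ T (s + 1) x =
        2 * ∑ s ∈ Ico 1 T, KernelAux.lam Λ s * md p f Λ T s x +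
          2 * (KernelAux.lam Λ T * md p f Λ T T x) := by
      have e1 : ∀ s, KernelAux.lam Λ s * md p f Λ T (s + 1) x =
          2 * (KernelAux.lam Λ (s + 1) * md p f Λ T (s + 1) x) := by
        intro s
        rw [lam_succ Λ s]
        ring
      rw [hIco]
      simp only [e1]
      rw [← mul_sum, hT, sum_range_succ, mul_add]
    have h4 := sum_md hp hΛ f T (by omega) x
    have h5 : 2 * (KernelAux.lam Λ T * md p f Λ T T x) ≤ 1 := by
      have e1 : md p f Λ T T x ≤ Δ := by
        unfold md
        calc ∑ z, ker p f Λ T T x z * D p f x z ≤ ∑ z, ker p f Λ T T x z * Δ := by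
              refine sum_le_sum fun z _ => ?_
              exact mul_le_mul_of_nonneg_left (hDΔ x z) (ker_nonneg _ _ _ _ _ _)
          _ = Δ := by rw [← sum_mul, ker_sum, one_mul]
      have e2 : KernelAux.lam Λ T * md p f Λ T T x ≤ KernelAux.lam Λ T * Δ :=
        mul_le_mul_of_nonneg_left e1 (lam_pos hΛ T).le
      have e3 : 2 * (KernelAux.lam Λ T * Δ) = Λ * Δ / 2 ^ k := by
        rw [hT]
        unfold KernelAux.lam
        rw [pow_succ]
        field_simp
      have e4 : Λ * Δ / 2 ^ k ≤ 1 := by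
        rw [div_le_one (by positivity)]
        exact hk.le
      linarith
    simp only [mul_add]
    rw [sum_add_distrib, h2, h3]
    linarith
  · intro x
    refine (sum_le_sum fun s _ => ?_).trans (sum_md hp hΛ f T (by omega) x)
    exact mul_le_mul_of_nonneg_left (nrm_avg hp f Λ T s x) (lam_pos hΛ s).le

end Vale.Agent.P249
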