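import Vale.Agent.P249.Mix

/-! P249, all distortions: existence of the `ℓ_p`-normalised level functions. -/

open Finset

namespace Vale.Agent.P249

namespace LevelFnAux

/-- `ℓ_p` is at most `ℓ_1` -/
lemma sum_rpow_le {κ : Type*} (s : Finset κ) (x : κ → ℝ) (hx : ∀ k ∈ s, 0 ≤ x k) {p : ℝ}
    (hp : 1 ≤ p) : ∑ k ∈ s, x k ^ p ≤ (∑ k ∈ s, x k) ^ p := by
  have hp0 : 0 < p := by linarith
  have hX : 0 ≤ ∑ k ∈ s, x k := sum_nonneg hx
  rcases eq_or_lt_of_le hX with h | h
  · have h1 : ∀ k ∈ s, x k = 0 := (sum_eq_zero_iff_of_nonneg hx).mp h.symm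
    rw [sum_eq_zero (fun k hk => by rw [h1 k hk, Real.zero_rpow hp0.ne'])]
    positivity
  · have h2 : (∑ k ∈ s, x k) ^ p = (∑ k ∈ s, x k) * (∑ k ∈ s, x k) ^ (p - 1) := by
      rw [Real.rpow_sub_one h.ne']; field_simp
    rw [h2, sum_mul]
    refine sum_le_sum ?_
    intro k hk
    rcases eq_or_lt_of_le (hx k hk) with h3 | h3
    · rw [← h3, Real.zero_rpow hp0.ne', zero_mul]
    · have h4 : x k ^ p = x k * x k ^ (p - 1) := by
        rw [Real.rpow_sub_one h3.ne']; field_simp
      rw [h4]
      refine mul_le_mul_of_nonneg_left ?_ h3.le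
      exact Real.rpow_le_rpow h3.le (single_le_sum hx hk) (by linarith)

/-- clamp to `[0,1]` -/
noncomputable def rr (x : ℝ) : ℝ := max 0 (min 1 x)

lemma rr_nonneg (x : ℝ) : 0 ≤ rr x := le_max_left _ _

lemma rr_mono {x y : ℝ} (h : x ≤ y) : rr x ≤ rr y :=
  max_le_max (le_refl _) (min_le_min (le_refl _) h)

lemma rr_of_nonpos {x : ℝ} (h : x ≤ 0) : rr x = 0 :=
  max_eq_left ((min_le_right _ _).trans h)

lemma rr_of_one_le {x : ℝ} (h : 1 ≤ x) : rr x = 1 := by
  unfold rr; rw [min_eq_left h]; exact max_eq_right zero_le_one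

lemma sum_rr (t : ℝ) (n : ℕ) : ∑ l ∈ range n, rr (t - l) = max 0 (min (n : ℝ) t) := by
  induction n with
  | zero =>
    simp only [range_zero, sum_empty, Nat.cast_zero]
    exact (max_eq_left (min_le_left _ _)).symm
  | succ n ih =>
    rw [sum_range_succ, ih]
    have hn : (0:ℝ) ≤ n := Nat.cast_nonneg n
    push_cast
    rcases le_total t 0 with h1 | h1
    · rw [rr_of_nonpos (by linarith), max_eq_left ((min_le_right _ _).trans h1),
        max_eq_left ((min_le_right _ _).trans h1), add_zero]
    · rcases le_total t n with h2 | h2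
      · rw [rr_of_nonpos (by linarith), min_eq_right h2, min_eq_right (by linarith), add_zero]
      · rw [min_eq_left h2, max_eq_right hn]
        rcases le_total t (n + 1) with h3 | h3
        · rw [min_eq_right h3, max_eq_right h1]
          unfold rr
          rw [min_eq_right (by linarith), max_eq_right (by linarith)]
          ring
        · rw [min_eq_left h3, rr_of_one_le (by linarith), max_eq_right (by linarith)]

/-- hat functions -/
noncomputable def hat (l : ℕ) (t : ℝ) : ℝ := rr (t + 1 - l) - rr (t - l)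

lemma hat_nonneg (l : ℕ) (t : ℝ) : 0 ≤ hat l t := by
  unfold hat
  have := rr_mono (show t - l ≤ t + 1 - l by linarith)
  linarith

lemma hat_ne {l : ℕ} {t : ℝ} (h : hat l t ≠ 0) : t < l + 1 ∧ (l : ℝ) - 1 < t := by
  constructor
  · by_contra h1
    push Not at h1
    apply h
    unfold hat
    rw [rr_of_one_le (by linarith), rr_of_one_le (by linarith), sub_self]
  · by_contra h1
    push Not at h1
    apply h
    unfold hat
    rw [rr_of_nonpos (by linarith), rr_of_nonpos (by linarith), sub_self]

lemma sum_hat {n : ℕ} {t : ℝ} (h0 : 0 ≤ t) (h1 : t + 1 ≤ n) : ∑ l ∈ range n, hat l t = 1 := by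
  unfold hat
  rw [sum_sub_distrib, sum_rr, sum_rr, min_eq_right h1, min_eq_right (by linarith),
    max_eq_right (by linarith), max_eq_right h0]
  ring

lemma clamp_diff {n t t' : ℝ} (h : t' ≤ t) :
    max 0 (min n t) - max 0 (min n t') ≤ t - t' := by
  have h1 : min n t ≤ min n t' + (t - t') := by
    rw [← min_add_add_right]
    exact min_le_min (by linarith) (by linarith)
  have h2 : max 0 (min n t) ≤ max 0 (min n t') + (t - t') := by
    apply max_le
    · have := le_max_left 0 (min n t'); linarith
    · have := le_max_right 0 (min n t'); linarith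
  linarith

lemma sum_abs_hat {n : ℕ} {t t' : ℝ} (h : t' ≤ t) :
    ∑ l ∈ range n, |hat l t - hat l t'| ≤ 2 * (t - t') := by
  calc ∑ l ∈ range n, |hat l t - hat l t'|
      ≤ ∑ l ∈ range n, ((rr (t + 1 - l) - rr (t' + 1 - l)) + (rr (t - l) - rr (t' - l))) := by
        refine sum_le_sum ?_
        intro l _
        unfold hat
        have h1 := rr_mono (show t' + 1 - l ≤ t + 1 - l by linarith)
        have h2 := rr_mono (show t' - l ≤ t - l by linarith)
        rw [abs_le]
        constructor <;> linarith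
    _ = (max 0 (min (n : ℝ) (t + 1)) - max 0 (min (n : ℝ) (t' + 1)))
        + (max 0 (min (n : ℝ) t) - max 0 (min (n : ℝ) t')) := by
        rw [sum_add_distrib, sum_sub_distrib, sum_sub_distrib, sum_rr, sum_rr, sum_rr, sum_rr]
    _ ≤ ((t + 1) - (t' + 1)) + (t - t') :=
        add_le_add (clamp_diff (by linarith)) (clamp_diff h)
    _ = 2 * (t - t') := by ring

/-- some hat is at least `1/2` -/
lemma exists_hat {n : ℕ} {t : ℝ} (h0 : 0 ≤ t) (h1 : t + 1 ≤ n) :
    ∃ l : Fin n, 1 / 2 ≤ hat l t := by
  have hfl := Nat.floor_le h0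
  have hfl2 := Nat.lt_floor_add_one t
  set k := ⌊t⌋₊ with hk
  have hkn : k + 1 ≤ n := by
    have : (k : ℝ) + 1 ≤ n := by linarith
    exact_mod_cast this
  rcases le_total (t - k) (1 / 2) with h2 | h2
  · refine ⟨⟨k, by omega⟩, ?_⟩
    unfold hat
    simp only
    rw [rr_of_one_le (by linarith)]
    unfold rr
    rw [min_eq_right (by linarith), max_eq_right (by linarith)]
    linarith
  · have hkn2 : k + 1 < n := by
      rcases Nat.lt_or_eq_of_le hkn with h3 | h3
      · exact h3
      · exfalso
        have : (n : ℝ) = k + 1 := by rw [← h3]; push_cast; ring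
        linarith
    refine ⟨⟨k + 1, hkn2⟩, ?_⟩
    unfold hat
    simp only
    push_cast
    rw [rr_of_nonpos (by linarith : t - ((k:ℝ) + 1) ≤ 0)]
    unfold rr
    rw [min_eq_right (by linarith), max_eq_right (by linarith)]
    linarith

/-- the norm of the vector of hats -/
noncomputable def NN (p : ℝ) (n : ℕ) (t : ℝ) : ℝ := nrm p (fun l : Fin n => hat l t)

lemma hat_le_NN {p : ℝ} (hp : 1 ≤ p) {n : ℕ} (t : ℝ) (l : Fin n) : hat l t ≤ NN p n t := by
  have h := abs_le_nrm hp (fun l : Fin n => hat l t) l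
  exact (le_abs_self _).trans h

lemma NN_ge {p : ℝ} (hp : 1 ≤ p) {n : ℕ} {t : ℝ} (h0 : 0 ≤ t) (h1 : t + 1 ≤ n) :
    1 / 2 ≤ NN p n t := by
  obtain ⟨l, hl⟩ := exists_hat h0 h1
  exact hl.trans (hat_le_NN hp t l)

lemma NN_diff {p : ℝ} (hp : 1 ≤ p) {n : ℕ} {t t' : ℝ} :
    |NN p n t - NN p n t'| ≤ ∑ l ∈ range n, |hat l t - hat l t'| := by
  have key : ∀ s s' : ℝ, NN p n s - NN p n s' ≤ nrm p (fun l : Fin n => hat l s - hat l s') := by
    intro s s'
    have h := nrm_add_le hp (fun l : Fin n => hat l s - hat l s') (fun l : Fin n => hat l s')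
    simp only [sub_add_cancel] at h
    unfold NN
    linarith
  have h3 : nrm p (fun l : Fin n => hat l t - hat l t') ≤ ∑ l ∈ range n, |hat l t - hat l t'| := by
    have h4 : ∑ l : Fin n, |hat l t - hat l t'| ^ p ≤ (∑ l : Fin n, |hat l t - hat l t'|) ^ p :=
      sum_rpow_le univ _ (fun _ _ => abs_nonneg _) hp
    rw [← Fin.sum_univ_eq_sum_range (fun l => |hat l t - hat l t'|)]
    unfold nrm
    have hs : 0 ≤ ∑ l : Fin n, |hat l t - hat l t'| := sum_nonneg (fun _ _ => abs_nonneg _)
    have hp0 : 0 < p := by linarith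
    have h5 := Real.rpow_le_rpow (sum_nonneg (fun _ _ => by positivity)) h4
      (show 0 ≤ 1 / p by positivity)
    rwa [← Real.rpow_mul hs, mul_one_div_cancel hp0.ne', Real.rpow_one] at h5
  rw [abs_le]
  constructor
  · have h6 := key t' t
    rw [nrm_sub_comm] at h6
    linarith
  · have h6 := key t t'
    linarith

/-- the position of the class `C` -/
noncomputable def pos (W : ℝ) (L0 : ℕ) (C : ℝ) : ℝ :=
  max 0 (min ((L0 : ℝ) + 1) (L0 + Real.log C / W))

lemma pos_nonneg (W : ℝ) (L0 : ℕ) (C : ℝ) : 0 ≤ pos W L0 C := le_max_left _ _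

lemma pos_le (W : ℝ) (L0 : ℕ) (C : ℝ) : pos W L0 C + 1 ≤ ((L0 + 2 : ℕ) : ℝ) := by
  have h : pos W L0 C ≤ L0 + 1 := by
    unfold pos
    exact max_le (by positivity) (min_le_left _ _)
  push_cast
  linarith

end LevelFnAux

open LevelFnAux in
theorem exists_lev {p : ℝ} (hp : 1 ≤ p) {W : ℝ} (hW : 0 < W) (L0 : ℕ) : Nonempty (Lev p W L0) := by
  have hp0 : 0 < p := by linarith
  have hN : ∀ C, 1 / 2 ≤ NN p (L0 + 2) (pos W L0 C) := fun C =>
    NN_ge hp (pos_nonneg _ _ _) (pos_le _ _ _)
  have hNpos : ∀ C, 0 < NN p (L0 + 2) (pos W L0 C) := fun C => by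
    have := hN C; linarith
  refine ⟨{
    a := fun l C => if l < L0 + 2 then hat l (pos W L0 C) / NN p (L0 + 2) (pos W L0 C) else 0
    a_nonneg := ?_
    a_le_one := ?_
    a_sum := ?_
    a_lip := ?_
    a_up := ?_
    a_low := ?_ }⟩
  · intro l C
    split_ifs
    · exact div_nonneg (hat_nonneg _ _) (hNpos C).le
    · exact le_refl _
  · intro l C
    split_ifs with h
    · rw [div_le_one (hNpos C)]
      exact hat_le_NN hp _ ⟨l, h⟩
    · exact zero_le_one
  · intro C
    have h1 : ∑ l ∈ range (L0 + 2), (if l < L0 + 2 then hat l (pos W L0 C) /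
        NN p (L0 + 2) (pos W L0 C) else 0) ^ p =
        ∑ l ∈ range (L0 + 2), (hat l (pos W L0 C) / NN p (L0 + 2) (pos W L0 C)) ^ p := by
      refine sum_congr rfl ?_
      intro l hl
      rw [if_pos (mem_range.mp hl)]
    rw [h1, ← Fin.sum_univ_eq_sum_range (fun l => (hat l (pos W L0 C) /
      NN p (L0 + 2) (pos W L0 C)) ^ p)]
    have h2 : ∀ l : Fin (L0 + 2), (hat l (pos W L0 C) / NN p (L0 + 2) (pos W L0 C)) ^ p =
        |hat l (pos W L0 C)| ^ p / NN p (L0 + 2) (pos W L0 C) ^ p := by
      intro l
      rw [Real.div_rpow (hat_nonneg _ _) (hNpos C).le, abs_of_nonneg (hat_nonneg _ _)]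
    rw [sum_congr rfl (fun l _ => h2 l), ← sum_div,
      ← nrm_rpow hp (fun l : Fin (L0 + 2) => hat l (pos W L0 C))]
    have h3 := hNpos C
    exact div_self (by have := Real.rpow_pos_of_pos h3 p; exact this.ne')
  · intro C C' hC' hCC'
    have hC : 0 < C := lt_of_lt_of_le hC' hCC'
    set t := pos W L0 C with ht
    set t' := pos W L0 C' with ht'
    have hlog : Real.log C' ≤ Real.log C := Real.log_le_log hC' hCC'
    have htt : t' ≤ t := by
      rw [ht, ht']
      unfold pos
      refine max_le_max (le_refl _) (min_le_min (le_refl _) ?_)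
      have := div_le_div_of_nonneg_right hlog hW.le
      linarith
    have hdt : t - t' ≤ Real.log (C / C') / W := by
      rw [ht, ht']
      unfold pos
      have h1 : (L0 : ℝ) + Real.log C' / W ≤ L0 + Real.log C / W := by
        have := div_le_div_of_nonneg_right hlog hW.le
        linarith
      refine (clamp_diff h1).trans ?_
      rw [Real.log_div hC.ne' hC'.ne', sub_div]
      linarith
    set N := NN p (L0 + 2) t with hNd
    set N' := NN p (L0 + 2) t' with hNd'
    have hN1 : 1 / 2 ≤ N := hN C
    have hN2 : 1 / 2 ≤ N' := hN C'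
    have hNp : 0 < N := by linarith
    have hNp' : 0 < N' := by linarith
    have hinv : 1 / N ≤ 2 := by rw [div_le_iff₀ hNp]; linarith
    have hinv' : 1 / N' ≤ 2 := by rw [div_le_iff₀ hNp']; linarith
    have hS := sum_abs_hat (n := L0 + 2) htt
    have hND : |N - N'| ≤ ∑ l ∈ range (L0 + 2), |hat l t - hat l t'| := NN_diff hp
    set S := ∑ l ∈ range (L0 + 2), |hat l t - hat l t'| with hSd
    have hS0 : 0 ≤ S := sum_nonneg (fun _ _ => abs_nonneg _)
    have hbound : ∑ l ∈ range (L0 + 2), |(if l < L0 + 2 then hat l t / N else 0)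
        - (if l < L0 + 2 then hat l t' / N' else 0)| ≤ 6 * S := by
      calc ∑ l ∈ range (L0 + 2), |(if l < L0 + 2 then hat l t / N else 0)
        - (if l < L0 + 2 then hat l t' / N' else 0)|
          ≤ ∑ l ∈ range (L0 + 2), (2 * |hat l t - hat l t'| + 4 * S * hat l t') := by
            refine sum_le_sum ?_
            intro l hl
            rw [if_pos (mem_range.mp hl), if_pos (mem_range.mp hl)]
            have h1 : hat l t / N - hat l t' / N' =
                1 / N * (hat l t - hat l t') + hat l t' * ((1 / N * (1 / N')) * (N' - N)) := by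
              field_simp; ring
            rw [h1]
            refine (abs_add_le _ _).trans ?_
            have h2 : |1 / N * (hat l t - hat l t')| ≤ 2 * |hat l t - hat l t'| := by
              rw [abs_mul, abs_of_pos (by positivity : 0 < 1 / N)]
              exact mul_le_mul_of_nonneg_right hinv (abs_nonneg _)
            have h3 : |hat l t' * ((1 / N * (1 / N')) * (N' - N))| ≤ 4 * S * hat l t' := by
              have h4 := hat_nonneg l t'
              have h7 : (0:ℝ) < 1 / N * (1 / N') := by positivity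
              rw [abs_mul, abs_of_nonneg h4, abs_mul, abs_of_pos h7, abs_sub_comm]
              have h5 : 1 / N * (1 / N') ≤ 2 * 2 :=
                mul_le_mul hinv hinv' (by positivity) (by norm_num)
              have h6 : 1 / N * (1 / N') * |N - N'| ≤ 2 * 2 * S :=
                mul_le_mul h5 hND (abs_nonneg _) (by norm_num)
              calc hat l t' * (1 / N * (1 / N') * |N - N'|) ≤ hat l t' * (2 * 2 * S) :=
                    mul_le_mul_of_nonneg_left h6 h4
                _ = _ := by ring
            linarith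
        _ = 2 * S + 4 * S * 1 := by
            rw [sum_add_distrib, ← mul_sum, ← mul_sum, sum_hat (pos_nonneg _ _ _) (pos_le _ _ _)]
        _ = 6 * S := by ring
    refine hbound.trans ?_
    calc 6 * S ≤ 6 * (2 * (Real.log (C / C') / W)) := by linarith
      _ = 12 / W * Real.log (C / C') := by ring
  · intro l C hC hCW hne
    have hl : l < L0 + 2 := by
      by_contra h
      apply hne
      rw [if_neg h]
    have hh : hat l (pos W L0 C) ≠ 0 := by
      intro h
      apply hne
      rw [if_pos hl, h, zero_div]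
    obtain ⟨h1, _⟩ := hat_ne hh
    have hlog : Real.log C ≤ W := by
      have := Real.log_le_log hC hCW
      rwa [Real.log_exp] at this
    have h2 : (L0 : ℝ) + Real.log C / W ≤ pos W L0 C := by
      unfold pos
      have h3 : Real.log C / W ≤ 1 := by rw [div_le_one hW]; exact hlog
      rw [min_eq_right (by linarith)]
      exact le_max_right _ _
    have h4 : Real.log C / W ≤ (l : ℝ) + 1 - L0 := by linarith
    rw [div_le_iff₀ hW] at h4
    have h5 := Real.exp_le_exp.mpr h4
    rwa [Real.exp_log hC] at h5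
  · intro l C hl1 hC hne
    have hl : l < L0 + 2 := by
      by_contra h
      apply hne
      rw [if_neg h]
    have hh : hat l (pos W L0 C) ≠ 0 := by
      intro h
      apply hne
      rw [if_pos hl, h, zero_div]
    obtain ⟨_, h1⟩ := hat_ne hh
    have hl1' : (1:ℝ) ≤ l := by exact_mod_cast hl1
    have h2 : pos W L0 C ≤ (L0 : ℝ) + Real.log C / W := by
      by_contra h3
      push Not at h3
      unfold pos at h3 h1
      rcases le_total (min ((L0:ℝ) + 1) (L0 + Real.log C / W)) 0 with h4 | h4
      · rw [max_eq_left h4] at h1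
        linarith
      · rw [max_eq_right h4] at h3
        have := min_le_right ((L0:ℝ) + 1) (L0 + Real.log C / W)
        linarith
    have h4 : (l : ℝ) - 1 - L0 ≤ Real.log C / W := by linarith
    rw [le_div_iff₀ hW] at h4
    have h5 := Real.exp_le_exp.mpr h4
    rwa [Real.exp_log hC] at h5

end Vale.Agent.P249
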