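import Vale.Agent.P249.GaussLp

open MeasureTheory Metric Set ProbabilityTheory
open scoped NNReal ENNReal

namespace Vale.Agent.P249

/-- Two points of the unit cube far apart for which all the coordinates are moderately close. -/
lemma core (p : ℝ) (hp : 0 ≤ p) (m d : ℕ) (hm : 0 < m) (hd : 0 < d) (L : ℝ≥0) (hL : 0 < L)
    (H : Fin d → EuclideanSpace ℝ (Fin m) → ℝ) (hH : ∀ k, LipschitzWith L (H k)) :
    ∃ x y : EuclideanSpace ℝ (Fin m), (∀ i, 0 ≤ x i ∧ x i ≤ 1) ∧ (∀ i, 0 ≤ y i ∧ y i ≤ 1) ∧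
      m * c0 / 2 ≤ ‖x - y‖ ^ 2 ∧
      ∑ k, |H k x - H k y| ^ p ≤ (2 / c0) * (d * (momC p * (L : ℝ) ^ p)) := by
  obtain ⟨γ, hγ⟩ : ∃ γ : Measure (EuclideanSpace ℝ (Fin m)), γ = stdGaussian (EuclideanSpace ℝ (Fin m)) := ⟨_, rfl⟩
  have hprob : IsProbabilityMeasure γ := by rw [hγ]; infer_instance
  have hc0 := c0_pos
  have hmC := momC_pos p
  have hL' : (0:ℝ) < L := hL
  have hLp : (0:ℝ) < (L:ℝ) ^ p := Real.rpow_pos_of_pos hL' p
  have hdr : (0:ℝ) < d := by exact_mod_cast hd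
  have hmr : (0:ℝ) < m := by exact_mod_cast hm
  obtain ⟨A, hA⟩ : ∃ A : ℝ, A = d * (momC p * (L:ℝ) ^ p) := ⟨_, rfl⟩
  have hApos : 0 < A := by rw [hA]; positivity
  rw [← hA]
  have hmom : ∀ k, Integrable (fun z : EuclideanSpace ℝ (Fin m) × EuclideanSpace ℝ (Fin m) => |H k (clampE z.2) - H k (clampE z.1)| ^ p) (γ.prod γ) ∧
      ∫ z, |H k (clampE z.2) - H k (clampE z.1)| ^ p ∂(γ.prod γ) ≤ momC p * (L : ℝ) ^ p := by
    intro k
    have h1 : LipschitzWith L (H k ∘ clampE) := by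
      have := (hH k).comp (clampE_lip (m := m))
      rwa [mul_one] at this
    rw [hγ]
    exact moment p hp _ L hL h1
  obtain ⟨hi1, hi2⟩ := integral_clampE (m := m)
  rw [← hγ] at hi1 hi2
  obtain ⟨W, hW⟩ : ∃ W : EuclideanSpace ℝ (Fin m) × EuclideanSpace ℝ (Fin m) → ℝ, W = fun z => ‖clampE z.2 - clampE z.1‖ ^ 2 / m -
      (c0 / (2 * A)) * ∑ k, |H k (clampE z.2) - H k (clampE z.1)| ^ p := ⟨_, rfl⟩
  have hs : Integrable (fun z : EuclideanSpace ℝ (Fin m) × EuclideanSpace ℝ (Fin m) => ∑ k, |H k (clampE z.2) - H k (clampE z.1)| ^ p) (γ.prod γ) :=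
    integrable_finsetSum _ (fun k _ => (hmom k).1)
  have hWi : Integrable W (γ.prod γ) := by
    rw [hW]
    exact (hi1.div_const _).sub (hs.const_mul _)
  have hsum : ∫ z, (∑ k, |H k (clampE z.2) - H k (clampE z.1)| ^ p) ∂(γ.prod γ) ≤ A := by
    rw [integral_finsetSum _ (fun k _ => (hmom k).1)]
    calc ∑ k, ∫ z, |H k (clampE z.2) - H k (clampE z.1)| ^ p ∂(γ.prod γ)
        ≤ ∑ _k : Fin d, momC p * (L : ℝ) ^ p := Finset.sum_le_sum (fun k _ => (hmom k).2)
      _ = A := by rw [hA]; simp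
  have hWint : c0 / 2 ≤ ∫ z, W z ∂(γ.prod γ) := by
    rw [hW]
    rw [integral_sub (hi1.div_const _) (hs.const_mul _), integral_div, integral_const_mul, hi2]
    have h1 : (c0 / (2 * A)) * ∫ z, (∑ k, |H k (clampE z.2) - H k (clampE z.1)| ^ p) ∂(γ.prod γ) ≤
        (c0 / (2 * A)) * A := mul_le_mul_of_nonneg_left hsum (by positivity)
    have h2 : (c0 / (2 * A)) * A = c0 / 2 := by field_simp
    have h3 : (m:ℝ) * c0 / m = c0 := by field_simp
    linarith
  obtain ⟨z, hz⟩ : ∃ z, ∫ z, W z ∂(γ.prod γ) ≤ W z := exists_integral_le hWi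
  have hz2 : c0 / 2 ≤ W z := hWint.trans hz
  have hSnn : 0 ≤ ∑ k, |H k (clampE z.2) - H k (clampE z.1)| ^ p :=
    Finset.sum_nonneg (fun k _ => by positivity)
  have hWz : W z = ‖clampE z.2 - clampE z.1‖ ^ 2 / m -
      (c0 / (2 * A)) * ∑ k, |H k (clampE z.2) - H k (clampE z.1)| ^ p := by rw [hW]
  refine ⟨clampE z.2, clampE z.1, ?_, ?_, ?_, ?_⟩
  · intro i; exact ⟨clamp_nonneg _, clamp_le_one _⟩
  · intro i; exact ⟨clamp_nonneg _, clamp_le_one _⟩
  · have h4 : 0 ≤ (c0 / (2 * A)) * ∑ k, |H k (clampE z.2) - H k (clampE z.1)| ^ p := by positivity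
    have h5 : c0 / 2 ≤ ‖clampE z.2 - clampE z.1‖ ^ 2 / m := by linarith
    rw [le_div_iff₀ hmr] at h5
    linarith
  · have h6 : ‖clampE z.2 - clampE z.1‖ ^ 2 / m ≤ 1 := by
      rw [div_le_one hmr]; exact norm_clampE_sub_sq_le _ _
    have h7 : (c0 / (2 * A)) * ∑ k, |H k (clampE z.2) - H k (clampE z.1)| ^ p ≤ 1 := by linarith
    have h8 : (2 / c0) * A = (c0 / (2 * A))⁻¹ := by field_simp
    rw [h8]
    rw [← le_inv_mul_iff₀ (by positivity)] at h7
    simpa using h7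

/-- grid point -/
noncomputable def gridPt (m : ℕ) (j : Fin m → Fin (m + 1)) : EuclideanSpace ℝ (Fin m) :=
  WithLp.toLp 2 (fun i => ((j i : ℕ) : ℝ) / m)

lemma exists_grid (m : ℕ) (hm : 0 < m) (x : EuclideanSpace ℝ (Fin m))
    (hx : ∀ i, 0 ≤ x i ∧ x i ≤ 1) : ∃ j : Fin m → Fin (m + 1), ‖x - gridPt m j‖ ≤ 1 := by
  have hmr : (0:ℝ) < m := by exact_mod_cast hm
  have hfl : ∀ i, ⌊(m:ℝ) * x i⌋₊ < m + 1 := by
    intro i
    rw [Nat.lt_succ_iff]
    apply Nat.floor_le_of_le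
    calc (m:ℝ) * x i ≤ m * 1 := by
          apply mul_le_mul_of_nonneg_left (hx i).2 hmr.le
      _ = m := mul_one _
  refine ⟨fun i => ⟨⌊(m:ℝ) * x i⌋₊, hfl i⟩, ?_⟩
  have h1 : ‖x - gridPt m (fun i => ⟨⌊(m:ℝ) * x i⌋₊, hfl i⟩)‖ ^ 2 ≤ 1 := by
    rw [EuclideanSpace.real_norm_sq_eq]
    have h2 : ∀ i : Fin m, ((x - gridPt m (fun i => ⟨⌊(m:ℝ) * x i⌋₊, hfl i⟩)) i) ^ 2 ≤ 1 / m := by
      intro i
      have h3 : (x - gridPt m (fun i => ⟨⌊(m:ℝ) * x i⌋₊, hfl i⟩)) i = x i - (⌊(m:ℝ) * x i⌋₊ : ℝ) / m := rfl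
      rw [h3]
      have h4 : (⌊(m:ℝ) * x i⌋₊ : ℝ) ≤ m * x i := Nat.floor_le (mul_nonneg hmr.le (hx i).1)
      have h5 : (m:ℝ) * x i < (⌊(m:ℝ) * x i⌋₊ : ℝ) + 1 := Nat.lt_floor_add_one _
      have h6 : 0 ≤ x i - (⌊(m:ℝ) * x i⌋₊ : ℝ) / m := by
        rw [sub_nonneg, div_le_iff₀ hmr]; linarith
      have h7 : x i - (⌊(m:ℝ) * x i⌋₊ : ℝ) / m ≤ 1 / m := by
        rw [sub_le_iff_le_add, ← add_div, le_div_iff₀ hmr]; linarith
      have h8 : (1:ℝ) / m ≤ 1 := by
        rw [div_le_one hmr]; exact_mod_cast hm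
      calc (x i - (⌊(m:ℝ) * x i⌋₊ : ℝ) / m) ^ 2 ≤ (1 / m) ^ 2 := pow_le_pow_left₀ h6 h7 2
        _ = (1 / m) * (1 / m) := by ring
        _ ≤ (1 / m) * 1 := mul_le_mul_of_nonneg_left h8 (by positivity)
        _ = 1 / m := mul_one _
    calc ∑ i, ((x - gridPt m (fun i => ⟨⌊(m:ℝ) * x i⌋₊, hfl i⟩)) i) ^ 2 ≤ ∑ _i : Fin m, (1:ℝ) / m :=
          Finset.sum_le_sum (fun i _ => h2 i)
      _ = 1 := by simp [hmr.ne']
  nlinarith [norm_nonneg (x - gridPt m (fun i => ⟨⌊(m:ℝ) * x i⌋₊, hfl i⟩))]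

lemma add_rpow_le_two (p : ℝ) (hp : 1 ≤ p) (a b : ℝ) (ha : 0 ≤ a) (hb : 0 ≤ b) :
    (a + b) ^ p ≤ (2:ℝ) ^ p * (a ^ p + b ^ p) := by
  have hp0 : 0 ≤ p := by linarith
  have h1 : a + b ≤ 2 * max a b := by
    have := le_max_left a b
    have := le_max_right a b
    linarith
  calc (a + b) ^ p ≤ (2 * max a b) ^ p := Real.rpow_le_rpow (by positivity) h1 hp0
    _ = (2:ℝ) ^ p * (max a b) ^ p := Real.mul_rpow (by norm_num) (le_max_of_le_left ha)
    _ ≤ (2:ℝ) ^ p * (a ^ p + b ^ p) := by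
        apply mul_le_mul_of_nonneg_left _ (by positivity)
        rcases le_total a b with h | h
        · rw [max_eq_right h]
          have : 0 ≤ a ^ p := Real.rpow_nonneg ha p
          linarith
        · rw [max_eq_left h]
          have : 0 ≤ b ^ p := Real.rpow_nonneg hb p
          linarith

/-- the constant in the lower bound -/
noncomputable def lowC (p : ℝ) : ℝ := (2:ℝ) ^ p * ((2 / c0) * momC p + (2:ℝ) ^ p)

lemma lowC_pos (p : ℝ) : 0 < lowC p := by
  unfold lowC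
  have := c0_pos
  have := momC_pos p
  positivity

lemma gT_sub_eq_zero {m : ℕ} (p : ℝ) (hp : 0 < p) (a b : EuclideanSpace ℝ (Fin m))
    (h : gT p a = gT p b) : a = b := by
  have h1 := norm_gT_sub p a b
  rw [h] at h1
  have h2 : ‖gT p b - gT p b‖ = 0 := by
    rw [sub_self]; exact Lp.norm_zero
  rw [h2] at h1
  have h3 : ‖a - b‖ = 0 := by
    rcases mul_eq_zero.mp h1.symm with h4 | h4
    · exact absurd h4 (gp_pos p hp).ne'
    · exact h4
  exact sub_eq_zero.mp (norm_eq_zero.mp h3)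

lemma infinite_Lp {m : ℕ} (hm : 0 < m) (p : ℝ) (hp : 0 < p) :
    Infinite (Lp ℝ (ENNReal.ofReal p) (stdGaussian (EuclideanSpace ℝ (Fin m)))) := by
  apply Infinite.of_injective (fun t : ℝ => gT p (EuclideanSpace.single (⟨0, hm⟩ : Fin m) t))
  intro s t hst
  have h1 := gT_sub_eq_zero p hp _ _ hst
  have h2 := congrArg (fun v : EuclideanSpace ℝ (Fin m) => v ⟨0, hm⟩) h1
  simpa using h2

theorem lower_aux (p : ℝ) (hp : 1 ≤ p) (D : ℝ) (hD : 1 ≤ D) (m n d : ℕ) (hm : 0 < m)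
    (hmn : (m + 1) ^ m ≤ n) (hs : Suffices p D n d) :
    ((m:ℝ) * c0 / 8) ^ (p / 2) ≤ d * (D ^ p * lowC p) := by
  have hp0 : 0 < p := by linarith
  have hc0 := c0_pos
  have hgp := gp_pos p hp0
  have hD0 : 0 < D := by linarith
  have hmr : (0:ℝ) < m := by exact_mod_cast hm
  have hinf := infinite_Lp hm p hp0
  classical
  obtain ⟨X0, hX0⟩ : ∃ X0 : Finset (Lp ℝ (ENNReal.ofReal p) (stdGaussian (EuclideanSpace ℝ (Fin m)))),
      X0 = (Finset.univ : Finset (Fin m → Fin (m + 1))).image (fun j => gT p (gridPt m j)) := ⟨_, rfl⟩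
  have hX0c : X0.card ≤ n := by
    rw [hX0]
    refine Finset.card_image_le.trans ?_
    simpa using hmn
  obtain ⟨X, hX0X, hXc⟩ := Infinite.exists_superset_card_eq X0 n hX0c
  have hmem : ∀ j, gT p (gridPt m j) ∈ X := by
    intro j
    apply hX0X
    rw [hX0]
    exact Finset.mem_image_of_mem _ (Finset.mem_univ j)
  obtain ⟨f, s, hs0, hf⟩ := hs _ _ X hXc
  -- positivity of the dimension
  have hd : 0 < d := by
    rcases Nat.eq_zero_or_pos d with h0 | h0
    · exfalso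
      subst h0
      have hn2 : 1 < X.card := by
        rw [hXc]
        refine lt_of_lt_of_le ?_ hmn
        exact Nat.one_lt_pow hm.ne' (by omega)
      obtain ⟨x, hx, y, hy, hxy⟩ := Finset.one_lt_card.mp hn2
      have h1 := (hf x hx y hy).1
      rw [Finset.univ_eq_empty, Finset.sum_empty, Real.zero_rpow (by positivity)] at h1
      have h2 : ‖x - y‖ ≤ 0 := by
        by_contra h3
        rw [not_le] at h3
        have := mul_pos hs0 h3
        linarith
      have h4 : ‖x - y‖ = 0 := le_antisymm h2 ENNReal.toReal_nonneg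
      rw [Lp.norm_eq_zero_iff (by simpa using hp0)] at h4
      exact hxy (sub_eq_zero.mp h4)
    · exact h0
  have hdr : (1:ℝ) ≤ d := by exact_mod_cast hd
  obtain ⟨L, hL⟩ : ∃ L : ℝ≥0, (L:ℝ) = D * s * gp p := ⟨⟨D * s * gp p, by positivity⟩, rfl⟩
  have hLpos : 0 < L := by
    rw [← NNReal.coe_pos, hL]; positivity
  have hLr : (0:ℝ) < L := hLpos
  have hcoord : ∀ k a b, |f a k - f b k| ≤ (∑ k, |f a k - f b k| ^ p) ^ (1 / p) := by
    intro k a b
    calc |f a k - f b k| = (|f a k - f b k| ^ p) ^ (1 / p) := by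
          rw [← Real.rpow_mul (abs_nonneg _), mul_one_div_cancel hp0.ne', Real.rpow_one]
      _ ≤ (∑ k, |f a k - f b k| ^ p) ^ (1 / p) := by
          apply Real.rpow_le_rpow (by positivity) _ (by positivity)
          exact Finset.single_le_sum (f := fun k => |f a k - f b k| ^ p)
            (fun k _ => by positivity) (Finset.mem_univ k)
  have hlip : ∀ k, LipschitzOnWith L (fun a : EuclideanSpace ℝ (Fin m) => f (gT p a) k)
      (Set.range (gridPt m)) := by
    intro k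
    apply LipschitzOnWith.of_dist_le_mul
    rintro _ ⟨j1, rfl⟩ _ ⟨j2, rfl⟩
    rw [Real.dist_eq, dist_eq_norm, hL]
    calc |f (gT p (gridPt m j1)) k - f (gT p (gridPt m j2)) k|
        ≤ D * s * ‖gT p (gridPt m j1) - gT p (gridPt m j2)‖ :=
          (hcoord _ _ _).trans (hf _ (hmem j1) _ (hmem j2)).2
      _ = D * s * gp p * ‖gridPt m j1 - gridPt m j2‖ := by
          rw [norm_gT_sub]; ring
  choose H hH using fun k => (hlip k).extend_real
  obtain ⟨x, y, hx, hy, hxy, hsum⟩ := core p hp0.le m d hm hd L hLpos H (fun k => (hH k).1)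
  obtain ⟨j1, hj1⟩ := exists_grid m hm x hx
  obtain ⟨j2, hj2⟩ := exists_grid m hm y hy
  have hHa : ∀ k, |f (gT p (gridPt m j1)) k - f (gT p (gridPt m j2)) k| ≤
      |H k x - H k y| + 2 * L := by
    intro k
    have e1 : f (gT p (gridPt m j1)) k = H k (gridPt m j1) := (hH k).2 ⟨j1, rfl⟩
    have e2 : f (gT p (gridPt m j2)) k = H k (gridPt m j2) := (hH k).2 ⟨j2, rfl⟩
    rw [e1, e2]
    have h1 := (hH k).1.dist_le_mul x (gridPt m j1)
    have h2 := (hH k).1.dist_le_mul y (gridPt m j2)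
    rw [Real.dist_eq, dist_eq_norm] at h1 h2
    have h3 : |H k x - H k (gridPt m j1)| ≤ L :=
      h1.trans (by simpa using mul_le_mul_of_nonneg_left hj1 hLr.le)
    have h4 : |H k y - H k (gridPt m j2)| ≤ L :=
      h2.trans (by simpa using mul_le_mul_of_nonneg_left hj2 hLr.le)
    rw [abs_le] at h3 h4
    obtain ⟨h3a, h3b⟩ := h3
    obtain ⟨h4a, h4b⟩ := h4
    have h5 := le_abs_self (H k x - H k y)
    have h6 := neg_abs_le (H k x - H k y)
    rw [abs_le]
    constructor <;> linarith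
  have hup : ∑ k, |f (gT p (gridPt m j1)) k - f (gT p (gridPt m j2)) k| ^ p ≤
      d * ((L:ℝ) ^ p * lowC p) := by
    calc ∑ k, |f (gT p (gridPt m j1)) k - f (gT p (gridPt m j2)) k| ^ p
        ≤ ∑ k, (2:ℝ) ^ p * (|H k x - H k y| ^ p + (2 * (L:ℝ)) ^ p) := by
          apply Finset.sum_le_sum
          intro k _
          calc |f (gT p (gridPt m j1)) k - f (gT p (gridPt m j2)) k| ^ p
              ≤ (|H k x - H k y| + 2 * L) ^ p := Real.rpow_le_rpow (abs_nonneg _) (hHa k) hp0.le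
            _ ≤ (2:ℝ) ^ p * (|H k x - H k y| ^ p + (2 * (L:ℝ)) ^ p) :=
                add_rpow_le_two p hp _ _ (abs_nonneg _) (by positivity)
      _ = (2:ℝ) ^ p * (∑ k, |H k x - H k y| ^ p + d * (2 * (L:ℝ)) ^ p) := by
          rw [← Finset.mul_sum, Finset.sum_add_distrib]
          simp
      _ ≤ (2:ℝ) ^ p * ((2 / c0) * (d * (momC p * (L : ℝ) ^ p)) + d * (2 * (L:ℝ)) ^ p) := by
          gcongr
      _ = d * ((L:ℝ) ^ p * lowC p) := by
          unfold lowC
          rw [Real.mul_rpow (by norm_num) hLr.le]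
          ring
  have hlow := (hf _ (hmem j1) _ (hmem j2)).1
  rw [norm_gT_sub] at hlow
  have hSnn : 0 ≤ ∑ k, |f (gT p (gridPt m j1)) k - f (gT p (gridPt m j2)) k| ^ p :=
    Finset.sum_nonneg (fun k _ => by positivity)
  have hlow2 : (s * gp p) ^ p * ‖gridPt m j1 - gridPt m j2‖ ^ p ≤
      ∑ k, |f (gT p (gridPt m j1)) k - f (gT p (gridPt m j2)) k| ^ p := by
    have h1 := Real.rpow_le_rpow (by positivity) hlow hp0.le
    rw [← Real.rpow_mul hSnn, one_div_mul_cancel hp0.ne', Real.rpow_one, ← mul_assoc,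
      Real.mul_rpow (by positivity) (norm_nonneg _)] at h1
    exact h1
  have hmain : ‖gridPt m j1 - gridPt m j2‖ ^ p ≤ d * (D ^ p * lowC p) := by
    have h1 := hlow2.trans hup
    rw [hL, mul_assoc D s, Real.mul_rpow hD0.le (by positivity)] at h1
    have h2 : 0 < (s * gp p) ^ p := by positivity
    have h3 : (s * gp p) ^ p * ‖gridPt m j1 - gridPt m j2‖ ^ p ≤
        (s * gp p) ^ p * (d * (D ^ p * lowC p)) := by
      refine h1.trans (le_of_eq ?_)
      ring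
    exact le_of_mul_le_mul_left h3 h2
  have hdist : ‖x - y‖ - 2 ≤ ‖gridPt m j1 - gridPt m j2‖ := by
    have h1 : x - y = (x - gridPt m j1) + (gridPt m j1 - gridPt m j2) - (y - gridPt m j2) := by abel
    have h2 : ‖x - y‖ ≤ ‖x - gridPt m j1‖ + ‖gridPt m j1 - gridPt m j2‖ + ‖y - gridPt m j2‖ := by
      rw [h1]
      refine (norm_sub_le _ _).trans ?_
      gcongr
      exact norm_add_le _ _
    linarith
  rcases le_or_gt 4 (Real.sqrt (m * c0 / 2)) with h4 | h4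
  · have h5 : Real.sqrt (m * c0 / 2) ≤ ‖x - y‖ := by
      rw [Real.sqrt_le_left (norm_nonneg _)]
      exact hxy
    have h6 : Real.sqrt (m * c0 / 2) / 2 ≤ ‖gridPt m j1 - gridPt m j2‖ := by linarith
    have h7 : Real.sqrt (m * c0 / 2) / 2 = ((m:ℝ) * c0 / 8) ^ (1 / 2 : ℝ) := by
      rw [← Real.sqrt_eq_rpow]
      have : (m:ℝ) * c0 / 8 = (m * c0 / 2) / 2 ^ 2 := by ring
      rw [this, Real.sqrt_div' ((m:ℝ) * c0 / 2) (show (0:ℝ) ≤ 2 ^ 2 by norm_num),
        Real.sqrt_sq (show (0:ℝ) ≤ 2 by norm_num)]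
    calc ((m:ℝ) * c0 / 8) ^ (p / 2) = (((m:ℝ) * c0 / 8) ^ (1 / 2 : ℝ)) ^ p := by
          rw [← Real.rpow_mul (by positivity)]
          congr 1
          ring
      _ ≤ ‖gridPt m j1 - gridPt m j2‖ ^ p := by
          apply Real.rpow_le_rpow (by positivity) _ hp0.le
          rw [← h7]; exact h6
      _ ≤ d * (D ^ p * lowC p) := hmain
  · have h5 : (m:ℝ) * c0 / 8 ≤ 4 := by
      have h6 : (m:ℝ) * c0 / 2 < 16 := by
        have := Real.sq_sqrt (show 0 ≤ (m:ℝ) * c0 / 2 by positivity)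
        nlinarith [Real.sqrt_nonneg ((m:ℝ) * c0 / 2)]
      linarith
    have h7 : ((m:ℝ) * c0 / 8) ^ (p / 2) ≤ (2:ℝ) ^ p := by
      calc ((m:ℝ) * c0 / 8) ^ (p / 2) ≤ (4:ℝ) ^ (p / 2) :=
            Real.rpow_le_rpow (by positivity) h5 (by positivity)
        _ = (2:ℝ) ^ p := by
            rw [show (4:ℝ) = 2 ^ (2:ℝ) by norm_num, ← Real.rpow_mul (by norm_num)]
            congr 1
            ring
    have h8 : (2:ℝ) ^ p ≤ lowC p := by
      unfold lowC
      have h9 : (1:ℝ) ≤ (2 / c0) * momC p + (2:ℝ) ^ p := by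
        have := momC_pos p
        have h10 : (1:ℝ) ≤ (2:ℝ) ^ p := Real.one_le_rpow (by norm_num) hp0.le
        have h11 : 0 < (2 / c0) * momC p := by positivity
        linarith
      have h12 : (0:ℝ) < (2:ℝ) ^ p := by positivity
      nlinarith
    have h13 : 1 ≤ D ^ p := Real.one_le_rpow hD hp0.le
    have h14 : 0 < lowC p := lowC_pos p
    calc ((m:ℝ) * c0 / 8) ^ (p / 2) ≤ lowC p := h7.trans h8
      _ = 1 * (1 * lowC p) := by ring
      _ ≤ d * (D ^ p * lowC p) := by gcongr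

/-- arithmetic of the choice of `m` -/
lemma exists_m (n : ℕ) (hn : 16 ≤ n) : ∃ m : ℕ, 0 < m ∧ (m + 1) ^ m ≤ n ∧
    Real.log n / Real.log (Real.log n) / 4 ≤ m := by
  have hn' : (16:ℝ) ≤ n := by exact_mod_cast hn
  have hl2 := Real.log_two_gt_d9
  obtain ⟨M, hM⟩ : ∃ M, M = Real.log n := ⟨_, rfl⟩
  rw [← hM]
  have hM1 : Real.exp 1 < M := by
    rw [hM]
    have h1 : Real.log 16 ≤ Real.log n := Real.log_le_log (by norm_num) hn'
    have h2 : Real.log 16 = 4 * Real.log 2 := by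
      rw [show (16:ℝ) = 2 ^ 4 by norm_num, Real.log_pow]
      norm_num
    have h3 := Real.exp_one_lt_d9
    linarith
  have hMpos : 0 < M := lt_trans (Real.exp_pos 1) hM1
  have hlM : 1 < Real.log M := by
    rw [Real.lt_log_iff_exp_lt hMpos]; exact hM1
  have hlM0 : 0 < Real.log M := by linarith
  have hlMle : Real.log M ≤ M / 2 := by
    -- log M ≤ M / e ≤ M / 2
    have h1 : Real.log (M / 2) ≤ M / 2 - 1 := Real.log_le_sub_one_of_pos (by positivity)
    rw [Real.log_div hMpos.ne' (by norm_num)] at h1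
    have h2 := Real.log_two_lt_d9
    linarith
  have hx1 : 1 ≤ M / (2 * Real.log M) := by
    rw [le_div_iff₀ (by positivity)]; linarith
  refine ⟨⌊M / (2 * Real.log M)⌋₊, ?_, ?_, ?_⟩
  · exact Nat.floor_pos.mpr hx1
  · have hfl : (⌊M / (2 * Real.log M)⌋₊ : ℝ) ≤ M / (2 * Real.log M) := Nat.floor_le (by positivity)
    obtain ⟨k, hk⟩ : ∃ k, k = ⌊M / (2 * Real.log M)⌋₊ := ⟨_, rfl⟩
    rw [← hk] at hfl ⊢
    have h1 : ((k:ℝ) + 1) ≤ M := by
      have h2 : M / (2 * Real.log M) ≤ M / 2 := by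
        apply div_le_div_of_nonneg_left hMpos.le (by norm_num)
        linarith
      have h3 : (2:ℝ) ≤ M := by
        have := Real.exp_one_gt_d9
        linarith
      linarith
    have h2 : (k:ℝ) * Real.log ((k:ℝ) + 1) ≤ Real.log n := by
      have h3 : Real.log ((k:ℝ) + 1) ≤ Real.log M := Real.log_le_log (by positivity) h1
      calc (k:ℝ) * Real.log ((k:ℝ) + 1) ≤ (M / (2 * Real.log M)) * Real.log M := by
            apply mul_le_mul hfl h3 (Real.log_nonneg (by linarith [Nat.cast_nonneg (α := ℝ) k])) (by positivity)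
        _ = M / 2 := by field_simp
        _ ≤ Real.log n := by rw [← hM]; linarith
    have h4 : (((k + 1) ^ k : ℕ) : ℝ) ≤ n := by
      have h5 : Real.log (((k + 1) ^ k : ℕ) : ℝ) ≤ Real.log n := by
        push_cast
        rw [Real.log_pow]
        exact h2
      rwa [Real.log_le_log_iff (by positivity) (by positivity)] at h5
    exact_mod_cast h4
  · have h1 : M / (2 * Real.log M) < ⌊M / (2 * Real.log M)⌋₊ + 1 := Nat.lt_floor_add_one _
    have h2 : (1:ℝ) ≤ ⌊M / (2 * Real.log M)⌋₊ := by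
      have := Nat.floor_pos.mpr hx1
      exact_mod_cast this
    have h3 : M / Real.log M / 4 = (M / (2 * Real.log M)) / 2 := by field_simp; norm_num
    rw [h3]
    linarith

/-- The lower bound: `d_p(n, D) ≥ c D^{-p} (log n / log log n)^{p/2}`. -/
theorem lower (p : ℝ) (hp : 1 ≤ p) : ∃ c : ℝ, 0 < c ∧ ∀ D : ℝ, 1 ≤ D → ∀ n d : ℕ, 16 ≤ n →
    Suffices p D n d → c * (Real.log n / Real.log (Real.log n)) ^ (p / 2) / D ^ p ≤ d := by
  have hc0 := c0_pos
  have hC := lowC_pos p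
  refine ⟨(c0 / 32) ^ (p / 2) / lowC p, by positivity, ?_⟩
  intro D hD n d hn hs
  obtain ⟨m, hm, hmn, hmlow⟩ := exists_m n hn
  have h1 := lower_aux p hp D hD m n d hm hmn hs
  have hDp : 0 < D ^ p := Real.rpow_pos_of_pos (by linarith) p
  have hn' : (16:ℝ) ≤ n := by exact_mod_cast hn
  have hlog : 1 < Real.log n := by
    have h2 : Real.log 16 ≤ Real.log n := Real.log_le_log (by norm_num) hn'
    have h3 : Real.log 16 = 4 * Real.log 2 := by
      rw [show (16:ℝ) = 2 ^ 4 by norm_num, Real.log_pow]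
      norm_num
    have h4 := Real.log_two_gt_d9
    linarith
  have hll : 0 < Real.log (Real.log n) := Real.log_pos hlog
  have hr : 0 < Real.log n / Real.log (Real.log n) := by positivity
  rw [div_le_iff₀ hDp]
  have h2 : (c0 / 32) ^ (p / 2) * (Real.log n / Real.log (Real.log n)) ^ (p / 2) ≤
      ((m:ℝ) * c0 / 8) ^ (p / 2) := by
    rw [← Real.mul_rpow (by positivity) hr.le]
    apply Real.rpow_le_rpow (by positivity) _ (by linarith)
    have : c0 / 32 * (Real.log n / Real.log (Real.log n)) =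
      (Real.log n / Real.log (Real.log n) / 4) * c0 / 8 := by ring
    rw [this]
    gcongr
  have h3 : (c0 / 32) ^ (p / 2) / lowC p * (Real.log n / Real.log (Real.log n)) ^ (p / 2) =
      ((c0 / 32) ^ (p / 2) * (Real.log n / Real.log (Real.log n)) ^ (p / 2)) / lowC p := by ring
  rw [h3, div_le_iff₀ hC]
  calc (c0 / 32) ^ (p / 2) * (Real.log n / Real.log (Real.log n)) ^ (p / 2)
      ≤ ((m:ℝ) * c0 / 8) ^ (p / 2) := h2
    _ ≤ d * (D ^ p * lowC p) := h1
    _ = d * D ^ p * lowC p := by ring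

end Vale.Agent.P249
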