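import Vale.Agent.P249.Nrm
import Vale.Agent.P249.Scalar

/-! P249, all distortions: backward mixing, configurations, level functions (definitions and the
elementary facts about mixing). -/

open Finset

namespace Vale.Agent.P249

/-- auxiliary recursion for `mix` -/
noncomputable def mixAux (K : ℕ) (g a : ℕ → ℝ) : ℕ → ℝ
  | 0 => a K
  | k + 1 => (1 - g (K - (k + 1))) * mixAux K g a k + g (K - (k + 1)) * a (K - (k + 1))

/-- backward mixing: `mix K g a K = a K` and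
`mix K g a j = (1 - g j) * mix K g a (j + 1) + g j * a j` for `j < K` -/
noncomputable def mix (K : ℕ) (g a : ℕ → ℝ) (j : ℕ) : ℝ := mixAux K g a (K - j)

lemma mix_last (K : ℕ) (g a : ℕ → ℝ) : mix K g a K = a K := by
  unfold mix
  rw [Nat.sub_self]
  rfl

lemma mix_step {K j : ℕ} (hj : j < K) (g a : ℕ → ℝ) :
    mix K g a j = (1 - g j) * mix K g a (j + 1) + g j * a j := by
  unfold mix
  obtain ⟨k, hk⟩ : ∃ k, K - j = k + 1 := ⟨K - j - 1, by omega⟩
  have h1 : K - (k + 1) = j := by omega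
  have h2 : K - (j + 1) = k := by omega
  rw [hk, h2]
  show (1 - g (K - (k + 1))) * mixAux K g a k + g (K - (k + 1)) * a (K - (k + 1)) = _
  rw [h1]

lemma mix_one {K j : ℕ} (hj : j ≤ K) {g : ℕ → ℝ} (a : ℕ → ℝ) (hg : g j = 1 ∨ j = K) :
    mix K g a j = a j := by
  rcases Nat.lt_or_eq_of_le hj with h | h
  · rcases hg with hg | hg
    · rw [mix_step h, hg]; ring
    · omega
  · rw [h, mix_last]

lemma mix_zero {K j : ℕ} (hj : j < K) {g : ℕ → ℝ} (a : ℕ → ℝ) (hg : g j = 0) :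
    mix K g a j = mix K g a (j + 1) := by
  rw [mix_step hj, hg]; ring

/-- downward induction from `K` -/
lemma down_induction {K : ℕ} {P : ℕ → Prop} (h0 : P K) (hs : ∀ j, j < K → P (j + 1) → P j) :
    ∀ j, j ≤ K → P j := by
  have key : ∀ k j, j ≤ K → K - j = k → P j := by
    intro k
    induction k with
    | zero => intro j hj hk; rw [show j = K by omega]; exact h0
    | succ k ih => intro j hj hk; exact hs j (by omega) (ih (j + 1) (by omega) (by omega))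
  exact fun j hj => key (K - j) j hj rfl

lemma mix_mono {K : ℕ} {g a b : ℕ → ℝ} (hg0 : ∀ j, 0 ≤ g j) (hg1 : ∀ j, g j ≤ 1)
    (h : ∀ j, j < K → g j ≠ 0 → a j ≤ b j) (hK : a K ≤ b K) :
    ∀ j, j ≤ K → mix K g a j ≤ mix K g b j := by
  refine down_induction ?_ ?_
  · rw [mix_last, mix_last]; exact hK
  · intro j hj ih
    rw [mix_step hj, mix_step hj]
    have h1 := mul_le_mul_of_nonneg_left ih (sub_nonneg.mpr (hg1 j))
    by_cases h0 : g j = 0
    · rw [h0] at h1 ⊢; linarith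
    · have h2 := mul_le_mul_of_nonneg_left (h j hj h0) (hg0 j)
      linarith

lemma mix_const_mul (K : ℕ) (g a : ℕ → ℝ) (c : ℝ) :
    ∀ j, j ≤ K → mix K g (fun t => c * a t) j = c * mix K g a j := by
  refine down_induction ?_ ?_
  · rw [mix_last, mix_last]
  · intro j hj ih
    rw [mix_step hj, mix_step hj, ih]; ring

lemma mix_const (K : ℕ) (g : ℕ → ℝ) (c : ℝ) : ∀ j, j ≤ K → mix K g (fun _ => c) j = c := by
  refine down_induction ?_ ?_
  · rw [mix_last]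
  · intro j hj ih
    rw [mix_step hj, ih]; ring

lemma mix_sub (K : ℕ) (g a b : ℕ → ℝ) :
    ∀ j, j ≤ K → mix K g (fun t => a t - b t) j = mix K g a j - mix K g b j := by
  refine down_induction ?_ ?_
  · rw [mix_last, mix_last, mix_last]
  · intro j hj ih
    rw [mix_step hj, mix_step hj, mix_step hj, ih]; ring

lemma mix_nonneg {K : ℕ} {g a : ℕ → ℝ} (hg0 : ∀ j, 0 ≤ g j) (hg1 : ∀ j, g j ≤ 1)
    (ha : ∀ j, 0 ≤ a j) : ∀ j, j ≤ K → 0 ≤ mix K g a j := by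
  refine down_induction ?_ ?_
  · rw [mix_last]; exact ha K
  · intro j hj ih
    rw [mix_step hj]
    exact add_nonneg (mul_nonneg (sub_nonneg.mpr (hg1 j)) ih) (mul_nonneg (hg0 j) (ha j))

/-- the weights of the classes -/
noncomputable def bet (K : ℕ) (lam : ℕ → ℝ) (ε : ℝ) (g m e : ℕ → ℝ) (j : ℕ) : ℝ :=
  lam j * (|mix K g m j - mix K g m (j + 1)| + (g j + ε) * e j + ε * |m j - mix K g m (j + 1)|)

lemma bet_nonneg {K : ℕ} {lam : ℕ → ℝ} {ε : ℝ} {g m e : ℕ → ℝ} (hlam : ∀ j, 0 < lam j)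
    (hε : 0 ≤ ε) (hg : ∀ j, 0 ≤ g j) (he : ∀ j, 0 ≤ e j) (j : ℕ) : 0 ≤ bet K lam ε g m e j := by
  unfold bet
  have h1 := hg j
  have h2 := he j
  have h3 := (hlam j).le
  positivity

/-- the distance -/
noncomputable def dd {V ι : Type} [Fintype ι] (p : ℝ) (f : V → ι → ℝ) (x y : V) : ℝ :=
  nrm p (fun i => f x i - f y i)

/-- A configuration: sparse Gibbs scales `lam 0 > lam 1 > ... > lam K` (ratio `Q`), scale `0` is the
point mass and scale `K` the uniform measure; averages `m`, oscillations `e`, energies `u`, cutoffs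
`g`. -/
structure Cfg {V ι : Type} [Fintype V] [Fintype ι] (p : ℝ) (f : V → ι → ℝ) where
  K : ℕ
  Q : ℝ
  lam : ℕ → ℝ
  m : ℕ → V → ι → ℝ
  e : ℕ → V → ι → ℝ
  u : ℕ → V → ℝ
  g : ℕ → V → ℝ
  ε : ℝ
  U : ℝ
  R : ℝ
  B : ℕ
  hK : 1 < K
  hQ : 2 ≤ Q
  lam_pos : ∀ j, 0 < lam j
  lam_succ : ∀ j, lam j = Q * lam (j + 1)
  m_zero : ∀ x i, m 0 x i = f x i
  e_zero : ∀ x i, e 0 x i = 0
  m_last : ∀ x y i, m K x i = m K y i
  e_nonneg : ∀ j x i, 0 ≤ e j x i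
  u_nonneg : ∀ j x, 0 ≤ u j x
  nrm_m : ∀ j x, j ≤ K → lam j * nrm p (fun i => m j x i - f x i) ≤ u j x
  nrm_e : ∀ j x, j ≤ K → lam j * nrm p (e j x) ≤ 2 * u j x
  m_diff : ∀ j x y i, 1 ≤ j → j ≤ K →
    |m j x i - m j y i| ≤ (Real.exp (2 * (lam j * dd p f x y)) - 1) * e j x i
  e_diff : ∀ j x y i, 1 ≤ j → j ≤ K →
    |e j x i - e j y i| ≤ (Real.exp (4 * (lam j * dd p f x y)) - 1) * e j x i
  far : ∀ x y, x ≠ y → 1 ≤ lam 1 * dd p f x y
  near : ∀ x y, lam K * dd p f x y < 1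
  g_nonneg : ∀ j x, 0 ≤ g j x
  g_le_one : ∀ j x, g j x ≤ 1
  g_zero : ∀ x, g 0 x = 1
  g_one : ∀ x, g 1 x = 1
  hε : 0 < ε
  g_diff : ∀ j x y, j < K → |g j x - g j y| ≤ ε * (lam j * dd p f x y)
  u_le : ∀ j x, j < K → 0 < g j x → u j x ≤ U
  u_last : ∀ x, u K x ≤ U
  u_sum : ∀ x, ∑ j ∈ range (K + 1), u j x ≤ R
  bad_card : ∀ x, ((range K).filter fun j => g j x ≠ 1).card ≤ B

namespace Cfg

variable {V ι : Type} [Fintype V] [Fintype ι] {p : ℝ} {f : V → ι → ℝ} (c : Cfg p f)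

/-- the mixed averages -/
noncomputable def M (x : V) (i : ι) (j : ℕ) : ℝ :=
  mix c.K (fun j => c.g j x) (fun j => c.m j x i) j

/-- the weights -/
noncomputable def β (x : V) (i : ι) (j : ℕ) : ℝ :=
  bet c.K c.lam c.ε (fun j => c.g j x) (fun j => c.m j x i) (fun j => c.e j x i) j

/-- the classes -/
noncomputable def C (x : V) (i : ι) (j : ℕ) : ℝ := tail c.K (c.β x i) j

/-- the number of skipped scales -/
noncomputable def N (x : V) : ℕ := ((range c.K).filter fun j => c.g j x ≠ 1).card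

/-- total energy of the used sequence of scales -/
noncomputable def sig (x : V) : ℝ := ∑ j ∈ range (c.K + 1), c.u j x

/-- the point `x` is clean: every candidate scale is used completely or skipped completely -/
def Clean (x : V) : Prop := ∀ j, j < c.K → c.g j x = 0 ∨ c.g j x = 1

/-- the levels: `φ_l(x)_i = Σ_j a_l(C_j) (M_j - M_{j+1})` -/
noncomputable def phi (a : ℕ → ℝ → ℝ) (l : ℕ) (x : V) (i : ι) : ℝ :=
  ∑ j ∈ range c.K, a l (c.C x i j) * (c.M x i j - c.M x i (j + 1))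

lemma M_zero (x : V) (i : ι) : c.M x i 0 = f x i := by
  unfold M
  rw [mix_one (Nat.zero_le _) _ (Or.inl (c.g_zero x)), c.m_zero]

lemma M_last (x y : V) (i : ι) : c.M x i c.K = c.M y i c.K := by
  unfold M
  rw [mix_last, mix_last, c.m_last x y i]

lemma β_nonneg (x : V) (i : ι) (j : ℕ) : 0 ≤ c.β x i j :=
  bet_nonneg c.lam_pos c.hε.le (fun j => c.g_nonneg j x) (fun j => c.e_nonneg j x i) j

lemma C_nonneg (x : V) (i : ι) (j : ℕ) : 0 ≤ c.C x i j := tail_nonneg (c.β_nonneg x i) j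

/-- `|M_j - M_{j+1}| ≤ β_j / lam_j` -/
lemma M_diff_le (x : V) (i : ι) (j : ℕ) : |c.M x i j - c.M x i (j + 1)| ≤ c.β x i j / c.lam j := by
  have h1 := c.lam_pos j
  rw [le_div_iff₀ h1, mul_comm]
  unfold β bet
  refine mul_le_mul_of_nonneg_left ?_ h1.le
  have h2 := c.g_nonneg j x
  have h3 := c.e_nonneg j x i
  have h4 := c.hε.le
  have h5 : 0 ≤ (c.g j x + c.ε) * c.e j x i := by positivity
  have h6 : 0 ≤ c.ε * |c.m j x i - mix c.K (fun j => c.g j x) (fun j => c.m j x i) (j + 1)| := by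
    positivity
  unfold M
  linarith

open Classical in
/-- helper: oscillation classes of the next used scale -/
noncomputable def tt (x : V) (i : ι) (j : ℕ) : ℝ :=
  mix c.K (fun j => c.g j x) (fun j => if j < c.K then c.lam j * c.e j x i else 0) j

/-- the error of the scalar lemma at the pair `x, y` -/
noncomputable def E (κ : ℕ) (X : ℝ) (x y : V) (i : ι) : ℝ :=
  ∑ j ∈ Ico κ c.K, |c.C x i j - c.C y i j| / c.lam j
    + ∑ j ∈ Ico κ c.K, (Real.log (c.C x i j / c.C x i (j + 1)) +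
        Real.log (c.C y i j / c.C y i (j + 1))) * |c.M x i (j + 1) - c.M y i (j + 1)|
    + ∑ j ∈ range κ, Real.log (c.lam j / c.lam κ) *
        (|c.M x i j - c.M x i (j + 1)| + |c.M y i j - c.M y i (j + 1)|)
    + (2 + X * c.lam κ) * (∑ j ∈ range κ, c.β x i j / c.lam j + ∑ j ∈ range κ, c.β y i j / c.lam j)
    + |c.C x i κ - c.C y i κ| / c.lam κ

/-- the scalar lemma applies at the pair `x, y` with error of norm at most `Z` -/
def Good (x y : V) (Z : ℝ) : Prop :=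
  ∃ κ : ℕ, κ < c.K ∧ ∃ X : ℝ, 0 ≤ X ∧
    (∀ i, |c.M x i κ - c.M y i κ| ≤ X * max (c.C x i κ) (c.C y i κ)) ∧
    (∀ i j, κ < j → j < c.K → ∃ Y, |c.M x i j - c.M y i j| ≤ Y * min (c.C x i j) (c.C y i j)) ∧
    nrm p (fun i => c.E κ X x y i) ≤ Z

/-- cost of a clean point -/
noncomputable def cst (x : V) : ℝ :=
  1 + c.sig x + c.U * (1 + Real.log c.Q) * (1 + c.N x)
    + Real.log (c.Q * c.R / c.U) * (c.U ^ (1 - 1 / p) * c.R ^ (1 / p))
    + c.ε * ((c.B + 1) * c.Q ^ (c.B + 1)) * (1 + c.R)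

open Classical in
/-- cost of a point -/
noncomputable def cost (x : V) : ℝ :=
  if c.Clean x then c.cst x else (c.B + 1) * c.Q ^ (c.B + 2) * c.R

end Cfg

lemma dd_nonneg {V ι : Type} [Fintype ι] (p : ℝ) (f : V → ι → ℝ) (x y : V) : 0 ≤ dd p f x y :=
  nrm_nonneg _

lemma dd_comm {V ι : Type} [Fintype ι] (p : ℝ) (f : V → ι → ℝ) (x y : V) :
    dd p f x y = dd p f y x := nrm_sub_comm _ _

lemma dd_self {V ι : Type} [Fintype ι] {p : ℝ} (hp : 1 ≤ p) (f : V → ι → ℝ) (x : V) :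
    dd p f x x = 0 := by
  unfold dd
  simp only [sub_self]
  exact nrm_zero hp

lemma dd_triangle {V ι : Type} [Fintype ι] {p : ℝ} (hp : 1 ≤ p) (f : V → ι → ℝ) (x y z : V) :
    dd p f x z ≤ dd p f x y + dd p f y z := nrm_triangle hp _ _ _

/-- Sparse Gibbs scales (without cutoffs). -/
structure Gib {V ι : Type} [Fintype V] [Fintype ι] (p : ℝ) (f : V → ι → ℝ) (Q : ℝ) (K : ℕ) where
  lam : ℕ → ℝ
  m : ℕ → V → ι → ℝ
  e : ℕ → V → ι → ℝ
  u : ℕ → V → ℝ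
  Γ : ℕ → V → ℝ
  lam_pos : ∀ j, 0 < lam j
  lam_succ : ∀ j, lam j = Q * lam (j + 1)
  m_zero : ∀ x i, m 0 x i = f x i
  e_zero : ∀ x i, e 0 x i = 0
  u_zero : ∀ x, u 0 x = 0
  m_last : ∀ x y i, m K x i = m K y i
  e_nonneg : ∀ j x i, 0 ≤ e j x i
  u_nonneg : ∀ j x, 0 ≤ u j x
  nrm_m : ∀ j x, j ≤ K → lam j * nrm p (fun i => m j x i - f x i) ≤ u j x
  nrm_e : ∀ j x, j ≤ K → lam j * nrm p (e j x) ≤ 2 * u j x
  m_diff : ∀ j x y i, 1 ≤ j → j ≤ K →
    |m j x i - m j y i| ≤ (Real.exp (2 * (lam j * dd p f x y)) - 1) * e j x i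
  e_diff : ∀ j x y i, 1 ≤ j → j ≤ K →
    |e j x i - e j y i| ≤ (Real.exp (4 * (lam j * dd p f x y)) - 1) * e j x i
  far : ∀ x y, x ≠ y → 1 ≤ lam 1 * dd p f x y
  near : ∀ x y, lam K * dd p f x y < 1
  Γ_nonneg : ∀ j x, 0 ≤ Γ j x
  Γ_diff : ∀ j x y, 1 ≤ j → j < K → |Γ j x - Γ j y| ≤ 3 / 2 * (lam j * dd p f x y)
  u_le : ∀ j x, 1 ≤ j → j < K → u j x ≤ 2 * Γ j x
  u_last : ∀ x, u K x ≤ 1

/-- Level functions: an `ℓ_p`-normalised partition into `L0 + 2` levels, slowly varying in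
`log C / W`. -/
structure Lev (p W : ℝ) (L0 : ℕ) where
  a : ℕ → ℝ → ℝ
  a_nonneg : ∀ l C, 0 ≤ a l C
  a_le_one : ∀ l C, a l C ≤ 1
  a_sum : ∀ C, ∑ l ∈ range (L0 + 2), a l C ^ p = 1
  a_lip : ∀ C C' : ℝ, 0 < C' → C' ≤ C →
    ∑ l ∈ range (L0 + 2), |a l C - a l C'| ≤ 12 / W * Real.log (C / C')
  a_up : ∀ (l : ℕ) (C : ℝ), 0 < C → C ≤ Real.exp W → a l C ≠ 0 →
    C ≤ Real.exp (((l : ℝ) + 1 - L0) * W)
  a_low : ∀ (l : ℕ) (C : ℝ), 1 ≤ l → 0 < C → a l C ≠ 0 → Real.exp (((l : ℝ) - 1 - L0) * W) ≤ C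

end Vale.Agent.P249
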