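import Vale.Agent.P249.Conc

open MeasureTheory Metric Set ProbabilityTheory
open scoped NNReal ENNReal ContDiff

namespace Vale.Agent.P249

lemma abs_rpow_le (p : ℝ) (hp : 0 ≤ p) (t : ℝ) :
    |t| ^ p ≤ 1 + (⌈p⌉₊.factorial : ℝ) * (Real.exp t + Real.exp (-t)) := by
  set k := ⌈p⌉₊
  have hpk : p ≤ k := Nat.le_ceil p
  have h1 : |t| ^ p ≤ 1 + |t| ^ k := by
    rcases le_or_gt (|t|) 1 with h | h
    · have h2 : |t| ^ p ≤ 1 := Real.rpow_le_one (abs_nonneg _) h hp
      have h3 : 0 ≤ |t| ^ k := by positivity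
      linarith
    · have h2 : |t| ^ p ≤ |t| ^ (k : ℝ) := Real.rpow_le_rpow_of_exponent_le h.le hpk
      rw [Real.rpow_natCast] at h2
      linarith
  have h2 : |t| ^ k ≤ (k.factorial : ℝ) * Real.exp |t| := by
    have := Real.pow_div_factorial_le_exp (|t|) (abs_nonneg t) k
    rw [div_le_iff₀ (by positivity)] at this
    linarith
  have h3 : Real.exp |t| ≤ Real.exp t + Real.exp (-t) := by
    rcases abs_cases t with ⟨h, _⟩ | ⟨h, _⟩
    · rw [h]; linarith [Real.exp_pos (-t)]
    · rw [h]; linarith [Real.exp_pos t]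
  have h4 : (k.factorial : ℝ) * Real.exp |t| ≤ (k.factorial : ℝ) * (Real.exp t + Real.exp (-t)) :=
    mul_le_mul_of_nonneg_left h3 (by positivity)
  linarith

/-- the moment constant -/
noncomputable def momC (p : ℝ) : ℝ :=
  1 + (⌈p⌉₊.factorial : ℝ) * (2 * Real.exp (Real.pi ^ 2 / 8 + 2))

lemma momC_pos (p : ℝ) : 0 < momC p := by unfold momC; positivity

variable {E : Type*} [NormedAddCommGroup E] [InnerProductSpace ℝ E] [FiniteDimensional ℝ E]
  [MeasurableSpace E] [BorelSpace E]

lemma moment_one (p : ℝ) (hp : 0 ≤ p) (H : E → ℝ) (hH : LipschitzWith 1 H) :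
    ∫⁻ z, ENNReal.ofReal (|H z.2 - H z.1| ^ p) ∂((stdGaussian E).prod (stdGaussian E)) ≤
      ENNReal.ofReal (momC p) := by
  set γ := stdGaussian E
  have hc : Continuous H := hH.continuous
  have h1 := conc_lip H hH
  have h2 := conc_lip (fun x => - H x) hH.neg
  have hm1 : Measurable (fun z : E × E => ENNReal.ofReal (Real.exp (H z.2 - H z.1))) := by
    have : Continuous (fun z : E × E => Real.exp (H z.2 - H z.1)) := by fun_prop
    exact this.measurable.ennreal_ofReal
  calc ∫⁻ z, ENNReal.ofReal (|H z.2 - H z.1| ^ p) ∂(γ.prod γ)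
      ≤ ∫⁻ z, (1 + ENNReal.ofReal (⌈p⌉₊.factorial : ℝ) * (ENNReal.ofReal (Real.exp (H z.2 - H z.1)) +
          ENNReal.ofReal (Real.exp (-H z.2 - -H z.1)))) ∂(γ.prod γ) := by
        apply lintegral_mono
        intro z
        simp only
        refine (ENNReal.ofReal_le_ofReal (abs_rpow_le p hp (H z.2 - H z.1))).trans (le_of_eq ?_)
        rw [ENNReal.ofReal_add (by norm_num) (by positivity), ENNReal.ofReal_one,
          ENNReal.ofReal_mul (by positivity), ENNReal.ofReal_add (Real.exp_pos _).le (Real.exp_pos _).le]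
        congr 5
        ring
    _ = 1 + ENNReal.ofReal (⌈p⌉₊.factorial : ℝ) *
          ((∫⁻ z, ENNReal.ofReal (Real.exp (H z.2 - H z.1)) ∂(γ.prod γ)) +
          (∫⁻ z, ENNReal.ofReal (Real.exp (-H z.2 - -H z.1)) ∂(γ.prod γ))) := by
        rw [lintegral_add_left measurable_const, lintegral_const_mul' _ _ ENNReal.ofReal_ne_top,
          lintegral_add_left hm1]
        simp
    _ ≤ 1 + ENNReal.ofReal (⌈p⌉₊.factorial : ℝ) *
          (ENNReal.ofReal (Real.exp (Real.pi ^ 2 / 8 + 2)) +
          ENNReal.ofReal (Real.exp (Real.pi ^ 2 / 8 + 2))) := by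
        gcongr
    _ = ENNReal.ofReal (momC p) := by
        unfold momC
        rw [← ENNReal.ofReal_add (Real.exp_pos _).le (Real.exp_pos _).le,
          ← ENNReal.ofReal_mul (by positivity), ← ENNReal.ofReal_one,
          ← ENNReal.ofReal_add (by norm_num) (by positivity)]
        congr 3
        ring

lemma moment (p : ℝ) (hp : 0 ≤ p) (H : E → ℝ) (L : ℝ≥0) (hL : 0 < L) (hH : LipschitzWith L H) :
    Integrable (fun z : E × E => |H z.2 - H z.1| ^ p) ((stdGaussian E).prod (stdGaussian E)) ∧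
    ∫ z, |H z.2 - H z.1| ^ p ∂((stdGaussian E).prod (stdGaussian E)) ≤ momC p * (L : ℝ) ^ p := by
  set γ := stdGaussian E
  have hL' : (0:ℝ) < L := hL
  set H1 : E → ℝ := fun x => (L : ℝ)⁻¹ * H x with hH1
  have hH1L : LipschitzWith 1 H1 := by
    apply LipschitzWith.of_dist_le_mul
    intro x y
    have := hH.dist_le_mul x y
    rw [Real.dist_eq] at this ⊢
    rw [hH1]
    simp only
    rw [← mul_sub, abs_mul, abs_of_pos (by positivity), NNReal.coe_one, one_mul]
    calc (L : ℝ)⁻¹ * |H x - H y| ≤ (L : ℝ)⁻¹ * (L * dist x y) :=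
          mul_le_mul_of_nonneg_left this (by positivity)
      _ = dist x y := by field_simp
  have hc : Continuous H1 := hH1L.continuous
  have h1 := moment_one p hp H1 hH1L
  have hcont : Continuous (fun z : E × E => |H1 z.2 - H1 z.1| ^ p) := by
    apply Continuous.rpow_const (by fun_prop)
    intro z; right; exact hp
  have hint : Integrable (fun z : E × E => |H1 z.2 - H1 z.1| ^ p) (γ.prod γ) := by
    refine ⟨hcont.aestronglyMeasurable, ?_⟩
    rw [hasFiniteIntegral_iff_ofReal (Filter.Eventually.of_forall fun _ => by positivity)]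
    exact lt_of_le_of_lt h1 ENNReal.ofReal_lt_top
  have heq : (fun z : E × E => |H z.2 - H z.1| ^ p) = fun z => (L:ℝ) ^ p * |H1 z.2 - H1 z.1| ^ p := by
    funext z
    rw [hH1]
    simp only
    rw [← mul_sub, abs_mul, Real.mul_rpow (abs_nonneg _) (abs_nonneg _), ← mul_assoc,
      abs_of_pos (by positivity : 0 < (L:ℝ)⁻¹), ← Real.mul_rpow hL'.le (by positivity),
      mul_inv_cancel₀ hL'.ne', Real.one_rpow, one_mul]
  rw [heq]
  refine ⟨hint.const_mul _, ?_⟩
  rw [integral_const_mul, mul_comm (momC p)]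
  apply mul_le_mul_of_nonneg_left _ (by positivity)
  rw [integral_eq_lintegral_of_nonneg_ae (Filter.Eventually.of_forall fun _ => by positivity)
    hcont.aestronglyMeasurable]
  exact ENNReal.toReal_le_of_le_ofReal (momC_pos p).le h1

/-- the clamp function -/
noncomputable def clamp (t : ℝ) : ℝ := max 0 (min 1 t)

lemma clamp_nonneg (t : ℝ) : 0 ≤ clamp t := le_max_left _ _

lemma clamp_le_one (t : ℝ) : clamp t ≤ 1 := max_le zero_le_one (min_le_left _ _)

lemma clamp_lip (s t : ℝ) : |clamp s - clamp t| ≤ |s - t| := by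
  unfold clamp
  refine (abs_max_sub_max_le_max _ _ _ _).trans ?_
  simp only [sub_self, abs_zero]
  apply max_le (abs_nonneg _)
  refine (abs_min_sub_min_le_max _ _ _ _).trans ?_
  simp

lemma continuous_clamp : Continuous clamp := by
  unfold clamp; fun_prop

/-- `c0 = E |clamp G - clamp G'|^2` -/
noncomputable def c0 : ℝ :=
  ∫ z, (clamp z.2 - clamp z.1) ^ 2 ∂((gaussianReal 0 1).prod (gaussianReal 0 1))

lemma integrable_clamp_sq :
    Integrable (fun z : ℝ × ℝ => (clamp z.2 - clamp z.1) ^ 2)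
      ((gaussianReal 0 1).prod (gaussianReal 0 1)) := by
  have hc : Continuous (fun z : ℝ × ℝ => (clamp z.2 - clamp z.1) ^ 2) := by
    have := continuous_clamp
    fun_prop
  apply Integrable.of_bound hc.aestronglyMeasurable 1
  filter_upwards with z
  rw [Real.norm_eq_abs, abs_of_nonneg (sq_nonneg _)]
  have h1 := clamp_nonneg z.1
  have h2 := clamp_nonneg z.2
  have h3 := clamp_le_one z.1
  have h4 := clamp_le_one z.2
  nlinarith

lemma c0_pos : 0 < c0 := by
  unfold c0
  rw [integral_pos_iff_support_of_nonneg (fun z => sq_nonneg _) integrable_clamp_sq]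
  have hv : ∀ s : Set ℝ, 0 < volume s → 0 < gaussianReal 0 1 s := by
    intro s hs
    by_contra h
    have h0 : gaussianReal 0 1 s = 0 := by
      rw [not_lt] at h
      exact le_antisymm h bot_le
    have := gaussianReal_absolutelyContinuous' 0 (one_ne_zero (α := ℝ≥0)) h0
    rw [this] at hs
    exact lt_irrefl _ hs
  have hsub : (Iio (0:ℝ)) ×ˢ (Ioi (1:ℝ)) ⊆ Function.support (fun z : ℝ × ℝ => (clamp z.2 - clamp z.1) ^ 2) := by
    rintro ⟨a, b⟩ ⟨ha, hb⟩
    simp only [mem_Iio, mem_Ioi] at ha hb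
    simp only [Function.mem_support]
    have h1 : clamp a = 0 := by
      unfold clamp
      rw [max_eq_left]
      exact (min_le_right _ _).trans ha.le
    have h2 : clamp b = 1 := by
      unfold clamp
      rw [min_eq_left hb.le]
      norm_num
    rw [h1, h2]
    norm_num
  refine lt_of_lt_of_le ?_ (measure_mono hsub)
  rw [Measure.prod_prod]
  apply ENNReal.mul_pos
  · exact (hv _ (by simp)).ne'
  · exact (hv _ (by simp)).ne'

lemma c0_le_one : c0 ≤ 1 := by
  unfold c0
  calc ∫ z, (clamp z.2 - clamp z.1) ^ 2 ∂((gaussianReal 0 1).prod (gaussianReal 0 1))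
      ≤ ∫ _, (1:ℝ) ∂((gaussianReal 0 1).prod (gaussianReal 0 1)) := by
        apply integral_mono integrable_clamp_sq (integrable_const _)
        intro z
        have h1 := clamp_nonneg z.1
        have h2 := clamp_nonneg z.2
        have h3 := clamp_le_one z.1
        have h4 := clamp_le_one z.2
        simp only
        nlinarith
    _ = 1 := by simp

/-- coordinatewise clamp on Euclidean space -/
noncomputable def clampE {m : ℕ} (x : EuclideanSpace ℝ (Fin m)) : EuclideanSpace ℝ (Fin m) :=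
  WithLp.toLp 2 (fun i => clamp (x i))

lemma clampE_lip {m : ℕ} : LipschitzWith 1 (clampE (m := m)) := by
  apply LipschitzWith.of_dist_le_mul
  intro x y
  rw [NNReal.coe_one, one_mul, EuclideanSpace.dist_eq, EuclideanSpace.dist_eq]
  apply Real.sqrt_le_sqrt
  apply Finset.sum_le_sum
  intro i _
  rw [Real.dist_eq, Real.dist_eq]
  exact pow_le_pow_left₀ (abs_nonneg _) (clamp_lip _ _) 2

lemma norm_clampE_sub_sq {m : ℕ} (x y : EuclideanSpace ℝ (Fin m)) :
    ‖clampE x - clampE y‖ ^ 2 = ∑ i, (clamp (x i) - clamp (y i)) ^ 2 := by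
  rw [EuclideanSpace.real_norm_sq_eq]
  rfl

lemma norm_clampE_sub_sq_le {m : ℕ} (x y : EuclideanSpace ℝ (Fin m)) :
    ‖clampE x - clampE y‖ ^ 2 ≤ m := by
  rw [norm_clampE_sub_sq]
  calc ∑ i, (clamp (x i) - clamp (y i)) ^ 2 ≤ ∑ _i : Fin m, (1:ℝ) := by
        apply Finset.sum_le_sum
        intro i _
        have h1 := clamp_nonneg (x i)
        have h2 := clamp_nonneg (y i)
        have h3 := clamp_le_one (x i)
        have h4 := clamp_le_one (y i)
        nlinarith
    _ = m := by simp

lemma mp_eval {m : ℕ} (i : Fin m) :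
    MeasurePreserving (fun x : EuclideanSpace ℝ (Fin m) => x i)
      (stdGaussian (EuclideanSpace ℝ (Fin m))) (gaussianReal 0 1) := by
  rw [← map_pi_eq_stdGaussian]
  refine ⟨by fun_prop, ?_⟩
  rw [Measure.map_map (by fun_prop) (by fun_prop)]
  exact (measurePreserving_eval (fun _ : Fin m => gaussianReal 0 1) i).map_eq

lemma integral_clampE {m : ℕ} :
    Integrable (fun z : EuclideanSpace ℝ (Fin m) × EuclideanSpace ℝ (Fin m) =>
      ‖clampE z.2 - clampE z.1‖ ^ 2)
      ((stdGaussian (EuclideanSpace ℝ (Fin m))).prod (stdGaussian (EuclideanSpace ℝ (Fin m)))) ∧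
    ∫ z, ‖clampE z.2 - clampE z.1‖ ^ 2
      ∂((stdGaussian (EuclideanSpace ℝ (Fin m))).prod (stdGaussian (EuclideanSpace ℝ (Fin m)))) =
      m * c0 := by
  set E := EuclideanSpace ℝ (Fin m)
  set γ := stdGaussian E
  have hmp : ∀ i : Fin m, MeasurePreserving (fun z : E × E => ((z.1 i, z.2 i) : ℝ × ℝ)) (γ.prod γ)
      ((gaussianReal 0 1).prod (gaussianReal 0 1)) := fun i => (mp_eval i).prod (mp_eval i)
  have hi : ∀ i : Fin m, Integrable (fun z : E × E => (clamp (z.2 i) - clamp (z.1 i)) ^ 2) (γ.prod γ) :=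
    fun i => (hmp i).integrable_comp_of_integrable integrable_clamp_sq
  simp_rw [norm_clampE_sub_sq]
  refine ⟨integrable_finsetSum _ (fun i _ => hi i), ?_⟩
  rw [integral_finsetSum _ (fun i _ => hi i)]
  have : ∀ i : Fin m, ∫ z, (clamp (z.2 i) - clamp (z.1 i)) ^ 2 ∂(γ.prod γ) = c0 := by
    intro i
    unfold c0
    rw [← (hmp i).map_eq, integral_map (hmp i).measurable.aemeasurable]
    have hc : Continuous (fun z : ℝ × ℝ => (clamp z.2 - clamp z.1) ^ 2) := by
      have := continuous_clamp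
      fun_prop
    exact hc.aestronglyMeasurable
  rw [Finset.sum_congr rfl (fun i _ => this i)]
  simp

end Vale.Agent.P249
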