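import Mathlib

open Finset MeasureTheory

namespace Vale.Agent.P249

/-- deterministic product selection -/
lemma exists_product {Ω : Type*} [MeasurableSpace Ω] (P : Measure Ω) [IsProbabilityMeasure P]
    {J : Type*} [Fintype J] (g : J → Ω → ℝ) (hg0 : ∀ j ω, 0 ≤ g j ω)
    (hint : ∀ j, Integrable (g j) P) (q : ℝ) (hq : ∀ j, ∫ ω, g j ω ∂P ≤ q) (N : ℕ) :
    ∃ w : Fin N → Ω, ∑ j, ∏ i, g j (w i) ≤ Fintype.card J * q ^ N := by
  induction N with
  | zero => exact ⟨Fin.elim0, by simp⟩
  | succ N ih =>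
    obtain ⟨w, hw⟩ := ih
    set c : J → ℝ := fun j => ∏ i, g j (w i) with hc
    have hc0 : ∀ j, 0 ≤ c j := fun j => prod_nonneg (fun i _ => hg0 j _)
    have hint' : Integrable (fun ω => ∑ j, c j * g j ω) P :=
      integrable_finsetSum _ (fun j _ => (hint j).const_mul _)
    obtain ⟨ω, hω⟩ := exists_le_integral hint'
    rw [integral_finsetSum _ (fun j _ => (hint j).const_mul _)] at hω
    have h1 : ∑ j, ∫ ω, c j * g j ω ∂P ≤ ∑ j, c j * q := by
      apply sum_le_sum
      intro j _
      rw [integral_const_mul]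
      exact mul_le_mul_of_nonneg_left (hq j) (hc0 j)
    have hq0 : 0 ≤ q ∨ IsEmpty J := by
      rcases isEmpty_or_nonempty J with h | ⟨⟨j⟩⟩
      · exact Or.inr h
      · left
        exact le_trans (integral_nonneg (hg0 j)) (hq j)
    refine ⟨Fin.snoc w ω, ?_⟩
    have h2 : ∀ j, ∏ i, g j ((Fin.snoc w ω : Fin (N + 1) → Ω) i) = c j * g j ω := by
      intro j
      rw [Fin.prod_univ_castSucc]
      simp [hc]
    rw [sum_congr rfl (fun j _ => h2 j)]
    refine hω.trans (h1.trans ?_)
    rw [← sum_mul]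
    rcases hq0 with h | h
    · calc (∑ j, c j) * q ≤ (Fintype.card J * q ^ N) * q := mul_le_mul_of_nonneg_right hw h
        _ = _ := by ring
    · simp

/-- exponential moment bound -/
lemma exp_moment {Ω : Type*} [MeasurableSpace Ω] (P : Measure Ω) [IsProbabilityMeasure P]
    (Z : Ω → ℝ) (hZ : Measurable Z) (K : ℝ) (hK : 0 < K) (h0 : ∀ ω, 0 ≤ Z ω) (h1 : ∀ ω, Z ω ≤ K)
    (hmean : ∫ ω, Z ω ∂P = 1) (u : ℝ) :
    ∫ ω, Real.exp (u / K * Z ω) ∂P ≤ Real.exp ((Real.exp u - 1) / K) := by
  have hZi : Integrable Z P := by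
    apply Integrable.of_bound hZ.aestronglyMeasurable K
    filter_upwards with ω
    rw [Real.norm_eq_abs, abs_of_nonneg (h0 ω)]
    exact h1 ω
  have hei : Integrable (fun ω => Real.exp (u / K * Z ω)) P := by
    apply Integrable.of_bound (Real.measurable_exp.comp (hZ.const_mul _)).aestronglyMeasurable
      (Real.exp (|u|))
    filter_upwards with ω
    show |Real.exp (u / K * Z ω)| ≤ Real.exp |u|
    rw [abs_of_pos (Real.exp_pos _)]
    apply Real.exp_le_exp.mpr
    calc u / K * Z ω ≤ |u / K * Z ω| := le_abs_self _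
      _ = |u| / K * Z ω := by rw [abs_mul, abs_div, abs_of_pos hK, abs_of_nonneg (h0 ω)]
      _ ≤ |u| / K * K := mul_le_mul_of_nonneg_left (h1 ω) (by positivity)
      _ = |u| := by field_simp
  have hpt : ∀ ω, Real.exp (u / K * Z ω) ≤ 1 + (Z ω) * ((Real.exp u - 1) / K) := by
    intro ω
    have ha : 0 ≤ 1 - Z ω / K := by rw [sub_nonneg, div_le_one hK]; exact h1 ω
    have hb : 0 ≤ Z ω / K := div_nonneg (h0 ω) hK.le
    have hab : (1 - Z ω / K) + Z ω / K = 1 := by ring
    have hc := convexOn_exp.2 (Set.mem_univ (0:ℝ)) (Set.mem_univ u) ha hb hab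
    simp only [smul_eq_mul, mul_zero, zero_add, Real.exp_zero, mul_one] at hc
    have e1 : Z ω / K * u = u / K * Z ω := by ring
    rw [e1] at hc
    refine hc.trans (le_of_eq ?_)
    ring
  calc ∫ ω, Real.exp (u / K * Z ω) ∂P ≤ ∫ ω, (1 + (Z ω) * ((Real.exp u - 1) / K)) ∂P := by
        apply integral_mono hei _ hpt
        exact (integrable_const _).add (hZi.mul_const _)
    _ = 1 + (Real.exp u - 1) / K := by
        rw [integral_add (integrable_const _) (hZi.mul_const _), integral_mul_const, hmean]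
        simp
    _ ≤ Real.exp ((Real.exp u - 1) / K) := by
        have := Real.add_one_le_exp ((Real.exp u - 1) / K)
        linarith

lemma exp_le_quad {u : ℝ} (h1 : |u| ≤ 1) : Real.exp u - 1 ≤ u + u ^ 2 := by
  have h := Real.abs_exp_sub_one_sub_id_le h1
  have := (abs_le.mp h).2
  linarith

/-- Sampling lemma. -/
lemma sampling {Ω : Type*} [MeasurableSpace Ω] (P : Measure Ω) [IsProbabilityMeasure P]
    {J : Type*} [Fintype J] (Z : J → Ω → ℝ) (hZ : ∀ j, Measurable (Z j)) (K : ℝ) (hK : 0 < K)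
    (h0 : ∀ j ω, 0 ≤ Z j ω) (h1 : ∀ j ω, Z j ω ≤ K)
    (hmean : ∀ j, ∫ ω, Z j ω ∂P = 1) (δ : ℝ) (hδ : 0 < δ) (hδ1 : δ ≤ 1) (N : ℕ)
    (hN : 4 * K / δ ^ 2 * Real.log (2 * Fintype.card J + 1) ≤ N) :
    ∃ w : Fin N → Ω, ∀ j, |∑ i, Z j (w i) - N| ≤ δ * N := by
  set u : ℝ := δ / 2 with hu
  have hu0 : 0 < u := by positivity
  have hu1 : |u| ≤ 1 := by rw [abs_of_pos hu0]; linarith
  set q : ℝ := Real.exp (-(δ ^ 2 / (4 * K))) with hq
  set g : J × Bool → Ω → ℝ := fun jb ω =>
    if jb.2 then Real.exp (u / K * Z jb.1 ω) * Real.exp (-(u / K * (1 + δ)))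
    else Real.exp ((-u) / K * Z jb.1 ω) * Real.exp (u / K * (1 - δ)) with hg
  have hexpint : ∀ (j : J) (v : ℝ), Integrable (fun ω => Real.exp (v / K * Z j ω)) P := by
    intro j v
    apply Integrable.of_bound (Real.measurable_exp.comp ((hZ j).const_mul _)).aestronglyMeasurable
      (Real.exp (|v|))
    filter_upwards with ω
    show |Real.exp (v / K * Z j ω)| ≤ Real.exp |v|
    rw [abs_of_pos (Real.exp_pos _)]
    apply Real.exp_le_exp.mpr
    calc v / K * Z j ω ≤ |v / K * Z j ω| := le_abs_self _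
      _ = |v| / K * Z j ω := by rw [abs_mul, abs_div, abs_of_pos hK, abs_of_nonneg (h0 j ω)]
      _ ≤ |v| / K * K := mul_le_mul_of_nonneg_left (h1 j ω) (by positivity)
      _ = |v| := by field_simp
  have hg0 : ∀ jb ω, 0 ≤ g jb ω := by
    intro jb ω
    rw [hg]
    simp only
    split_ifs <;> positivity
  have hgi : ∀ jb, Integrable (g jb) P := by
    rintro ⟨j, b⟩
    rw [hg]
    cases b
    · simpa using (hexpint j (-u)).mul_const _
    · simpa using (hexpint j u).mul_const _
  have hgq : ∀ jb, ∫ ω, g jb ω ∂P ≤ q := by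
    rintro ⟨j, b⟩
    rw [hg, hq]
    cases b
    · simp only [Bool.false_eq_true, if_false]
      rw [integral_mul_const]
      have h2 := exp_moment P (Z j) (hZ j) K hK (h0 j) (h1 j) (hmean j) (-u)
      have h3 := exp_le_quad (u := -u) (by rw [abs_neg]; exact hu1)
      calc _ ≤ Real.exp ((Real.exp (-u) - 1) / K) * Real.exp (u / K * (1 - δ)) :=
            mul_le_mul_of_nonneg_right h2 (Real.exp_pos _).le
        _ ≤ Real.exp ((-u + (-u) ^ 2) / K) * Real.exp (u / K * (1 - δ)) := by
            apply mul_le_mul_of_nonneg_right _ (Real.exp_pos _).le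
            apply Real.exp_le_exp.mpr
            exact div_le_div_of_nonneg_right h3 hK.le
        _ = _ := by
            rw [← Real.exp_add]
            congr 1
            rw [hu]
            field_simp
            ring
    · simp only [if_true]
      rw [integral_mul_const]
      have h2 := exp_moment P (Z j) (hZ j) K hK (h0 j) (h1 j) (hmean j) u
      have h3 := exp_le_quad (u := u) hu1
      calc _ ≤ Real.exp ((Real.exp u - 1) / K) * Real.exp (-(u / K * (1 + δ))) :=
            mul_le_mul_of_nonneg_right h2 (Real.exp_pos _).le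
        _ ≤ Real.exp ((u + u ^ 2) / K) * Real.exp (-(u / K * (1 + δ))) := by
            apply mul_le_mul_of_nonneg_right _ (Real.exp_pos _).le
            apply Real.exp_le_exp.mpr
            exact div_le_div_of_nonneg_right h3 hK.le
        _ = _ := by
            rw [← Real.exp_add]
            congr 1
            rw [hu]
            field_simp
            ring
  obtain ⟨w, hw⟩ := exists_product P g hg0 hgi q hgq N
  refine ⟨w, fun j => ?_⟩
  have hcard : (Fintype.card (J × Bool) : ℝ) = 2 * Fintype.card J := by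
    rw [Fintype.card_prod, Fintype.card_bool]; push_cast; ring
  have hlt : (Fintype.card (J × Bool) : ℝ) * q ^ N < 1 := by
    rw [hcard, hq, ← Real.exp_nat_mul]
    have hJ : (0:ℝ) ≤ Fintype.card J := Nat.cast_nonneg _
    have h2 : Real.log (2 * Fintype.card J + 1) ≤ (N : ℝ) * (δ ^ 2 / (4 * K)) := by
      have h3 : 4 * K / δ ^ 2 * Real.log (2 * Fintype.card J + 1) * (δ ^ 2 / (4 * K)) ≤
          (N : ℝ) * (δ ^ 2 / (4 * K)) := mul_le_mul_of_nonneg_right hN (by positivity)
      have h4 : 4 * K / δ ^ 2 * Real.log (2 * Fintype.card J + 1) * (δ ^ 2 / (4 * K)) =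
          Real.log (2 * Fintype.card J + 1) := by field_simp
      linarith
    have h5 : Real.exp (N * -(δ ^ 2 / (4 * K))) ≤ (2 * Fintype.card J + 1 : ℝ)⁻¹ := by
      rw [← Real.exp_log (show (0:ℝ) < 2 * Fintype.card J + 1 by positivity), ← Real.exp_neg]
      apply Real.exp_le_exp.mpr
      linarith
    calc 2 * (Fintype.card J : ℝ) * Real.exp (N * -(δ ^ 2 / (4 * K))) ≤
          2 * (Fintype.card J : ℝ) * (2 * Fintype.card J + 1 : ℝ)⁻¹ :=
            mul_le_mul_of_nonneg_left h5 (by positivity)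
      _ < 1 := by
          rw [← div_eq_mul_inv, div_lt_one (by positivity)]
          linarith
  have hprod : ∀ jb : J × Bool, ∏ i, g jb (w i) < 1 := by
    intro jb
    have h2 : ∏ i, g jb (w i) ≤ ∑ jb', ∏ i, g jb' (w i) :=
      single_le_sum (f := fun jb' => ∏ i, g jb' (w i)) (fun jb' _ => prod_nonneg (fun i _ => hg0 _ _))
        (mem_univ jb)
    linarith
  have hup := hprod (j, true)
  have hlo := hprod (j, false)
  rw [hg] at hup hlo
  simp only [if_true, Bool.false_eq_true, if_false] at hup hlo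
  simp only [← Real.exp_add] at hup hlo
  rw [← Real.exp_sum, Real.exp_lt_one_iff] at hup hlo
  rw [sum_add_distrib, ← mul_sum] at hup hlo
  simp only [sum_const, card_univ, Fintype.card_fin, nsmul_eq_mul] at hup hlo
  have hKu : 0 < u / K := by positivity
  rw [abs_le]
  constructor
  · have : (u / K) * (-(∑ i, Z j (w i)) + N * (1 - δ)) < 0 := by
      calc _ = -u / K * ∑ i, Z j (w i) + N * (u / K * (1 - δ)) := by ring
        _ < 0 := hlo
    have h2 := neg_of_mul_neg_right this hKu.le
    linarith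
  · have : (u / K) * ((∑ i, Z j (w i)) - N * (1 + δ)) < 0 := by
      calc _ = u / K * ∑ i, Z j (w i) + N * -(u / K * (1 + δ)) := by ring
        _ < 0 := hup
    have h2 := neg_of_mul_neg_right this hKu.le
    linarith

end Vale.Agent.P249
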