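import Vale.Agent.P249.Grow

open Finset

namespace Vale.Agent.P249

variable {V : Type*} [DecidableEq V]

/-- every nonempty subfamily has an edge dominating the rest for some potential -/
def Thin (k : ℕ) (E : Finset (V × V)) : Prop :=
  ∀ H ⊆ E, H.Nonempty → ∃ e ∈ H, ∃ φ : V → ℝ,
    ∑ e' ∈ H.erase e, |φ e'.1 - φ e'.2| ^ k < |φ e.1 - φ e.2| ^ k

/-- a thin family has linearly many edges -/
lemma thin_card (k : ℕ) (hk : 1 ≤ k) : ∃ C : ℝ, 0 < C ∧ ∀ {V : Type} [DecidableEq V] [Fintype V]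
    (E : Finset (V × V)), Thin k E → (E.card : ℝ) ≤ C * Fintype.card V := by
  obtain ⟨j0, hj1, hj2⟩ := exists_level k hk
  refine ⟨2 * (2 ^ j0 + 1 + 8 ^ k), by positivity, ?_⟩
  intro V _ _ E hE
  by_contra hcon
  push Not at hcon
  set C : ℝ := 2 * (2 ^ j0 + 1 + 8 ^ k) with hC
  have hCpos : 0 < C := by positivity
  have h0 := (th_pos (k := k)).le
  have h1 := (th_lt_one (k := k)).le
  obtain ⟨S, κ, hS, hCκ, hκ, hT⟩ := exists_extremal E (th k) h0 C hCpos hcon
  have hloop : ∀ e ∈ E, e.1 ≠ e.2 := by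
    intro e he heq
    obtain ⟨e', he', φ, hφ⟩ := hE {e} (singleton_subset_iff.mpr he) (singleton_nonempty e)
    rw [mem_singleton] at he'
    subst he'
    rw [heq] at hφ
    have hk0 : k ≠ 0 := by omega
    simp [hk0] at hφ
  have hSc : (0 : ℝ) < S.card := by exact_mod_cast hS.card_pos
  have hm : (inn E S).Nonempty := by
    rw [nonempty_iff_ne_empty]
    intro h
    rw [h] at hκ
    simp only [card_empty, Nat.cast_zero, zero_mul, mul_eq_zero] at hκ
    rcases hκ with h | h
    · linarith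
    · linarith
  obtain ⟨e0, he0, φ, hφ⟩ := hE (inn E S) (filter_subset _ _) hm
  have hiso : ∀ T : Finset V, T ⊆ S →
      ((inn E T).card : ℝ) * (lam (th k) (inn E T).card - lam (th k) (inn E S).card)
        ≤ 2 * (bd E S T).card := fun T hTS => iso E (th k) h0 h1 S T κ hκ hT hTS
  have hxS : e0.1 ∈ S ∧ e0.2 ∈ S := by
    simp only [inn, mem_filter] at he0
    exact he0.2
  set Δ := φ e0.1 - φ e0.2 with hΔ
  have hΔ0 : Δ ≠ 0 := by
    intro h
    rw [h] at hφ
    have hk0 : k ≠ 0 := by omega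
    simp only [abs_zero, ne_eq, hk0, not_false_eq_true, zero_pow] at hφ
    have : 0 ≤ ∑ e' ∈ (inn E S).erase e0, |φ e'.1 - φ e'.2| ^ k := sum_nonneg (fun _ _ => by positivity)
    linarith
  have hΔpos : 0 < |Δ| ^ k := by positivity
  -- finishing lemma
  have fin : ∀ (ψ : V → ℝ) (x : V), x ∈ S → ψ x = 1 →
      ∑ e ∈ (inn E S).erase e0, |ψ e.1 - ψ e.2| ^ k < 1 →
      2 * (inn E (S.filter (fun z => 1 / 2 < ψ z))).card ≤ (inn E S).card → False := by
    intro ψ x hx hψx hsum hhalf
    refine grow k hk j0 hj1 hj2 E S ψ e0 hiso hsum hhalf ?_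
    have hst := step E S {x} ψ 1 (1 / 8) (by norm_num) k e0 hsum (singleton_subset_iff.mpr hx)
      (by intro z hz; rw [mem_singleton] at hz; rw [hz, hψx])
    have hdeg := min_deg E (th k) h0 h1 S κ hκ hT hloop x hx
    have e1 : (1 : ℝ) - 1 / 8 = 7 / 8 := by norm_num
    rw [e1] at hst
    have e2 : ((1 / 8 : ℝ)⁻¹) ^ k = 8 ^ k := by norm_num
    rw [e2] at hst
    have e3 : (0:ℝ) ≤ (inn E {x}).card := Nat.cast_nonneg _
    rw [hC] at hCκ
    linarith
  -- the two normalised potentials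
  set ψ : V → ℝ := fun z => (φ z - φ e0.2) / Δ with hψ
  have hψ1 : ψ e0.1 = 1 := by
    rw [hψ]; simp only; rw [← hΔ]; exact div_self hΔ0
  have hψ2 : ψ e0.2 = 0 := by
    rw [hψ]; simp
  have hsum : ∑ e ∈ (inn E S).erase e0, |ψ e.1 - ψ e.2| ^ k < 1 := by
    have : ∑ e ∈ (inn E S).erase e0, |ψ e.1 - ψ e.2| ^ k =
        (∑ e ∈ (inn E S).erase e0, |φ e.1 - φ e.2| ^ k) / |Δ| ^ k := by
      rw [sum_div]
      apply sum_congr rfl
      intro e _
      rw [hψ]
      simp only
      rw [← sub_div, sub_sub_sub_cancel_right, abs_div, div_pow]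
    rw [this, div_lt_one hΔpos]
    exact hφ
  have hdisj : (inn E (S.filter (fun z => 1 / 2 < ψ z))).card +
      (inn E (S.filter (fun z => 1 / 2 < 1 - ψ z))).card ≤ (inn E S).card := by
    rw [← card_union_of_disjoint]
    · apply card_le_card
      exact union_subset (inn_mono (filter_subset _ _)) (inn_mono (filter_subset _ _))
    · rw [disjoint_left]
      intro e he he'
      simp only [inn, mem_filter] at he he'
      linarith [he.2.1.2, he'.2.1.2]
  rcases le_or_gt (2 * (inn E (S.filter (fun z => 1 / 2 < ψ z))).card) (inn E S).card with h | h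
  · exact fin ψ e0.1 hxS.1 hψ1 hsum h
  · refine fin (fun z => 1 - ψ z) e0.2 hxS.2 (by simp [hψ2]) ?_ (by omega)
    refine lt_of_le_of_lt (le_of_eq ?_) hsum
    apply sum_congr rfl
    intro e _
    have : (1 - ψ e.1 - (1 - ψ e.2)) = -(ψ e.1 - ψ e.2) := by ring
    rw [this, abs_neg]

/-- greedy selection -/
lemma greedy (k : ℕ) (d : V → V → ℝ) (P : Finset (V × V)) (hd : ∀ e ∈ P, 0 < d e.1 e.2) :
    ∃ G ⊆ P, Thin k G ∧ ∀ φ : V → ℝ, ∀ e ∈ P, (|φ e.1 - φ e.2| / d e.1 e.2) ^ k ≤
      ∑ e' ∈ G, (|φ e'.1 - φ e'.2| / d e'.1 e'.2) ^ k := by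
  classical
  induction P using Finset.induction_on_max_value (fun e : V × V => d e.1 e.2) with
  | empty => exact ⟨∅, subset_rfl, by intro H hH hne; rw [subset_empty] at hH; simp [hH] at hne, by simp⟩
  | insert a s ha hmax ih =>
    obtain ⟨G, hGs, hthin, hdom⟩ := ih (fun e he => hd e (mem_insert_of_mem he))
    by_cases hcase : ∀ φ : V → ℝ, (|φ a.1 - φ a.2| / d a.1 a.2) ^ k ≤
      ∑ e' ∈ G, (|φ e'.1 - φ e'.2| / d e'.1 e'.2) ^ k
    · refine ⟨G, hGs.trans (subset_insert _ _), hthin, ?_⟩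
      intro φ e he
      rw [mem_insert] at he
      rcases he with rfl | he
      · exact hcase φ
      · exact hdom φ e he
    · push Not at hcase
      obtain ⟨φ, hφ⟩ := hcase
      have haG : a ∉ G := fun h => ha (hGs h)
      refine ⟨insert a G, insert_subset_insert _ hGs, ?_, ?_⟩
      · intro H hH hne
        by_cases haH : a ∈ H
        · refine ⟨a, haH, φ, ?_⟩
          have hda : 0 < d a.1 a.2 := hd a (mem_insert_self _ _)
          have hsub : H.erase a ⊆ G := by
            intro e he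
            rw [mem_erase] at he
            have := hH he.2
            rw [mem_insert] at this
            exact this.resolve_left he.1
          have h1 : ∑ e' ∈ H.erase a, (|φ e'.1 - φ e'.2| / d a.1 a.2) ^ k ≤
              ∑ e' ∈ H.erase a, (|φ e'.1 - φ e'.2| / d e'.1 e'.2) ^ k := by
            apply sum_le_sum
            intro e he
            have heG := hsub he
            have hes := hGs heG
            apply pow_le_pow_left₀ (by positivity)
            apply div_le_div_of_nonneg_left (abs_nonneg _) (hd e (mem_insert_of_mem hes)) (hmax e hes)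
          have h2 : ∑ e' ∈ H.erase a, (|φ e'.1 - φ e'.2| / d e'.1 e'.2) ^ k ≤
              ∑ e' ∈ G, (|φ e'.1 - φ e'.2| / d e'.1 e'.2) ^ k := by
            apply sum_le_sum_of_subset_of_nonneg hsub
            intro e he _
            have := hd e (mem_insert_of_mem (hGs he))
            positivity
          have h3 := lt_of_le_of_lt (h1.trans h2) hφ
          simp only [div_pow] at h3
          rw [← sum_div] at h3
          exact (div_lt_div_iff_of_pos_right (by positivity)).mp h3
        · apply hthin H _ hne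
          intro e he
          have := hH he
          rw [mem_insert] at this
          rcases this with rfl | h
          · exact absurd he haH
          · exact h
      · intro ψ e he
        rw [mem_insert] at he
        rw [sum_insert haG]
        rcases he with rfl | he
        · have : 0 ≤ ∑ e' ∈ G, (|ψ e'.1 - ψ e'.2| / d e'.1 e'.2) ^ k := by
            apply sum_nonneg
            intro e' he'
            have := hd e' (mem_insert_of_mem (hGs he'))
            positivity
          linarith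
        · have h1 := hdom ψ e he
          have : 0 ≤ (|ψ a.1 - ψ a.2| / d a.1 a.2) ^ k := by
            have := hd a (mem_insert_self _ _)
            positivity
          linarith

/-- Selection theorem, natural exponents. -/
theorem selection_nat (k : ℕ) (hk : 1 ≤ k) : ∃ C : ℝ, 0 < C ∧
    ∀ {V : Type} [DecidableEq V] [Fintype V] (d : V → V → ℝ), (∀ i j, i ≠ j → 0 < d i j) →
      ∃ G : Finset (V × V), (∀ e ∈ G, e.1 ≠ e.2) ∧ (G.card : ℝ) ≤ C * Fintype.card V ∧
        ∀ φ : V → ℝ, ∀ i j, i ≠ j → (|φ i - φ j| / d i j) ^ k ≤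
          ∑ e ∈ G, (|φ e.1 - φ e.2| / d e.1 e.2) ^ k := by
  obtain ⟨C, hC, hthin⟩ := thin_card k hk
  refine ⟨C, hC, ?_⟩
  intro V _ _ d hd
  obtain ⟨G, hG, hGthin, hdom⟩ := greedy k d ((univ : Finset (V × V)).filter (fun e => e.1 ≠ e.2))
    (by intro e he; rw [mem_filter] at he; exact hd _ _ he.2)
  refine ⟨G, ?_, hthin G hGthin, ?_⟩
  · intro e he
    have := hG he
    rw [mem_filter] at this
    exact this.2
  · intro φ i j hij
    exact hdom φ (i, j) (by simp [hij])

/-- Selection theorem, real exponents. -/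
theorem selection (p : ℝ) (hp : 1 ≤ p) : ∃ C : ℝ, 0 < C ∧
    ∀ {V : Type} [DecidableEq V] [Fintype V] (d : V → V → ℝ), (∀ i j, i ≠ j → 0 < d i j) →
      ∃ G : Finset (V × V), (∀ e ∈ G, e.1 ≠ e.2) ∧ (G.card : ℝ) ≤ C * Fintype.card V ∧
        ∀ φ : V → ℝ, ∀ i j, i ≠ j → (|φ i - φ j| / d i j) ^ p ≤
          ∑ e ∈ G, (|φ e.1 - φ e.2| / d e.1 e.2) ^ p := by
  set k := ⌈p⌉₊ with hk
  have hpk : p ≤ k := Nat.le_ceil p
  have hk1 : 1 ≤ k := by
    have : (1:ℝ) ≤ k := le_trans hp hpk
    exact_mod_cast this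
  obtain ⟨C, hC, hsel⟩ := selection_nat k hk1
  refine ⟨C, hC, ?_⟩
  intro V _ _ d hd
  obtain ⟨G, hG1, hG2, hG3⟩ := hsel d hd
  refine ⟨G, hG1, hG2, ?_⟩
  intro φ i j hij
  have hp0 : 0 < p := by linarith
  set r : V × V → ℝ := fun e => |φ e.1 - φ e.2| / d e.1 e.2 with hr
  have hr0 : ∀ e ∈ G, 0 ≤ r e := by
    intro e he
    have := hd _ _ (hG1 e he)
    rw [hr]; positivity
  have hrij : 0 ≤ |φ i - φ j| / d i j := by
    have := hd i j hij
    positivity
  set M : ℝ := (∑ e ∈ G, r e ^ p) ^ (1 / p) with hM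
  have hsum0 : 0 ≤ ∑ e ∈ G, r e ^ p := sum_nonneg (fun e he => Real.rpow_nonneg (hr0 e he) _)
  have hM0 : 0 ≤ M := Real.rpow_nonneg hsum0 _
  have hMp : M ^ p = ∑ e ∈ G, r e ^ p := by
    rw [hM, ← Real.rpow_mul hsum0, one_div_mul_cancel hp0.ne', Real.rpow_one]
  have hle : ∀ e ∈ G, r e ≤ M := by
    intro e he
    have h1 : r e ^ p ≤ M ^ p := by
      rw [hMp]
      exact single_le_sum (f := fun e => r e ^ p) (fun e he => Real.rpow_nonneg (hr0 e he) _) he
    exact (Real.rpow_le_rpow_iff (hr0 e he) hM0 hp0).mp h1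
  have hk' : (|φ i - φ j| / d i j) ^ k ≤ M ^ k := by
    refine (hG3 φ i j hij).trans ?_
    have h2 : ∀ e ∈ G, (|φ e.1 - φ e.2| / d e.1 e.2) ^ k ≤ r e ^ p * M ^ ((k:ℝ) - p) := by
      intro e he
      have h3 : (|φ e.1 - φ e.2| / d e.1 e.2) ^ k = r e ^ ((p : ℝ) + ((k:ℝ) - p)) := by
        rw [← Real.rpow_natCast]
        congr 1
        ring
      rw [h3]
      rcases eq_or_lt_of_le (hr0 e he) with h4 | h4
      · rw [← h4, Real.zero_rpow (by linarith)]
        have : (0:ℝ) ^ p = 0 := Real.zero_rpow hp0.ne'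
        rw [this, zero_mul]
      · rw [Real.rpow_add h4]
        apply mul_le_mul_of_nonneg_left _ (Real.rpow_nonneg h4.le _)
        exact Real.rpow_le_rpow h4.le (hle e he) (by linarith)
    refine (sum_le_sum h2).trans ?_
    rw [← sum_mul, ← hMp]
    rcases eq_or_lt_of_le hM0 with h4 | h4
    · rw [← h4, Real.zero_rpow hp0.ne', zero_mul]
      positivity
    · rw [← Real.rpow_add h4, ← Real.rpow_natCast]
      apply le_of_eq
      congr 1
      ring
  have h5 : |φ i - φ j| / d i j ≤ M := le_of_pow_le_pow_left₀ (by omega) hM0 hk'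
  calc (|φ i - φ j| / d i j) ^ p ≤ M ^ p := Real.rpow_le_rpow hrij h5 hp0.le
    _ = ∑ e ∈ G, (|φ e.1 - φ e.2| / d e.1 e.2) ^ p := hMp

end Vale.Agent.P249
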