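import Mathlib

open MeasureTheory Metric Set
open scoped NNReal ContDiff Convolution

namespace Vale.Agent.P249

variable {E : Type*} [NormedAddCommGroup E] [InnerProductSpace ℝ E] [FiniteDimensional ℝ E]
  [MeasurableSpace E] [BorelSpace E]

/-- smooth Lipschitz approximation of Lipschitz functions -/
lemma exists_smooth_lip (F : E → ℝ) (K : ℝ≥0) (hF : LipschitzWith K F) (ε : ℝ) (hε : 0 < ε) :
    ∃ g : E → ℝ, ContDiff ℝ 1 g ∧ LipschitzWith K g ∧ ∀ x, |g x - F x| ≤ ε := by
  set r : ℝ := ε / (K + 1) with hr
  have hr0 : 0 < r := by positivity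
  set φ : ContDiffBump (0 : E) := ⟨r / 2, r, half_pos hr0, half_lt_self hr0⟩
  set μ : Measure E := volume
  have hFc : Continuous F := hF.continuous
  refine ⟨φ.normed μ ⋆[ContinuousLinearMap.lsmul ℝ ℝ, μ] F, ?_, ?_, ?_⟩
  · exact (φ.hasCompactSupport_normed.contDiff_convolution_left _ φ.contDiff_normed
      hFc.locallyIntegrable)
  · apply LipschitzWith.of_dist_le_mul
    intro x y
    rw [Real.dist_eq, convolution_def, convolution_def]
    have hint : ∀ z : E, Integrable (fun t => (ContinuousLinearMap.lsmul ℝ ℝ) (φ.normed μ t) (F (z - t))) μ := by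
      intro z
      apply Continuous.integrable_of_hasCompactSupport
      · simp only [ContinuousLinearMap.lsmul_apply, smul_eq_mul]
        exact (φ.continuous_normed).mul (hFc.comp (continuous_const.sub continuous_id))
      · simp only [ContinuousLinearMap.lsmul_apply, smul_eq_mul]
        exact HasCompactSupport.mul_right φ.hasCompactSupport_normed
    rw [← integral_sub (hint x) (hint y)]
    calc |∫ t, (ContinuousLinearMap.lsmul ℝ ℝ) (φ.normed μ t) (F (x - t)) -
          (ContinuousLinearMap.lsmul ℝ ℝ) (φ.normed μ t) (F (y - t)) ∂μ|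
        ≤ ∫ t, φ.normed μ t * (K * dist x y) ∂μ := by
          rw [← Real.norm_eq_abs]
          apply norm_integral_le_of_norm_le (φ.integrable_normed.mul_const _)
          filter_upwards with t
          simp only [ContinuousLinearMap.lsmul_apply, smul_eq_mul]
          rw [← mul_sub, norm_mul, Real.norm_eq_abs, abs_of_nonneg (φ.nonneg_normed t)]
          apply mul_le_mul_of_nonneg_left _ (φ.nonneg_normed t)
          have := hF.dist_le_mul (x - t) (y - t)
          rw [dist_sub_right, Real.dist_eq] at this
          exact this
      _ = K * dist x y := by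
          rw [integral_mul_const, φ.integral_normed, one_mul]
  · intro x
    have h := φ.dist_normed_convolution_le (μ := μ) (x₀ := x) (ε := ε) (g := F)
      hFc.aestronglyMeasurable ?_
    · rwa [Real.dist_eq] at h
    · intro z hz
      refine (hF.dist_le_mul z x).trans ?_
      rw [mem_ball] at hz
      have h1 : dist z x ≤ r := hz.le
      calc (K : ℝ) * dist z x ≤ K * r := mul_le_mul_of_nonneg_left h1 K.2
        _ ≤ (K + 1) * r := by nlinarith
        _ = ε := by rw [hr]; field_simp

end Vale.Agent.P249
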