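import Vale.Agent.P249.Nrm
import Vale.Agent.P249.Scalar
import Vale.Agent.P249.Kernel

open Finset

namespace Vale.Agent.P249

/-- Minkowski assembly of the coordinatewise energy bound. -/
lemma energy_assembly {ι : Type} [Fintype ι] {p : ℝ} (hp : 1 ≤ p) (T : ℕ) (lam : ℕ → ℝ)
    (hlam : ∀ s, 0 < lam s) (W ρ L : ℝ) (hW : 0 < W) (hρ : 0 ≤ ρ)
    (g H H' : ι → ℝ) (m m' : ι → ℕ → ℝ) (fx fy : ι → ℝ)
    (ha : nrm p (fun i => fx i - fy i) ≤ ρ)
    (hH : nrm p H ≤ 6 * L + 1) (hH' : nrm p H' ≤ 6 * L + 1)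
    (hm : ∑ s ∈ Ico 1 T, lam s * nrm p (fun i => m i s - fx i) ≤ 2 * L)
    (hm' : ∑ s ∈ Ico 1 T, lam s * nrm p (fun i => m' i s - fy i) ≤ 2 * L)
    (key : ∀ i, |g i| ≤ |fx i - fy i| + 8 * ρ / W * (H i + H' i) +
      4 * ρ / W * ∑ s ∈ Ico 1 T, lam s * (|m i s - fx i| + |m' i s - fy i|)) :
    nrm p g ≤ (1 + (112 * L + 16) / W) * ρ := by
  have hc1 : 0 ≤ 8 * ρ / W := by positivity
  have hc2 : 0 ≤ 4 * ρ / W := by positivity
  have e0 : nrm p g ≤ nrm p (fun i => (|fx i - fy i| + 8 * ρ / W * (H i + H' i)) +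
      4 * ρ / W * ∑ s ∈ Ico 1 T, lam s * (|m i s - fx i| + |m' i s - fy i|)) := by
    apply nrm_mono hp
    intro i
    exact (key i).trans (le_abs_self _)
  have e1 := nrm_add_le hp (fun i => |fx i - fy i| + 8 * ρ / W * (H i + H' i))
    (fun i => 4 * ρ / W * ∑ s ∈ Ico 1 T, lam s * (|m i s - fx i| + |m' i s - fy i|))
  have e2 := nrm_add_le hp (fun i => |fx i - fy i|) (fun i => 8 * ρ / W * (H i + H' i))
  have e3 : nrm p (fun i => |fx i - fy i|) = nrm p (fun i => fx i - fy i) := by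
    unfold nrm; simp
  have e4 : nrm p (fun i => 8 * ρ / W * (H i + H' i)) ≤ 8 * ρ / W * (2 * (6 * L + 1)) := by
    rw [nrm_const_mul hp, abs_of_nonneg hc1]
    apply mul_le_mul_of_nonneg_left _ hc1
    have := nrm_add_le hp H H'
    linarith
  have e5 : nrm p (fun i => 4 * ρ / W * ∑ s ∈ Ico 1 T, lam s * (|m i s - fx i| + |m' i s - fy i|)) ≤
      4 * ρ / W * (4 * L) := by
    rw [nrm_const_mul hp, abs_of_nonneg hc2]
    apply mul_le_mul_of_nonneg_left _ hc2
    refine (nrm_sum_le hp (Ico 1 T) (fun s i => lam s * (|m i s - fx i| + |m' i s - fy i|))).trans ?_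
    have e6 : ∀ s ∈ Ico 1 T, nrm p (fun i => lam s * (|m i s - fx i| + |m' i s - fy i|)) ≤
        lam s * nrm p (fun i => m i s - fx i) + lam s * nrm p (fun i => m' i s - fy i) := by
      intro s _
      rw [nrm_const_mul hp, abs_of_pos (hlam s), ← mul_add]
      apply mul_le_mul_of_nonneg_left _ (hlam s).le
      refine (nrm_add_le hp _ _).trans (le_of_eq ?_)
      unfold nrm; simp
    refine (sum_le_sum e6).trans ?_
    rw [sum_add_distrib]
    linarith
  have e7 : (1 + (112 * L + 16) / W) * ρ = (ρ + 8 * ρ / W * (2 * (6 * L + 1))) +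
      4 * ρ / W * (4 * L) := by
    field_simp
    ring
  rw [e7]
  rw [e3] at e2
  linarith


lemma exists_big {V : Type} [Fintype V] (W : ℝ) (hW : 0 < W) (d : V → V → ℝ)
    (hd0 : ∀ x y, 0 ≤ d x y) :
    ∃ Λ : ℝ, 0 < Λ ∧ ∀ x y, 0 < d x y → W ≤ Λ * d x y := by
  classical
  have h0 : 0 ≤ ∑ e : V × V, W / d e.1 e.2 :=
    sum_nonneg (fun e _ => div_nonneg hW.le (hd0 _ _))
  refine ⟨∑ e : V × V, W / d e.1 e.2 + 1, by linarith, ?_⟩
  intro x y h1
  have h2 : W / d x y ≤ ∑ e : V × V, W / d e.1 e.2 :=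
    single_le_sum (f := fun e : V × V => W / d e.1 e.2)
      (fun e _ => div_nonneg hW.le (hd0 _ _)) (mem_univ (x, y))
  calc W = W / d x y * d x y := by field_simp
    _ ≤ (∑ e : V × V, W / d e.1 e.2 + 1) * d x y :=
        mul_le_mul_of_nonneg_right (by linarith) h1.le

theorem split {V ι : Type} [Fintype V] [Fintype ι] [Nonempty V] {p : ℝ} (hp : 1 ≤ p)
    (f : V → ι → ℝ) (hf : Function.Injective f) (W : ℝ) (hW : 1 ≤ W) :
    ∃ (H : V → ι → ℝ) (κ : ι → ℝ), (∀ x i, 0 ≤ H x i) ∧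
      (∀ x, nrm p (H x) ≤ 6 * Real.log (Fintype.card V) + 1) ∧
      ∀ θ : ℝ, 0 < θ → ∃ h : V → ι → ℝ,
        (∀ x y, nrm p (fun i => h x i - h y i) ≤
          (1 + (112 * Real.log (Fintype.card V) + 16) / W) * nrm p (fun i => f x i - f y i)) ∧
        (∀ x y i, |h x i - h y i| ≤ 600 * θ * nrm p (fun i => f x i - f y i)) ∧
        (∀ x i, H x i ≤ θ * Real.exp (-W) → h x i = f x i - κ i) := by
  classical
  have hW0 : 0 < W := by linarith
  have hp0 : 0 < p := by linarith
  set d : V → V → ℝ := fun x y => nrm p (fun i => f x i - f y i) with hd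
  have hd0 : ∀ x y, 0 ≤ d x y := fun x y => nrm_nonneg _
  have hdpos : ∀ x y, x ≠ y → 0 < d x y := by
    intro x y hxy
    rcases eq_or_lt_of_le (hd0 x y) with h | h
    · exfalso
      apply hxy
      apply hf
      funext i
      have h1 := abs_le_nrm hp (fun i => f x i - f y i) i
      have h2 : nrm p (fun i => f x i - f y i) = 0 := h.symm
      rw [h2] at h1
      have h3 := abs_nonpos_iff.mp h1
      linarith
    · exact h
  obtain ⟨Λ, hΛ0, hΛd'⟩ := exists_big W hW0 d hd0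
  have hΛd : ∀ x y, x ≠ y → W ≤ Λ * d x y := fun x y hxy => hΛd' x y (hdpos x y hxy)
  obtain ⟨T, lam, τ, m, hlam, hanti, hlam0, hτ, hm0, hmT, hrat, hD, hm, hHn, hmn⟩ :=
    exists_scales hp f Λ hΛ0
  obtain ⟨x0⟩ := ‹Nonempty V›
  refine ⟨fun x i => tail T (τ x i) 0, fun i => m x0 i T, fun x i => tail_nonneg (hτ x i) 0, hHn, ?_⟩
  intro θ hθ
  refine ⟨fun x i => hsum θ W T (τ x i) (m x i), ?_, ?_, ?_⟩
  · intro x y
    have hlog : 0 ≤ Real.log (Fintype.card V) := by
      apply Real.log_nonneg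
      exact_mod_cast Fintype.card_pos_iff.mpr ⟨x0⟩
    rcases eq_or_ne x y with rfl | hxy
    · simp only [sub_self]
      rw [nrm_zero hp, mul_zero]
    · have hρ : 0 ≤ d x y := hd0 x y
      refine energy_assembly hp T lam hlam W (d x y) (Real.log (Fintype.card V)) hW0 hρ _
        (fun i => tail T (τ x i) 0) (fun i => tail T (τ y i) 0)
        (m x) (m y) (f x) (f y) (le_refl _) (hHn x) (hHn y) (hmn x) (hmn y) ?_
      intro i
      have := scalar_energy (θ := θ) (W := W) (ρ := d x y) (T := T) (lam := lam) (τ := τ x i)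
          (τ' := τ y i) (p := m x i) (q := m y i) hθ hW0 hρ hlam (hτ x i) (hτ y i)
          (fun s h1 h2 => hrat x y i s h1 h2)
          (fun s h1 h2 => by
            have := hrat y x i s h1 h2
            rw [nrm_sub_comm] at this
            exact this)
          (fun s hs => hD y i s hs) (fun s h1 h2 => hm x y i s h1 h2) (hmT x y i)
          (by rw [hlam0]; exact hΛd x y hxy)
      rw [hm0, hm0] at this
      exact this
  · intro x y i
    rcases eq_or_ne x y with rfl | hxy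
    · simp only [sub_self, abs_zero]
      rw [nrm_zero hp, mul_zero]
    · exact scalar_lip (θ := θ) (W := W) (ρ := d x y) (T := T) (lam := lam) (τ := τ x i)
          (τ' := τ y i) (p := m x i) (q := m y i) hθ hW (hd0 x y) hlam hanti (hτ x i) (hτ y i)
          (fun s h1 h2 => hrat x y i s h1 h2)
          (fun s h1 h2 => by
            have := hrat y x i s h1 h2
            rw [nrm_sub_comm] at this
            exact this)
          (fun s hs => hD x i s hs) (fun s hs => hD y i s hs)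
          (fun s h1 h2 => hm x y i s h1 h2) (hmT x y i)
          (by rw [hlam0]; exact hΛd x y hxy)
  · intro x i hH
    have h1 : ∀ s ∈ range T, cut θ W (tail T (τ x i) s) * (m x i s - m x i (s + 1)) =
        m x i s - m x i (s + 1) := by
      intro s _
      rw [cut_eq_one hθ hW0 ((tail_anti (hτ x i) (Nat.zero_le s)).trans hH), one_mul]
    show hsum θ W T (τ x i) (m x i) = f x i - m x0 i T
    unfold hsum
    rw [sum_congr rfl h1, sum_range_sub', hm0, hmT x x0 i]

end Vale.Agent.P249
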