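import Vale.Agent.P249.Avg
import Vale.Agent.P249.CfgMain
import Vale.Agent.P249.LevelFn

/-! P249, all distortions: the splitting of the embedding into levels. -/

open Finset MeasureTheory

namespace Vale.Agent.P249

namespace Split2Aux

lemma exp_half {t : ℝ} (h0 : 0 ≤ t) (h1 : t ≤ 1) : Real.exp (t / 2) ≤ 1 + t := by
  have h2 := Real.add_one_le_exp (-(t / 2))
  have h3 : 0 < 1 - t / 2 := by linarith
  have h4 : Real.exp (t / 2) * Real.exp (-(t / 2)) = 1 := by
    rw [← Real.exp_add]; simp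
  have h5 := Real.exp_pos (t / 2)
  nlinarith

lemma one_add_rpow {p δ : ℝ} (hp : 1 ≤ p) (h0 : 0 ≤ δ) (h1 : δ ≤ 1) :
    (1 + δ / (2 * p)) ^ p ≤ 1 + δ := by
  have hp0 : 0 < p := by linarith
  have h2 : 1 + δ / (2 * p) ≤ Real.exp (δ / (2 * p)) := by
    have := Real.add_one_le_exp (δ / (2 * p))
    linarith
  have h3 : 0 ≤ 1 + δ / (2 * p) := by positivity
  refine (Real.rpow_le_rpow h3 h2 hp0.le).trans ?_
  rw [← Real.exp_mul]
  have h4 : δ / (2 * p) * p = δ / 2 := by field_simp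
  rw [h4]
  exact exp_half h0 h1

lemma one_sub_rpow {p δ : ℝ} (hp : 1 ≤ p) (h0 : 0 ≤ δ) (h1 : δ ≤ 1) :
    1 - δ ≤ (1 - δ / (2 * p)) ^ p := by
  have hp0 : 0 < p := by linarith
  have h2 : δ / (2 * p) ≤ 1 := by
    rw [div_le_one (by positivity)]; linarith
  have h3 := one_add_mul_self_le_rpow_one_add (s := -(δ / (2 * p))) (by linarith) hp
  have h4 : p * -(δ / (2 * p)) = -(δ / 2) := by field_simp
  rw [h4, ← sub_eq_add_neg, ← sub_eq_add_neg] at h3
  linarith

end Split2Aux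

open Split2Aux in
theorem split2 {p : ℝ} (hp : 1 < p) {δ η : ℝ} (hδ : 0 < δ) (hδ1 : δ ≤ 1) (hη : 0 < η)
    (hη1 : η ≤ 1) :
    ∃ n0 X : ℝ, 2 ≤ n0 ∧ 1 ≤ X ∧ ∀ (V : Type) [Fintype V] (ι : Type) [Fintype ι] (f : V → ι → ℝ),
      Function.Injective f → n0 ≤ Fintype.card V → ∀ L0 : ℕ,
      ∃ (Ξ : Type) (_ : Fintype Ξ) (_ : Nonempty Ξ) (φ : Ξ → ℕ → V → ι → ℝ),
        (∀ x y, (1 - δ) * dd p f x y ^ p * Fintype.card Ξ ≤
            ∑ ξ, ∑ l ∈ range (L0 + 2), nrm p (fun i => φ ξ l x i - φ ξ l y i) ^ p ∧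
          ∑ ξ, ∑ l ∈ range (L0 + 2), nrm p (fun i => φ ξ l x i - φ ξ l y i) ^ p ≤
            (1 + δ) * dd p f x y ^ p * Fintype.card Ξ) ∧
        (∀ ξ, ∀ l ∈ range (L0 + 2), ∀ x y i, |φ ξ l x i - φ ξ l y i| ≤
          X * dd p f x y * Real.exp (((l : ℝ) + 1 - L0) * (η * Real.log (Fintype.card V)))) ∧
        (∀ ξ, ∀ l ∈ range (L0 + 2), 1 ≤ l → ∀ x,
          (((univ.filter fun i => φ ξ l x i ≠ 0).card : ℕ) : ℝ) ≤
            (X * Real.log (Fintype.card V) /
              Real.exp (((l : ℝ) - 1 - L0) * (η * Real.log (Fintype.card V)))) ^ p) := by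
  have hp1 : 1 ≤ p := hp.le
  have hp0 : 0 < p := by linarith
  have hδ' : 0 < δ / (2 * p) := by positivity
  have hδ'1 : δ / (2 * p) ≤ 1 := by
    rw [div_le_one (by positivity)]; linarith
  obtain ⟨n0, X, hn0, hX, hA⟩ := exists_cfgs hp hδ' hδ'1 hη hη1
  refine ⟨n0, X + 50000, hn0, by linarith, ?_⟩
  intro V _ ι _ f hf hcard L0
  obtain ⟨hW12, hXe, Ξ, iF, iN, c, hc, hcost⟩ := hA V ι f hf hcard
  set W : ℝ := η * Real.log (Fintype.card V) with hWdef
  have hW : 0 < W := by linarith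
  have hlog : 0 ≤ Real.log (Fintype.card V) := by
    have h1 : (1 : ℝ) ≤ Fintype.card V := by linarith
    exact Real.log_nonneg h1
  obtain ⟨lv⟩ := exists_lev hp1 hW L0
  have hN : (0 : ℝ) < Fintype.card Ξ := by
    have := Fintype.card_pos (α := Ξ)
    exact_mod_cast this
  refine ⟨Ξ, iF, iN, fun ξ l x i => (c ξ).phi lv.a l x i, ?_, ?_, ?_⟩
  · intro x y
    obtain ⟨R, hR⟩ : ∃ R : Ξ → ℝ, R = fun ξ => (∑ l ∈ range (L0 + 2),
      nrm p (fun i => (c ξ).phi lv.a l x i - (c ξ).phi lv.a l y i) ^ p) ^ (1 / p) := ⟨_, rfl⟩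
    have hR0 : ∀ ξ, 0 ≤ R ξ := fun ξ => by
      rw [hR]
      exact Real.rpow_nonneg (sum_nonneg fun l _ => Real.rpow_nonneg (nrm_nonneg _) _) _
    have hRp : ∀ ξ, R ξ ^ p = ∑ l ∈ range (L0 + 2),
        nrm p (fun i => (c ξ).phi lv.a l x i - (c ξ).phi lv.a l y i) ^ p := fun ξ => by
      rw [hR]
      show (_ : ℝ) ^ p = _
      rw [← Real.rpow_mul (sum_nonneg fun l _ => Real.rpow_nonneg (nrm_nonneg _) _),
        one_div_mul_cancel hp0.ne', Real.rpow_one]
    have hsum : ∑ ξ, ∑ l ∈ range (L0 + 2),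
        nrm p (fun i => (c ξ).phi lv.a l x i - (c ξ).phi lv.a l y i) ^ p = nrm p R ^ p := by
      rw [nrm_rpow hp1]
      refine sum_congr rfl fun ξ _ => ?_
      rw [abs_of_nonneg (hR0 ξ), hRp ξ]
    rw [hsum]
    set ρ : ℝ := dd p f x y with hρ
    have hρ0 : 0 ≤ ρ := dd_nonneg p f x y
    -- norm of the costs
    have hA1 : ∀ z, nrm p (fun ξ => 120000 / W * (c ξ).cost z) ≤
        (Fintype.card Ξ : ℝ) ^ (1 / p) * (δ / (2 * p)) := by
      intro z
      have hcz : ∀ ξ, 0 ≤ 120000 / W * (c ξ).cost z := by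
        intro ξ
        refine mul_nonneg (by positivity) ?_
        have h1 := hc ξ
        have hQ := (c ξ).hQ
        have hlogQ : 0 ≤ Real.log (c ξ).Q := Real.log_nonneg (by linarith)
        have hR' : 0 < (c ξ).R := lt_of_lt_of_le h1.2.2.1 h1.2.2.2.1
        have hε' := (c ξ).hε
        have hsig : 0 ≤ (c ξ).sig z := by
          unfold Cfg.sig
          exact sum_nonneg fun j _ => (c ξ).u_nonneg j z
        have hlogR : 0 ≤ Real.log ((c ξ).Q * (c ξ).R / (c ξ).U) := by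
          refine Real.log_nonneg ?_
          rw [le_div_iff₀ h1.2.2.1]
          nlinarith [h1.2.2.2.1, h1.2.2.1]
        have hU1 : 0 ≤ (c ξ).U ^ (1 - 1 / p) := Real.rpow_nonneg h1.2.2.1.le _
        have hR1 : 0 ≤ (c ξ).R ^ (1 / p) := Real.rpow_nonneg hR'.le _
        have hU0 := h1.2.2.1
        have hQ0 : 0 < (c ξ).Q := by linarith
        unfold Cfg.cost
        split_ifs
        · unfold Cfg.cst
          positivity
        · positivity
      have h1 := hcost z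
      have h2 : nrm p (fun ξ => 120000 / W * (c ξ).cost z) ^ p ≤
          (Fintype.card Ξ : ℝ) * (δ / (2 * p)) ^ p := by
        rw [nrm_rpow hp1]
        refine le_trans (le_of_eq ?_) h1
        refine sum_congr rfl fun ξ _ => ?_
        rw [abs_of_nonneg (hcz ξ)]
      have h3 := Real.rpow_le_rpow (Real.rpow_nonneg (nrm_nonneg _) _) h2
        (show 0 ≤ 1 / p by positivity)
      rw [← Real.rpow_mul (nrm_nonneg _), mul_one_div_cancel hp0.ne', Real.rpow_one,
        Real.mul_rpow hN.le (by positivity), ← Real.rpow_mul hδ'.le,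
        mul_one_div_cancel hp0.ne', Real.rpow_one] at h3
      exact h3
    have hdiff : nrm p (fun ξ => R ξ - ρ) ≤ ρ * ((Fintype.card Ξ : ℝ) ^ (1 / p) * (δ / (2 * p))) := by
      have h1 : nrm p (fun ξ => R ξ - ρ) ≤ nrm p (fun ξ => ρ / 2 *
          (120000 / W * (c ξ).cost x + 120000 / W * (c ξ).cost y)) := by
        refine nrm_mono hp1 fun ξ => ?_
        have h2 := cfg_energy hp1 (c ξ) (hc ξ).1 (hc ξ).2.1 (hc ξ).2.2.1 (hc ξ).2.2.2.1 hW lv x y
        have h3 : R ξ = (∑ l ∈ range (L0 + 2),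
          nrm p (fun i => (c ξ).phi lv.a l x i - (c ξ).phi lv.a l y i) ^ p) ^ (1 / p) := by
          rw [hR]
        rw [h3]
        refine h2.trans ((le_of_eq ?_).trans (le_abs_self _))
        rw [← hρ]
        ring
      refine h1.trans ?_
      rw [nrm_const_mul hp1, abs_of_nonneg (by positivity)]
      have h2 := nrm_add_le hp1 (fun ξ => 120000 / W * (c ξ).cost x)
        (fun ξ => 120000 / W * (c ξ).cost y)
      have h3 := hA1 x
      have h4 := hA1 y
      calc ρ / 2 * nrm p (fun ξ => 120000 / W * (c ξ).cost x + 120000 / W * (c ξ).cost y)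
          ≤ ρ / 2 * (2 * ((Fintype.card Ξ : ℝ) ^ (1 / p) * (δ / (2 * p)))) :=
            mul_le_mul_of_nonneg_left (by linarith) (by positivity)
        _ = _ := by ring
    have hconst : nrm p (fun _ : Ξ => ρ) = (Fintype.card Ξ : ℝ) ^ (1 / p) * ρ := by
      unfold nrm
      rw [sum_const, card_univ, nsmul_eq_mul, Real.mul_rpow hN.le (by positivity),
        ← Real.rpow_mul (abs_nonneg _), mul_one_div_cancel hp0.ne', Real.rpow_one,
        abs_of_nonneg hρ0]
    have hup : nrm p R ≤ (Fintype.card Ξ : ℝ) ^ (1 / p) * ρ * (1 + δ / (2 * p)) := by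
      have h1 := nrm_add_le hp1 (fun ξ => R ξ - ρ) (fun _ : Ξ => ρ)
      simp only [sub_add_cancel] at h1
      rw [hconst] at h1
      calc nrm p R ≤ _ := h1
        _ ≤ ρ * ((Fintype.card Ξ : ℝ) ^ (1 / p) * (δ / (2 * p))) +
            (Fintype.card Ξ : ℝ) ^ (1 / p) * ρ := by linarith
        _ = _ := by ring
    have hlow : (Fintype.card Ξ : ℝ) ^ (1 / p) * ρ * (1 - δ / (2 * p)) ≤ nrm p R := by
      have h1 := nrm_add_le hp1 (fun ξ => ρ - R ξ) R
      simp only [sub_add_cancel] at h1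
      rw [hconst, nrm_sub_comm (fun _ : Ξ => ρ) R] at h1
      have h2 : (Fintype.card Ξ : ℝ) ^ (1 / p) * ρ * (1 - δ / (2 * p)) =
        (Fintype.card Ξ : ℝ) ^ (1 / p) * ρ - ρ * ((Fintype.card Ξ : ℝ) ^ (1 / p) * (δ / (2 * p))) := by
        ring
      rw [h2]
      linarith
    have hNp : ((Fintype.card Ξ : ℝ) ^ (1 / p)) ^ p = Fintype.card Ξ := by
      rw [← Real.rpow_mul hN.le, one_div_mul_cancel hp0.ne', Real.rpow_one]
    have hNr : 0 ≤ (Fintype.card Ξ : ℝ) ^ (1 / p) := Real.rpow_nonneg hN.le _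
    have hm : 0 ≤ 1 - δ / (2 * p) := by linarith
    constructor
    · have h1 := Real.rpow_le_rpow (by positivity) hlow hp0.le
      rw [Real.mul_rpow (by positivity) hm, Real.mul_rpow hNr hρ0, hNp] at h1
      refine le_trans ?_ h1
      have h2 := one_sub_rpow hp1 hδ.le hδ1
      calc (1 - δ) * ρ ^ p * (Fintype.card Ξ : ℝ)
          ≤ (1 - δ / (2 * p)) ^ p * (ρ ^ p * (Fintype.card Ξ : ℝ)) := by
            rw [mul_assoc]
            exact mul_le_mul_of_nonneg_right h2 (by positivity)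
        _ = _ := by ring
    · have h1 := Real.rpow_le_rpow (nrm_nonneg _) hup hp0.le
      rw [Real.mul_rpow (by positivity) (by positivity), Real.mul_rpow hNr hρ0, hNp] at h1
      refine h1.trans ?_
      have h2 := one_add_rpow hp1 hδ.le hδ1
      calc (Fintype.card Ξ : ℝ) * ρ ^ p * (1 + δ / (2 * p)) ^ p
          ≤ (Fintype.card Ξ : ℝ) * ρ ^ p * (1 + δ) :=
            mul_le_mul_of_nonneg_left h2 (by positivity)
        _ = _ := by ring
  · intro ξ l hl x y i
    have h1 := hc ξ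
    have hT : 0 ≤ 10 * (((c ξ).B : ℝ) + 1) * (c ξ).Q ^ ((c ξ).B + 1) * (c ξ).R := by
      have hQ : 0 < (c ξ).Q := by linarith [(c ξ).hQ]
      have hR' : 0 < (c ξ).R := lt_of_lt_of_le h1.2.2.1 h1.2.2.2.1
      positivity
    have h2 := cfg_lip hp1 (c ξ) h1.1 hW12 (by linarith [h1.2.2.2.2]) lv l hl x y i
    refine h2.trans ?_
    refine mul_le_mul_of_nonneg_right ?_ (Real.exp_pos _).le
    exact mul_le_mul_of_nonneg_right (by linarith) (dd_nonneg p f x y)
  · intro ξ l hl hl1 x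
    have h1 := hc ξ
    have h2 := cfg_supp hp1 (c ξ) h1.1 hW lv l hl1 x
    refine h2.trans ?_
    have hQ : 0 < (c ξ).Q := by linarith [(c ξ).hQ]
    have hR' : 0 < (c ξ).R := lt_of_lt_of_le h1.2.2.1 h1.2.2.2.1
    refine Real.rpow_le_rpow (by positivity) ?_ hp0.le
    refine div_le_div_of_nonneg_right ?_ (Real.exp_pos _).le
    refine h1.2.2.2.2.trans ?_
    exact mul_le_mul_of_nonneg_right (by linarith) hlog

end Vale.Agent.P249

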