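import Mathlib

open Finset

namespace Vale.Agent.P249

/-- edges of `E` with both endpoints in `T` -/
def inn {V : Type*} [DecidableEq V] (E : Finset (V × V)) (T : Finset V) : Finset (V × V) :=
  E.filter (fun e => e.1 ∈ T ∧ e.2 ∈ T)

/-- edges of `E` inside `S` with exactly one endpoint in `T` -/
def bd {V : Type*} [DecidableEq V] (E : Finset (V × V)) (S T : Finset V) : Finset (V × V) :=
  (inn E S).filter (fun e => (e.1 ∈ T ∧ e.2 ∉ T) ∨ (e.1 ∉ T ∧ e.2 ∈ T))

variable {V : Type*} [DecidableEq V]

lemma inn_mono {E : Finset (V × V)} {S T : Finset V} (h : S ⊆ T) : inn E S ⊆ inn E T := by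
  intro e he
  simp only [inn, mem_filter] at he ⊢
  exact ⟨he.1, h he.2.1, h he.2.2⟩

lemma card_inn_split (E : Finset (V × V)) {S T : Finset V} (h : T ⊆ S) :
    (inn E S).card = (inn E T).card + (inn E (S \ T)).card + (bd E S T).card := by
  have h1 : inn E S = (inn E T ∪ inn E (S \ T)) ∪ bd E S T := by
    ext e
    simp only [inn, bd, mem_filter, mem_union, mem_sdiff]
    constructor
    · rintro ⟨he, h1, h2⟩
      by_cases a : e.1 ∈ T <;> by_cases b : e.2 ∈ T <;> simp_all
    · rintro ((⟨he, h1, h2⟩ | ⟨he, h1, h2⟩) | ⟨⟨he, h1, h2⟩, h3⟩)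
      · exact ⟨he, h h1, h h2⟩
      · exact ⟨he, h1.1, h2.1⟩
      · exact ⟨he, h1, h2⟩
  rw [h1, card_union_of_disjoint, card_union_of_disjoint]
  · rw [disjoint_left]
    intro e he he'
    simp only [inn, mem_filter, mem_sdiff] at he he'
    exact he'.2.1.2 he.2.1
  · rw [disjoint_left]
    intro e he he'
    simp only [inn, bd, mem_union, mem_filter, mem_sdiff] at he he'
    rcases he with he | he <;> rcases he' with ⟨_, h3 | h3⟩
    · exact h3.2 he.2.2
    · exact h3.1 he.2.1
    · exact he.2.1.2 h3.1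
    · exact he.2.2.2 h3.2

/-- the weight function `lam θ m = 1 + θ ^ (log₂ m)` -/
noncomputable def lam (θ : ℝ) (m : ℕ) : ℝ := 1 + θ ^ (Nat.log 2 m)

lemma lam_antitone {θ : ℝ} (h0 : 0 ≤ θ) (h1 : θ ≤ 1) {a b : ℕ} (h : a ≤ b) :
    lam θ b ≤ lam θ a := by
  unfold lam
  have := pow_le_pow_of_le_one h0 h1 (Nat.log_mono_right (b := 2) h)
  linarith

lemma lam_le_two {θ : ℝ} (h0 : 0 ≤ θ) (h1 : θ ≤ 1) (a : ℕ) : lam θ a ≤ 2 := by
  unfold lam
  have := pow_le_one₀ h0 h1 (n := Nat.log 2 a)
  linarith

lemma one_le_lam {θ : ℝ} (h0 : 0 ≤ θ) (a : ℕ) : 1 ≤ lam θ a := by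
  unfold lam
  have := pow_nonneg h0 (Nat.log 2 a)
  linarith

/-- Extraction of an extremal vertex set. -/
lemma exists_extremal [Fintype V] (E : Finset (V × V)) (θ : ℝ) (h0 : 0 ≤ θ)
    (C : ℝ) (hC : 0 < C) (hE : C * Fintype.card V < E.card) :
    ∃ (S : Finset V) (κ : ℝ), S.Nonempty ∧ C < κ ∧
      κ * S.card = (inn E S).card * lam θ (inn E S).card ∧
      ∀ T : Finset V, (inn E T).card * lam θ (inn E T).card ≤ κ * T.card := by
  classical
  have hV : (univ : Finset V).Nonempty := by
    rw [nonempty_iff_ne_empty]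
    intro h
    have : E = ∅ := by
      rw [eq_empty_iff_forall_notMem]
      intro e _
      have := mem_univ e.1
      rw [h] at this
      simp at this
    rw [this] at hE
    simp at hE
    have : (0:ℝ) ≤ C * Fintype.card V := by positivity
    linarith
  set F : Finset V → ℝ := fun T => ((inn E T).card * lam θ (inn E T).card) / T.card with hF
  obtain ⟨S, hS, hmax⟩ := exists_max_image ((univ : Finset (Finset V)).filter (fun T => T.Nonempty)) F
    ⟨univ, by simp only [mem_filter, mem_univ, true_and]; exact hV⟩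
  simp only [mem_filter, mem_univ, true_and] at hS hmax
  have hSc : (0 : ℝ) < S.card := by exact_mod_cast hS.card_pos
  refine ⟨S, F S, hS, ?_, ?_, ?_⟩
  · have h2 := hmax univ hV
    have hcard : (0:ℝ) < (univ : Finset V).card := by exact_mod_cast hV.card_pos
    have h3 : C < F univ := by
      rw [hF]
      simp only
      rw [lt_div_iff₀ hcard]
      have h4 : inn E univ = E := by simp [inn]
      rw [h4]
      have h5 := one_le_lam h0 E.card
      have h6 : (E.card : ℝ) ≤ E.card * lam θ E.card := by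
        nlinarith [Nat.cast_nonneg (α := ℝ) E.card]
      rw [card_univ]
      linarith
    linarith
  · rw [hF]
    simp only
    field_simp
  · intro T
    rcases T.eq_empty_or_nonempty with rfl | hT
    · simp [inn]
    · have h2 := hmax T hT
      have hTc : (0 : ℝ) < T.card := by exact_mod_cast hT.card_pos
      have : F T * T.card = (inn E T).card * lam θ (inn E T).card := by
        rw [hF]; simp only; field_simp
      rw [← this]
      exact mul_le_mul_of_nonneg_right h2 hTc.le

/-- isoperimetric inequality inside the extremal set -/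
lemma iso (E : Finset (V × V)) (θ : ℝ) (h0 : 0 ≤ θ) (h1 : θ ≤ 1) (S T : Finset V) (κ : ℝ)
    (hκ : κ * S.card = (inn E S).card * lam θ (inn E S).card)
    (hT : ∀ T : Finset V, (inn E T).card * lam θ (inn E T).card ≤ κ * T.card) (hTS : T ⊆ S) :
    ((inn E T).card : ℝ) * (lam θ (inn E T).card - lam θ (inn E S).card) ≤ 2 * (bd E S T).card := by
  have hs := card_inn_split E hTS
  have hA := hT T
  have hB := hT (S \ T)
  have hcard : (S.card : ℝ) = T.card + (S \ T).card := by
    have := card_sdiff_add_card_eq_card hTS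
    rw [← this]; push_cast; ring
  have hb : lam θ (inn E S).card ≤ lam θ (inn E (S \ T)).card :=
    lam_antitone h0 h1 (card_le_card (inn_mono sdiff_subset))
  have h2 := lam_le_two h0 h1 (inn E S).card
  have hs' : ((inn E S).card : ℝ) = (inn E T).card + (inn E (S \ T)).card + (bd E S T).card := by
    rw [hs]; push_cast; ring
  have hnb : (0:ℝ) ≤ (inn E (S \ T)).card := Nat.cast_nonneg _
  have hnd : (0:ℝ) ≤ (bd E S T).card := Nat.cast_nonneg _
  set a : ℝ := ((inn E T).card : ℝ)
  set b : ℝ := ((inn E (S \ T)).card : ℝ)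
  set m : ℝ := ((inn E S).card : ℝ)
  set d : ℝ := ((bd E S T).card : ℝ)
  set lm := lam θ (inn E S).card
  set la := lam θ (inn E T).card
  set lb := lam θ (inn E (S \ T)).card
  have e1 : m * lm ≥ a * la + b * lb := by
    rw [← hκ, hcard]; linarith
  have e2 : b * lb ≥ b * lm := mul_le_mul_of_nonneg_left hb hnb
  have e3 : m * lm = a * lm + b * lm + d * lm := by rw [hs']; ring
  have e4 : d * lm ≤ d * 2 := mul_le_mul_of_nonneg_left h2 hnd
  nlinarith

/-- minimum degree in the extremal set -/
lemma min_deg (E : Finset (V × V)) (θ : ℝ) (h0 : 0 ≤ θ) (h1 : θ ≤ 1) (S : Finset V) (κ : ℝ)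
    (hκ : κ * S.card = (inn E S).card * lam θ (inn E S).card)
    (hT : ∀ T : Finset V, (inn E T).card * lam θ (inn E T).card ≤ κ * T.card)
    (hloop : ∀ e ∈ E, e.1 ≠ e.2)
    (x : V) (hx : x ∈ S) :
    κ ≤ 2 * (bd E S {x}).card := by
  have hTS : ({x} : Finset V) ⊆ S := singleton_subset_iff.mpr hx
  have hs := card_inn_split E hTS
  have hx0 : (inn E {x}).card = 0 := by
    rw [card_eq_zero, eq_empty_iff_forall_notMem]
    intro e he
    simp only [inn, mem_filter, mem_singleton] at he
    exact hloop e he.1 (by rw [he.2.1, he.2.2])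
  have hB := hT (S \ {x})
  have hcard : (S.card : ℝ) = 1 + (S \ {x}).card := by
    have := card_sdiff_add_card_eq_card hTS
    rw [← this]; push_cast; simp; ring
  have hb : lam θ (inn E S).card ≤ lam θ (inn E (S \ {x})).card :=
    lam_antitone h0 h1 (card_le_card (inn_mono sdiff_subset))
  have h2 := lam_le_two h0 h1 (inn E S).card
  have hs' : ((inn E S).card : ℝ) = (inn E (S \ {x})).card + (bd E S {x}).card := by
    rw [hs, hx0]; push_cast; ring
  have hnb : (0:ℝ) ≤ (inn E (S \ {x})).card := Nat.cast_nonneg _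
  have hnd : (0:ℝ) ≤ (bd E S {x}).card := Nat.cast_nonneg _
  set b : ℝ := ((inn E (S \ {x})).card : ℝ)
  set m : ℝ := ((inn E S).card : ℝ)
  set d : ℝ := ((bd E S {x}).card : ℝ)
  set lm := lam θ (inn E S).card
  set lb := lam θ (inn E (S \ {x})).card
  have e1 : m * lm ≥ κ + b * lb := by
    rw [← hκ, hcard]; linarith
  have e2 : b * lb ≥ b * lm := mul_le_mul_of_nonneg_left hb hnb
  have e3 : m * lm = b * lm + d * lm := by rw [hs']; ring
  have e4 : d * lm ≤ d * 2 := mul_le_mul_of_nonneg_left h2 hnd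
  nlinarith

end Vale.Agent.P249
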