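import Vale.Agent.P249.Defs
import Vale.Agent.P249.Select
import Vale.Agent.P249.Sample

open Finset MeasureTheory

namespace Vale.Agent.P249

lemma integral_abs_rpow {Ω : Type} [MeasurableSpace Ω] {μ : Measure Ω} {p : ℝ} (hp : 1 ≤ p)
    (x y : Lp ℝ (ENNReal.ofReal p) μ) :
    Integrable (fun ω => |x ω - y ω| ^ p) μ ∧ ∫ ω, |x ω - y ω| ^ p ∂μ = ‖x - y‖ ^ p := by
  have hp0 : 0 < p := by linarith
  have hq0 : ENNReal.ofReal p ≠ 0 := by simp [hp0]
  have hqt : ENNReal.ofReal p ≠ ⊤ := ENNReal.ofReal_ne_top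
  have hqr : (ENNReal.ofReal p).toReal = p := ENNReal.toReal_ofReal hp0.le
  have hmem := Lp.memLp (x - y)
  have hae : (fun ω => |(x - y : Lp ℝ (ENNReal.ofReal p) μ) ω| ^ p) =ᵐ[μ] fun ω => |x ω - y ω| ^ p := by
    filter_upwards [Lp.coeFn_sub x y] with ω hω
    rw [hω]; rfl
  constructor
  · have h1 := hmem.integrable_norm_rpow hq0 hqt
    rw [hqr] at h1
    exact h1.congr hae
  · have h2 := hmem.eLpNorm_eq_integral_rpow_norm hq0 hqt
    rw [hqr] at h2
    rw [Lp.norm_def, h2, ENNReal.toReal_ofReal (by positivity), ← Real.rpow_mul (by positivity),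
      inv_mul_cancel₀ hp0.ne', Real.rpow_one]
    exact (integral_congr_ae hae).symm

/-- embedding of one finite set with prescribed number of coordinates -/
lemma embed_one (p : ℝ) (hp : 1 ≤ p) (C : ℝ)
    (hsel : ∀ {V : Type} [DecidableEq V] [Fintype V] (d : V → V → ℝ), (∀ i j, i ≠ j → 0 < d i j) →
      ∃ G : Finset (V × V), (∀ e ∈ G, e.1 ≠ e.2) ∧ (G.card : ℝ) ≤ C * Fintype.card V ∧
        ∀ φ : V → ℝ, ∀ i j, i ≠ j → (|φ i - φ j| / d i j) ^ p ≤
          ∑ e ∈ G, (|φ e.1 - φ e.2| / d e.1 e.2) ^ p)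
    (n : ℕ) (hn : 2 ≤ n) (δ : ℝ) (hδ : 0 < δ) (hδ1 : δ < 1) (N : ℕ)
    (hN : 4 * (C * n) / δ ^ 2 * Real.log (2 * n ^ 2 + 1) ≤ N) :
    ∀ (Ω : Type) [MeasurableSpace Ω] (μ : Measure Ω) (X : Finset (Lp ℝ (ENNReal.ofReal p) μ)),
      X.card = n → ∃ f : Lp ℝ (ENNReal.ofReal p) μ → Fin N → ℝ, ∀ x ∈ X, ∀ y ∈ X,
        (1 - δ) * ‖x - y‖ ^ p ≤ ∑ k, |f x k - f y k| ^ p ∧
        ∑ k, |f x k - f y k| ^ p ≤ (1 + δ) * ‖x - y‖ ^ p := by
  classical
  intro Ω _ μ X hX
  have : Fact (1 ≤ ENNReal.ofReal p) := ⟨by simpa using ENNReal.ofReal_le_ofReal hp⟩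
  have hp0 : 0 < p := by linarith
  set d : X → X → ℝ := fun i j => ‖(i : Lp ℝ (ENNReal.ofReal p) μ) - j‖ with hd
  have hdpos : ∀ i j : X, i ≠ j → 0 < d i j := by
    intro i j hij
    rw [hd]
    exact norm_pos_iff.mpr (sub_ne_zero.mpr (fun h => hij (Subtype.ext h)))
  obtain ⟨G, hG1, hG2, hG3⟩ := hsel d hdpos
  rw [Fintype.card_coe, hX] at hG2
  -- G is nonempty
  have hGne : 0 < (G.card : ℝ) := by
    rcases Nat.eq_zero_or_pos G.card with h | h
    · exfalso
      rw [card_eq_zero] at h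
      have hone : 1 < X.card := by omega
      obtain ⟨a, ha, b, hb, hab⟩ := one_lt_card.mp hone
      have hab' : (⟨a, ha⟩ : X) ≠ ⟨b, hb⟩ := fun h => hab (congrArg Subtype.val h)
      have h1 := hG3 (fun i => if i = ⟨a, ha⟩ then 1 else 0) ⟨a, ha⟩ ⟨b, hb⟩ hab'
      rw [h] at h1
      simp only [if_true, hab'.symm, if_false, sum_empty, sub_zero, abs_one] at h1
      have h2 := hdpos _ _ hab'
      have h3 : 0 < (1 / d ⟨a, ha⟩ ⟨b, hb⟩) ^ p := Real.rpow_pos_of_pos (by positivity) _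
      linarith
    · exact_mod_cast h
  set K : ℝ := (G.card : ℝ) with hK
  -- measurability
  have hmeas : ∀ x : Lp ℝ (ENNReal.ofReal p) μ, Measurable (fun ω => x ω) :=
    fun x => (Lp.stronglyMeasurable x).measurable
  set r : X → X → Ω → ℝ := fun i j ω =>
    (|(i : Lp ℝ (ENNReal.ofReal p) μ) ω - (j : Lp ℝ (ENNReal.ofReal p) μ) ω| / d i j) ^ p with hr
  have hr0 : ∀ i j ω, i ≠ j → 0 ≤ r i j ω := by
    intro i j ω hij
    have := hdpos i j hij
    rw [hr]; positivity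
  have hrm : ∀ i j, Measurable (r i j) := by
    intro i j
    rw [hr]
    simp only
    exact ((((hmeas i).sub (hmeas j)).abs).div_const _).pow_const _
  have hri : ∀ i j, i ≠ j → Integrable (r i j) μ ∧ ∫ ω, r i j ω ∂μ = 1 := by
    intro i j hij
    have h1 := integral_abs_rpow hp (i : Lp ℝ (ENNReal.ofReal p) μ) j
    have h2 := hdpos i j hij
    have h3 : r i j = fun ω => |(i : Lp ℝ (ENNReal.ofReal p) μ) ω -
        (j : Lp ℝ (ENNReal.ofReal p) μ) ω| ^ p / (d i j) ^ p := by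
      rw [hr]
      funext ω
      exact Real.div_rpow (abs_nonneg _) h2.le _
    rw [h3]
    refine ⟨h1.1.div_const _, ?_⟩
    rw [integral_div, h1.2]
    exact div_self (Real.rpow_pos_of_pos h2 _).ne'
  set M : Ω → ℝ := fun ω => ∑ e ∈ G, r e.1 e.2 ω with hM
  have hM0 : ∀ ω, 0 ≤ M ω := fun ω => sum_nonneg (fun e he => hr0 _ _ _ (hG1 e he))
  have hMm : Measurable M := by
    rw [hM]
    exact Finset.measurable_fun_sum _ (fun e _ => hrm _ _)
  have hMi : Integrable M μ := integrable_finsetSum _ (fun e he => (hri _ _ (hG1 e he)).1)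
  have hMint : ∫ ω, M ω ∂μ = K := by
    rw [hM, integral_finsetSum _ (fun e he => (hri _ _ (hG1 e he)).1),
      sum_congr rfl (fun e he => (hri _ _ (hG1 e he)).2)]
    simp [hK]
  have hrM : ∀ i j ω, i ≠ j → r i j ω ≤ M ω := by
    intro i j ω hij
    exact hG3 (fun z => (z : Lp ℝ (ENNReal.ofReal p) μ) ω) i j hij
  -- the sampling measure
  set P : Measure Ω := μ.withDensity (fun ω => ENNReal.ofReal (M ω / K)) with hP
  have : IsProbabilityMeasure P := by
    constructor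
    rw [hP, withDensity_apply _ MeasurableSet.univ, setLIntegral_univ,
      ← ofReal_integral_eq_lintegral_ofReal (hMi.div_const _)
        (Filter.Eventually.of_forall (fun ω => div_nonneg (hM0 ω) hGne.le)),
      integral_div, hMint, div_self hGne.ne', ENNReal.ofReal_one]
  set J := {e : X × X // e.1 ≠ e.2} with hJ
  set Z : J → Ω → ℝ := fun e ω => K * r e.1.1 e.1.2 ω / M ω with hZ
  have hZm : ∀ e, Measurable (Z e) := fun e => ((hrm _ _).const_mul _).div hMm
  have hZ0 : ∀ e ω, 0 ≤ Z e ω := fun e ω =>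
    div_nonneg (mul_nonneg hGne.le (hr0 _ _ _ e.2)) (hM0 ω)
  have hZ1 : ∀ e ω, Z e ω ≤ K := by
    intro e ω
    rcases eq_or_lt_of_le (hM0 ω) with h | h
    · rw [hZ]; simp only; rw [← h, div_zero]; exact hGne.le
    · rw [hZ]; simp only
      rw [div_le_iff₀ h]
      exact mul_le_mul_of_nonneg_left (hrM _ _ _ e.2) hGne.le
  have hZmean : ∀ e, ∫ ω, Z e ω ∂P = 1 := by
    intro e
    have hmf : Measurable (fun ω => ENNReal.ofReal (M ω / K)) := (hMm.div_const K).ennreal_ofReal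
    rw [hP, integral_withDensity_eq_integral_toReal_smul hmf
      (Filter.Eventually.of_forall (fun ω => ENNReal.ofReal_lt_top))]
    rw [← (hri _ _ e.2).2]
    apply integral_congr_ae
    filter_upwards with ω
    rw [ENNReal.toReal_ofReal (div_nonneg (hM0 ω) hGne.le), smul_eq_mul]
    rcases eq_or_lt_of_le (hM0 ω) with h | h
    · have h1 := hrM _ _ ω e.2
      have h2 := hr0 _ _ ω e.2
      rw [← h] at h1 ⊢
      rw [zero_div, zero_mul]
      linarith
    · rw [hZ]; simp only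
      field_simp
  have hJcard : (Fintype.card J : ℝ) ≤ n ^ 2 := by
    have h1 : Fintype.card J ≤ Fintype.card (X × X) := Fintype.card_subtype_le _
    rw [Fintype.card_prod, Fintype.card_coe, hX] at h1
    have : ((Fintype.card J : ℕ) : ℝ) ≤ ((n * n : ℕ) : ℝ) := by exact_mod_cast h1
    push_cast at this
    rw [pow_two]
    exact this
  have hNK : 4 * K / δ ^ 2 * Real.log (2 * Fintype.card J + 1) ≤ N := by
    refine le_trans ?_ hN
    have hlog0 : 0 ≤ Real.log (2 * (Fintype.card J : ℝ) + 1) := by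
      apply Real.log_nonneg
      have : (0:ℝ) ≤ Fintype.card J := Nat.cast_nonneg _
      linarith
    apply mul_le_mul _ _ hlog0 _
    · apply div_le_div_of_nonneg_right _ (by positivity)
      linarith
    · apply Real.log_le_log (by positivity)
      linarith
    · have : 0 ≤ C * n := le_trans hGne.le hG2
      positivity
  obtain ⟨w, hw⟩ := sampling P Z hZm K hGne hZ0 hZ1 hZmean δ hδ hδ1.le N hNK
  have hNpos : 0 < (N : ℝ) := by
    refine lt_of_lt_of_le ?_ hN
    have h1 : 0 < C * n := lt_of_lt_of_le hGne hG2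
    have h2 : 0 < Real.log (2 * (n:ℝ) ^ 2 + 1) := by
      apply Real.log_pos
      have : (2:ℝ) ≤ n := by exact_mod_cast hn
      nlinarith
    positivity
  refine ⟨fun x k => x (w k) * (K / (N * M (w k))) ^ (1 / p), ?_⟩
  intro x hx y hy
  rcases eq_or_ne x y with rfl | hxy
  · simp only [sub_self, abs_zero, norm_zero]
    rw [Real.zero_rpow hp0.ne']
    simp
  · set i : X := ⟨x, hx⟩
    set j : X := ⟨y, hy⟩
    have hij : i ≠ j := fun h => hxy (congrArg Subtype.val h)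
    have hdij := hdpos i j hij
    have hterm : ∀ k, |x (w k) * (K / (N * M (w k))) ^ (1 / p) - y (w k) * (K / (N * M (w k))) ^ (1 / p)| ^ p
        = (d i j) ^ p / N * Z ⟨(i, j), hij⟩ (w k) := by
      intro k
      have hc0 : 0 ≤ K / (N * M (w k)) := div_nonneg hGne.le (mul_nonneg hNpos.le (hM0 _))
      rw [← sub_mul, abs_mul, Real.mul_rpow (abs_nonneg _) (abs_nonneg _),
        abs_of_nonneg (Real.rpow_nonneg hc0 _), ← Real.rpow_mul hc0, one_div_mul_cancel hp0.ne',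
        Real.rpow_one]
      have hrr : r i j (w k) = |x (w k) - y (w k)| ^ p / (d i j) ^ p := by
        rw [hr]
        exact Real.div_rpow (abs_nonneg _) hdij.le _
      rw [hZ]
      simp only
      rw [hrr]
      have hdp : (d i j) ^ p ≠ 0 := (Real.rpow_pos_of_pos hdij _).ne'
      rcases eq_or_lt_of_le (hM0 (w k)) with h | h
      · rw [← h]; simp
      · field_simp
    rw [sum_congr rfl (fun k _ => hterm k), ← mul_sum]
    have hwij := abs_le.mp (hw ⟨(i, j), hij⟩)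
    have hdeq : d i j = ‖x - y‖ := rfl
    have hdp0 : 0 < (d i j) ^ p / N := div_pos (Real.rpow_pos_of_pos hdij _) hNpos
    rw [← hdeq]
    constructor
    · calc (1 - δ) * (d i j) ^ p = (d i j) ^ p / N * (N - δ * N) := by field_simp
        _ ≤ _ := mul_le_mul_of_nonneg_left (by linarith [hwij.1]) hdp0.le
    · calc _ ≤ (d i j) ^ p / N * (N + δ * N) := mul_le_mul_of_nonneg_left (by linarith [hwij.2]) hdp0.le
        _ = (1 + δ) * (d i j) ^ p := by field_simp

/-- Upper bound: `d_p(n, D) ≤ C n log n / min(1, D - 1)^2`. -/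
theorem upper (p : ℝ) (hp : 1 ≤ p) : ∃ C : ℝ, 0 < C ∧ ∀ D : ℝ, 1 < D → ∀ n : ℕ, 2 ≤ n →
    ∃ d : ℕ, (d : ℝ) ≤ C * n * Real.log n / (min 1 (D - 1)) ^ 2 ∧ Suffices p D n d := by
  have hp0 : 0 < p := by linarith
  obtain ⟨C, hC, hsel⟩ := selection p hp
  refine ⟨256 * C + 2, by positivity, ?_⟩
  intro D hD n hn
  set η : ℝ := min 1 (D - 1) with hη
  have hη0 : 0 < η := lt_min one_pos (by linarith)
  have hη1 : η ≤ 1 := min_le_left _ _
  have hηD : 1 + η ≤ D := by have := min_le_right 1 (D - 1); linarith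
  set δ : ℝ := η / 4 with hδ
  have hδ0 : 0 < δ := by positivity
  have hδ1 : δ < 1 := by linarith
  have hn2 : (2:ℝ) ≤ n := by exact_mod_cast hn
  have hlogn : Real.log 2 ≤ Real.log n := Real.log_le_log (by norm_num) hn2
  have hlog2 : 1 / 2 < Real.log 2 := by have := Real.log_two_gt_d9; linarith
  set N : ℕ := ⌈4 * (C * n) / δ ^ 2 * Real.log (2 * n ^ 2 + 1)⌉₊ with hN
  have hN1 : 4 * (C * n) / δ ^ 2 * Real.log (2 * n ^ 2 + 1) ≤ N := Nat.le_ceil _
  refine ⟨N, ?_, ?_⟩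
  · have hlog0 : 0 ≤ Real.log (2 * (n:ℝ) ^ 2 + 1) := Real.log_nonneg (by nlinarith)
    have h1 : (N : ℝ) < 4 * (C * n) / δ ^ 2 * Real.log (2 * n ^ 2 + 1) + 1 :=
      Nat.ceil_lt_add_one (by positivity)
    have h2 : Real.log (2 * (n:ℝ) ^ 2 + 1) ≤ 4 * Real.log n := by
      rw [← Real.log_rpow (by linarith)]
      apply Real.log_le_log (by positivity)
      have h3 : (n:ℝ) ^ (4:ℝ) = (n:ℝ) ^ 2 * (n:ℝ) ^ 2 := by
        rw [show (4:ℝ) = ((4:ℕ):ℝ) by norm_num, Real.rpow_natCast]; ring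
      rw [h3]
      have h4 : (4:ℝ) ≤ (n:ℝ) ^ 2 := by nlinarith
      nlinarith
    have h5 : 4 * (C * n) / δ ^ 2 * Real.log (2 * (n:ℝ) ^ 2 + 1) ≤
        256 * C * n * Real.log n / η ^ 2 := by
      calc 4 * (C * n) / δ ^ 2 * Real.log (2 * (n:ℝ) ^ 2 + 1) ≤
            4 * (C * n) / δ ^ 2 * (4 * Real.log n) := mul_le_mul_of_nonneg_left h2 (by positivity)
        _ = _ := by rw [hδ]; field_simp; ring
    have h6 : 1 ≤ 2 * n * Real.log n / η ^ 2 := by
      rw [le_div_iff₀ (by positivity)]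
      nlinarith
    calc (N : ℝ) ≤ 256 * C * n * Real.log n / η ^ 2 + 2 * n * Real.log n / η ^ 2 := by linarith
      _ = _ := by ring
  · intro Ω _ μ X hX
    have hfact : Fact (1 ≤ ENNReal.ofReal p) := ⟨by simpa using ENNReal.ofReal_le_ofReal hp⟩
    obtain ⟨f, hf⟩ := embed_one p hp C hsel n hn δ hδ0 hδ1 N hN1 Ω μ X hX
    have h1δ : 0 < 1 - δ := by linarith
    refine ⟨f, (1 - δ) ^ (1 / p), Real.rpow_pos_of_pos h1δ _, ?_⟩
    intro x hx y hy
    obtain ⟨h1, h2⟩ := hf x hx y hy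
    have hnn : 0 ≤ ‖x - y‖ := norm_nonneg _
    have hpinv : 0 ≤ 1 / p := by positivity
    have hroot : (‖x - y‖ ^ p) ^ (1 / p) = ‖x - y‖ := by
      rw [← Real.rpow_mul hnn, mul_one_div_cancel hp0.ne', Real.rpow_one]
    have hnp : 0 ≤ ‖x - y‖ ^ p := Real.rpow_nonneg hnn _
    constructor
    · calc (1 - δ) ^ (1 / p) * ‖x - y‖ = ((1 - δ) * ‖x - y‖ ^ p) ^ (1 / p) := by
            rw [Real.mul_rpow h1δ.le hnp, hroot]
        _ ≤ _ := Real.rpow_le_rpow (by positivity) h1 hpinv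
    · have h3 : (∑ k, |f x k - f y k| ^ p) ^ (1 / p) ≤ ((1 + δ) * ‖x - y‖ ^ p) ^ (1 / p) :=
        Real.rpow_le_rpow (sum_nonneg (fun _ _ => by positivity)) h2 hpinv
      refine h3.trans ?_
      rw [Real.mul_rpow (by positivity) hnp, hroot]
      apply mul_le_mul_of_nonneg_right _ hnn
      -- (1+δ)^(1/p) ≤ D (1-δ)^(1/p)
      have h4 : (1 + δ) / (1 - δ) ≤ D := by
        rw [div_le_iff₀ h1δ]
        have : (1 + η) * (1 - δ) ≤ D * (1 - δ) := mul_le_mul_of_nonneg_right hηD h1δ.le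
        refine le_trans ?_ this
        rw [hδ]
        nlinarith
      have h5 : ((1 + δ) / (1 - δ)) ^ (1 / p) ≤ (1 + δ) / (1 - δ) := by
        have h6 : 1 ≤ (1 + δ) / (1 - δ) := by rw [le_div_iff₀ h1δ]; linarith
        calc _ ≤ ((1 + δ) / (1 - δ)) ^ (1:ℝ) := by
              apply Real.rpow_le_rpow_of_exponent_le h6
              rw [div_le_one hp0]; exact hp
          _ = _ := Real.rpow_one _
      rw [Real.div_rpow (by positivity) h1δ.le] at h5
      have h7 : (1 + δ) ^ (1 / p) / (1 - δ) ^ (1 / p) ≤ D := h5.trans h4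
      rwa [div_le_iff₀ (Real.rpow_pos_of_pos h1δ _)] at h7

end Vale.Agent.P249
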